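import Mathlib

/-!
# Row 309, new Section 6 (architect: helper3).  File 1: cochain-level cohomology

`CohHyp S` collects the only facts about `Γ` that the new Section 6 uses:
infinite, torsion free, generated by the finite set `S`, and, on the triangle complex
(vertices `Γ`, edges `(g,s)`, `s ∈ S`, triangles `(g,s₁,s₂)` with `s₁ s₂ ∈ S`):
* `sc2`      : every `ZMod 2` cocycle is a gradient                (simple connectivity mod 2)
* `oneEnded` : a vertex set with finite coboundary is finite or cofinite   (`H¹(Γ;F₂Γ)=0`)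
* `h2c`      : a finitely supported 2-cochain of the form `dα` is `dη`, `η` finitely supported
               (`H²(Γ;F₂Γ)=0`).
Edge cochains are functions `Γ → Γ → ZMod 2`, only the values at `(g,s)`, `s ∈ S`, matter.

`LocFree ρ N`: every finite subset of the subspace `N` lies in the span of a family
`(ρ g (v i))_{(g,i) ∈ Γ × Fin r}` which is linearly independent, `v i ∈ N`.
(Z1) `LocFree.cocycle_coboundary`, (Z2) `LocFree.lift_coboundary`.
-/

set_option autoImplicit false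

namespace Claimed.Agent.R309.S6

open Set

variable {Γ : Type} [Group Γ]

/-- the triangle coboundary of an edge cochain (characteristic 2) -/
def dTri (α : Γ → Γ → ZMod 2) (g s₁ s₂ : Γ) : ZMod 2 :=
  α g s₁ + α (g * s₁) s₂ + α g (s₁ * s₂)

/-- makes Lean write the unfolding lemma of `dTri` in this file -/
theorem dTri_unfold (α : Γ → Γ → ZMod 2) (g s₁ s₂ : Γ) :
    dTri α g s₁ s₂ = α g s₁ + α (g * s₁) s₂ + α g (s₁ * s₂) := by rw [dTri]

/-- hypotheses on `Γ` used by the new Section 6 -/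
structure CohHyp (S : Finset Γ) : Prop where
  inf : Infinite Γ
  tf : ∀ g : Γ, g ≠ 1 → ∀ n : ℕ, 0 < n → g ^ n ≠ 1
  gen : Subgroup.closure (S : Set Γ) = ⊤
  sc2 : ∀ c : Γ → Γ → ZMod 2,
    (∀ g s₁ s₂, s₁ ∈ S → s₂ ∈ S → s₁ * s₂ ∈ S → dTri c g s₁ s₂ = 0) →
    ∃ φ : Γ → ZMod 2, ∀ g s, s ∈ S → c g s = φ (g * s) + φ g
  oneEnded : ∀ W : Set Γ, {g | g ∈ W ∧ ∃ s ∈ S, g * s ∉ W}.Finite → W.Finite ∨ Wᶜ.Finite
  h2c : ∀ α : Γ → Γ → ZMod 2,
    {g | ∃ s₁ ∈ S, ∃ s₂ ∈ S, s₁ * s₂ ∈ S ∧ dTri α g s₁ s₂ ≠ 0}.Finite →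
    ∃ η : Γ → Γ → ZMod 2, {g | ∃ s ∈ S, η g s ≠ 0}.Finite ∧
      ∀ g s₁ s₂, s₁ ∈ S → s₂ ∈ S → s₁ * s₂ ∈ S → dTri η g s₁ s₂ = dTri α g s₁ s₂

variable {M : Type} [AddCommGroup M] [Module (ZMod 2) M]

theorem z2_add_self (x : M) : x + x = 0 := by
  have h : (2 : ZMod 2) • x = 0 := by
    have h2 : (2 : ZMod 2) = 0 := by decide
    rw [h2, zero_smul]
  rwa [two_smul] at h

theorem z2_neg (x : M) : -x = x := neg_eq_of_add_eq_zero_left (z2_add_self x)

theorem z2_add_eq_zero {x y : M} : x + y = 0 ↔ x = y := by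
  rw [add_eq_zero_iff_eq_neg, z2_neg]

theorem z2_sub (x y : M) : x - y = x + y := by rw [sub_eq_add_neg, z2_neg]

/-- locally free subspace of a representation -/
def LocFree (ρ : Representation (ZMod 2) Γ M) (N : Submodule (ZMod 2) M) : Prop :=
  ∀ A : Finset M, (A : Set M) ⊆ N →
    ∃ (r : ℕ) (v : Fin r → M), (∀ i, v i ∈ N) ∧
      LinearIndependent (ZMod 2) (fun p : Γ × Fin r => ρ p.1 (v p.2)) ∧
      (A : Set M) ⊆ Submodule.span (ZMod 2) (range fun p : Γ × Fin r => ρ p.1 (v p.2))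

/-- equivariant triangle coboundary of `ψ : S → M` -/
def dEq (ρ : Representation (ZMod 2) Γ M) (ψ : Γ → M) (s₁ s₂ : Γ) : M :=
  ψ s₁ + ρ s₁ (ψ s₂) + ψ (s₁ * s₂)

end Claimed.Agent.R309.S6
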