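import Mathlib

/-!
# Row 309: convergence actions, abstract basics (Tukia / Bowditch Memoir L6.2, P6.4), part 1

Owner: helper173.  Prefix `cv_`.  `Γ` acts by homeomorphisms on a compact Hausdorff space `B`.

* `ConvSeq g a b` : the sequence `g n` collapses: `g n K → a` for every compact `K` missing `b` (open-set form);
* `ConvAct Γ B`   : every injective sequence has a collapsing subsequence.

Results: duality `ConvSeq.inv`; pointwise limits; three points cannot stay apart (`ConvSeq.not_three`);
elements of infinite order: `cv_exists_fix` (collapsing powers, both limit points fixed, every fixed point is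
one of them), closed invariant sets contain a fixed point.
-/

set_option autoImplicit false
set_option linter.unusedSectionVars false

namespace Claimed.Agent.R309

open Set Filter Topology

variable {Γ : Type*} [Group Γ] {B : Type*} [TopologicalSpace B] [MulAction Γ B]

/-- the sequence `g` collapses `B \ {b}` to `a`, locally uniformly -/
def ConvSeq (g : ℕ → Γ) (a b : B) : Prop :=
  ∀ K : Set B, IsCompact K → b ∉ K → ∀ W : Set B, IsOpen W → a ∈ W →
    ∀ᶠ n in atTop, ∀ x ∈ K, g n • x ∈ W

variable (Γ B) in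
/-- convergence action -/
def ConvAct : Prop :=
  ∀ g : ℕ → Γ, Function.Injective g → ∃ (φ : ℕ → ℕ) (a b : B), StrictMono φ ∧ ConvSeq (g ∘ φ) a b

theorem ConvSeq.tendsto {g : ℕ → Γ} {a b : B} (h : ConvSeq g a b) {x : B} (hx : x ≠ b) :
    Tendsto (fun n => g n • x) atTop (𝓝 a) := by
  rw [tendsto_nhds]
  intro W hW haW
  have := h {x} isCompact_singleton (by simpa using hx.symm) W hW haW
  filter_upwards [this] with n hn
  exact hn x rfl

theorem ConvSeq.subseq {g : ℕ → Γ} {a b : B} (h : ConvSeq g a b) {φ : ℕ → ℕ} (hφ : StrictMono φ) :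
    ConvSeq (g ∘ φ) a b := fun K hK hb W hW ha =>
  hφ.tendsto_atTop.eventually (h K hK hb W hW ha)

/-- duality -/
theorem ConvSeq.inv [CompactSpace B] [T2Space B] {g : ℕ → Γ} {a b : B} (h : ConvSeq g a b) :
    ConvSeq (fun n => (g n)⁻¹) b a := by
  intro K hK ha W hW hb
  have h1 := h Wᶜ hW.isClosed_compl.isCompact (by simpa using hb) Kᶜ hK.isClosed.isOpen_compl ha
  filter_upwards [h1] with n hn x hx
  by_contra hcon
  have := hn ((g n)⁻¹ • x) hcon
  rw [smul_inv_smul] at this
  exact this hx

/-- three distinct points cannot converge to three distinct points -/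
theorem ConvSeq.not_three [T2Space B] {g : ℕ → Γ} {a b : B} (h : ConvSeq g a b) {x y z x' y' z' : B}
    (hxy : x ≠ y) (hxz : x ≠ z) (hyz : y ≠ z) (hx : Tendsto (fun n => g n • x) atTop (𝓝 x'))
    (hy : Tendsto (fun n => g n • y) atTop (𝓝 y')) (hz : Tendsto (fun n => g n • z) atTop (𝓝 z')) :
    x' = y' ∨ x' = z' ∨ y' = z' := by
  by_cases hxb : x = b
  · have hyb : y ≠ b := fun h' => hxy (hxb.trans h'.symm)
    have hzb : z ≠ b := fun h' => hxz (hxb.trans h'.symm)
    exact Or.inr (Or.inr ((tendsto_nhds_unique hy (h.tendsto hyb)).trans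
      (tendsto_nhds_unique hz (h.tendsto hzb)).symm))
  · by_cases hyb : y = b
    · have hzb : z ≠ b := fun h' => hyz (hyb.trans h'.symm)
      exact Or.inr (Or.inl ((tendsto_nhds_unique hx (h.tendsto hxb)).trans
        (tendsto_nhds_unique hz (h.tendsto hzb)).symm))
    · exact Or.inl ((tendsto_nhds_unique hx (h.tendsto hxb)).trans
        (tendsto_nhds_unique hy (h.tendsto hyb)).symm)

section Powers

variable [ContinuousConstSMul Γ B] [T2Space B]

/-- the attracting point of a collapsing sequence of powers is fixed -/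
theorem cv_fix_attr {g : Γ} {φ : ℕ → ℕ} {a b : B} (h : ConvSeq (fun n => g ^ φ n) a b)
    (hB : ∃ z : B, z ≠ b ∧ g • z ≠ b) : g • a = a := by
  obtain ⟨z, hz, hgz⟩ := hB
  have h1 := h.tendsto hz
  have h2 := h.tendsto hgz
  have h3 : Tendsto (fun n => g • (g ^ φ n • z)) atTop (𝓝 (g • a)) :=
    ((continuous_const_smul g).tendsto a).comp h1
  have e : (fun n => g • (g ^ φ n • z)) = fun n => g ^ φ n • (g • z) := by
    funext n
    rw [smul_smul, smul_smul, ← pow_succ', ← pow_succ]
  rw [e] at h3
  exact tendsto_nhds_unique h3 h2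

theorem cv_pow_smul_fixed {g : Γ} {z : B} (hz : g • z = z) (n : ℕ) : g ^ n • z = z := by
  induction n with
  | zero => simp
  | succ n ih => rw [pow_succ, mul_smul, hz, ih]

theorem cv_inv_smul_fixed {g : Γ} {z : B} (hz : g • z = z) : g⁻¹ • z = z := by
  rw [inv_smul_eq_iff, hz]

theorem cv_zpow_smul_fixed {g : Γ} {z : B} (hz : g • z = z) (n : ℤ) : g ^ n • z = z := by
  cases n with
  | ofNat n => simpa using cv_pow_smul_fixed hz n
  | negSucc n =>
    rw [zpow_negSucc, ← inv_pow]
    exact cv_pow_smul_fixed (cv_inv_smul_fixed hz) _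

/-- a point fixed by all members of a collapsing sequence is one of the two limit points -/
theorem ConvSeq.fixed_mem {k : ℕ → Γ} {a b : B} (h : ConvSeq k a b) {z : B} (hz : ∀ n, k n • z = z) :
    z = a ∨ z = b := by
  by_cases hzb : z = b
  · exact Or.inr hzb
  · left
    have h1 := h.tendsto hzb
    simp only [hz] at h1
    exact tendsto_nhds_unique tendsto_const_nhds h1

theorem cv_fixed_mem {g : Γ} {φ : ℕ → ℕ} {a b : B} (h : ConvSeq (fun n => g ^ φ n) a b) {z : B}
    (hz : g • z = z) : z = a ∨ z = b :=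
  h.fixed_mem fun _ => cv_pow_smul_fixed hz _

/-- **(E1)** collapsing powers of an element of infinite order; both limit points are fixed. -/
theorem cv_exists_fix [CompactSpace B] [Infinite B] (hc : ConvAct Γ B) {g : Γ}
    (hg : Function.Injective fun n : ℕ => g ^ n) :
    ∃ (φ : ℕ → ℕ) (a b : B), StrictMono φ ∧ ConvSeq (fun n => g ^ φ n) a b ∧ g • a = a ∧ g • b = b := by
  classical
  obtain ⟨φ, a, b, hφ, h⟩ := hc _ hg
  have h' : ConvSeq (fun n => g ^ φ n) a b := h
  refine ⟨φ, a, b, hφ, h', ?_, ?_⟩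
  · obtain ⟨z, hz⟩ := Infinite.exists_notMem_finset ({b, g⁻¹ • b} : Finset B)
    simp only [Finset.mem_insert, Finset.mem_singleton, not_or] at hz
    exact cv_fix_attr h' ⟨z, hz.1, fun h0 => hz.2 (by rw [← h0, inv_smul_smul])⟩
  · have hinv : ConvSeq (fun n => g⁻¹ ^ φ n) b a := by
      have := h'.inv
      simpa only [inv_pow] using this
    obtain ⟨z, hz⟩ := Infinite.exists_notMem_finset ({a, g • a} : Finset B)
    simp only [Finset.mem_insert, Finset.mem_singleton, not_or] at hz
    have := cv_fix_attr hinv ⟨z, hz.1, fun h0 => hz.2 (by rw [← h0, smul_inv_smul])⟩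
    rwa [inv_smul_eq_iff, eq_comm] at this

/-- a nonempty closed invariant set contains a fixed point -/
theorem cv_closed_inv_fix [CompactSpace B] [Infinite B] (hc : ConvAct Γ B) {g : Γ}
    (hg : Function.Injective fun n : ℕ => g ^ n) {F : Set B} (hF : IsClosed F) (hne : F.Nonempty)
    (hinv : ∀ x ∈ F, g • x ∈ F) : ∃ f ∈ F, g • f = f := by
  obtain ⟨φ, a, b, -, h, ha, hb⟩ := cv_exists_fix hc hg
  obtain ⟨z, hz⟩ := hne
  by_cases hzb : z = b
  · exact ⟨z, hz, by rw [hzb, hb]⟩
  · refine ⟨a, ?_, ha⟩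
    have hpow : ∀ n : ℕ, g ^ n • z ∈ F := by
      intro n
      induction n with
      | zero => simpa using hz
      | succ n ih => rw [pow_succ', mul_smul]; exact hinv _ ih
    exact hF.mem_of_tendsto (h.tendsto hzb) (Eventually.of_forall fun n => hpow _)

end Powers

/-! ### sequences leaving every finite set -/

/-- an injective subsequence of a sequence which leaves every finite set -/
theorem cv_exists_injective_subseq {α : Type*} {k : ℕ → α} (hk : Tendsto k atTop cofinite) :
    ∃ φ : ℕ → ℕ, StrictMono φ ∧ Function.Injective (k ∘ φ) := by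
  classical
  have hN : ∀ i : ℕ, ∃ N : ℕ, ∀ j ≥ N, k j ∉ k '' Set.Iic i := by
    intro i
    have hfin : (k '' Set.Iic i).Finite := (Set.finite_Iic i).image k
    have := hk.eventually hfin.compl_mem_cofinite
    rw [eventually_atTop] at this
    exact this
  choose N hN using hN
  let φ : ℕ → ℕ := fun n => Nat.rec 0 (fun _ x => max (x + 1) (N x)) n
  have hφs : ∀ n, φ (n + 1) = max (φ n + 1) (N (φ n)) := fun n => rfl
  have hmono : StrictMono φ := strictMono_nat_of_lt_succ fun n => by
    rw [hφs]; exact lt_of_lt_of_le (Nat.lt_succ_self _) (le_max_left _ _)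
  refine ⟨φ, hmono, ?_⟩
  have key : ∀ m n, m < n → k (φ m) ≠ k (φ n) := by
    intro m n hmn h
    obtain ⟨n', rfl⟩ : ∃ n', n = n' + 1 := ⟨n - 1, by omega⟩
    have h1 : φ m ≤ φ n' := hmono.monotone (by omega)
    have h2 := hN (φ n') (φ (n' + 1)) (by rw [hφs]; exact le_max_right _ _)
    exact h2 ⟨φ m, h1, h⟩
  intro m n h
  rcases lt_trichotomy m n with h1 | h1 | h1
  · exact absurd h (key m n h1)
  · exact h1
  · exact absurd h.symm (key n m h1)

theorem ConvAct.of_tendsto (hc : ConvAct Γ B) {k : ℕ → Γ} (hk : Tendsto k atTop cofinite) :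
    ∃ (φ : ℕ → ℕ) (a b : B), StrictMono φ ∧ ConvSeq (k ∘ φ) a b := by
  obtain ⟨ψ, hψ, hinj⟩ := cv_exists_injective_subseq hk
  obtain ⟨φ, a, b, hφ, h⟩ := hc _ hinj
  exact ⟨ψ ∘ φ, a, b, hψ.comp hφ, h⟩

end Claimed.Agent.R309
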