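import Claimed.Agent.R309.S6.Cut
import Claimed.Agent.R309.S6.ConvBasics

/-!
# Row 309, new Section 6, topological half, part 2: dynamics on the cut points

Owner: helper173.  Prefix `cd9_`.  `Γ` acts by homeomorphisms on the continuum `B` as a convergence group.

* equivariance of `SepBy`, `Sp`, `fe`, `S3`, `Bt`;
* `cd9_key`   : the KEY DYNAMICAL LEMMA (source of (T3));
* `cd9_leaf`  : nested sides of a moved cut point shrink to the fixed point;
* `cd9_edge`  : a splitting of `B` into two `Bt`-convex invariant halves, preserved by an element of infinite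
                order, has a one-point half ("edges with nontrivial stabiliser are leaf edges");
* `cd9_cut_fe`: an invariant `fe`-class contains all cut points (`P ⊆ C`).
-/

set_option autoImplicit false
set_option linter.unusedSectionVars false

namespace Claimed.Agent.R309

open Set Filter Topology Pointwise

variable {Γ : Type*} [Group Γ] {B : Type*} [TopologicalSpace B] [MulAction Γ B]
  [ContinuousConstSMul Γ B]

/-! ### equivariance -/

theorem IsSplit.smul {p : B} {U V : Set B} (h : IsSplit p U V) (g : Γ) :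
    IsSplit (g • p) (g • U) (g • V) := by
  refine ⟨h.1.smul g, h.2.1.smul g, ?_, ?_⟩
  · exact Set.disjoint_smul_set.2 h.2.2.1
  · rw [← Set.smul_set_union, h.2.2.2, Set.smul_set_compl, Set.smul_set_singleton]

theorem SepBy.smul {p x y : B} (h : SepBy p x y) (g : Γ) : SepBy (g • p) (g • x) (g • y) := by
  obtain ⟨U, V, hs, hx, hy⟩ := h
  exact ⟨g • U, g • V, hs.smul g, Set.smul_mem_smul_set hx, Set.smul_mem_smul_set hy⟩

theorem cd9_sepBy_smul_iff (g : Γ) {p x y : B} : SepBy (g • p) (g • x) (g • y) ↔ SepBy p x y := by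
  refine ⟨fun h => ?_, fun h => h.smul g⟩
  have := h.smul g⁻¹
  simpa only [inv_smul_smul] using this

theorem cd9_Sp_smul (g : Γ) (x y : B) : Sp (g • x) (g • y) = g • Sp x y := by
  ext p
  rw [Set.mem_smul_set_iff_inv_smul_mem]
  constructor
  · intro h
    have : SepBy (g⁻¹ • p) (g⁻¹ • g • x) (g⁻¹ • g • y) := SepBy.smul h g⁻¹
    rw [inv_smul_smul, inv_smul_smul] at this
    exact this
  · intro h
    have : SepBy (g • g⁻¹ • p) (g • x) (g • y) := SepBy.smul h g
    rw [smul_inv_smul] at this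
    exact this

theorem cd9_S3_smul (g : Γ) (m x y : B) : S3 (g • m) (g • x) (g • y) = g • S3 m x y := by
  unfold S3; rw [cd9_Sp_smul, cd9_Sp_smul, Set.smul_set_inter]

theorem cd9_fe_smul_iff (g : Γ) {x y : B} : fe (g • x) (g • y) ↔ fe x y := by
  unfold fe; rw [cd9_Sp_smul, Set.finite_smul_set]

theorem cd9_bt_smul_iff (g : Γ) {x m y : B} : Bt (g • x) (g • m) (g • y) ↔ Bt x m y := by
  unfold Bt; rw [cd9_S3_smul, Set.finite_smul_set]

/-! ### the key dynamical lemma -/

/-- closure of a side -/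
theorem IsSplit.closure_subset {p : B} {U V : Set B} (h : IsSplit p U V) : closure U ⊆ insert p U := by
  rw [← h.compl_right]
  exact closure_minimal (fun z hz => h.not_mem_of_mem hz) h.2.1.isClosed_compl

/-- if `p` separates `w` from `r` and `p` lies on the `X` side of `r`, then so does `w` -/
theorem IsSplit.mem_of_sepBy [PreconnectedSpace B] {r p w : B} {X Y : Set B} (h : IsSplit r X Y)
    (hp : p ∈ X) (hw : SepBy p w r) : w ∈ X := by
  obtain ⟨W, W', hs, hwW, hrW'⟩ := hw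
  have hconn := hs.isPreconnected_insert
  have hsub : insert p W ⊆ X ∪ Y := by
    rw [h.2.2.2]
    rintro z (rfl | hz) hzr
    · exact h.not_mem_left (hzr ▸ hp)
    · exact hs.not_mem_of_mem hz (hzr ▸ hrW')
  exact hconn.subset_left_of_subset_union h.1 h.2.1 h.2.2.1 hsub ⟨p, mem_insert _ _, hp⟩
    (Or.inr hwW)

/-- **KEY DYNAMICAL LEMMA.**  `p < r, r' < q` cut points, `r ≠ r'`; `u ≠ u'`, `v ≠ v'`.  Only finitely many `g`
push `u, u'` behind `p` and `v, v'` behind `q`. -/
theorem cd9_key [PreconnectedSpace B] [T2Space B] (hc : ConvAct Γ B) {p q r r' : B}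
    (hr : SepBy r p q) (hr' : SepBy r' p q) (hne : r ≠ r') {u u' v v' : B} (hu : u ≠ u')
    (hv : v ≠ v') :
    {g : Γ | (SepBy p (g • u) r ∧ SepBy p (g • u) r') ∧ (SepBy p (g • u') r ∧ SepBy p (g • u') r') ∧
      (SepBy q (g • v) r ∧ SepBy q (g • v) r') ∧ (SepBy q (g • v') r ∧ SepBy q (g • v') r')}.Finite := by
  by_contra hinf
  have hinf' : Set.Infinite _ := hinf
  set k := hinf'.natEmbedding with hk
  obtain ⟨φ, a, b, -, h⟩ := hc (fun n => (k n : Γ)) (fun m n hmn => k.injective (Subtype.ext hmn))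
  -- choose `u₀`, `v₀` different from `b`
  obtain ⟨u₀, hu₀b, hu₀⟩ : ∃ u₀ : B, u₀ ≠ b ∧ ∀ n, SepBy p ((k n : Γ) • u₀) r ∧
      SepBy p ((k n : Γ) • u₀) r' := by
    by_cases hub : u = b
    · exact ⟨u', fun h' => hu (hub.trans h'.symm), fun n => (k n).2.2.1⟩
    · exact ⟨u, hub, fun n => (k n).2.1⟩
  obtain ⟨v₀, hv₀b, hv₀⟩ : ∃ v₀ : B, v₀ ≠ b ∧ ∀ n, SepBy q ((k n : Γ) • v₀) r ∧
      SepBy q ((k n : Γ) • v₀) r' := by
    by_cases hvb : v = b
    · exact ⟨v', fun h' => hv (hvb.trans h'.symm), fun n => (k n).2.2.2.2⟩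
    · exact ⟨v, hvb, fun n => (k n).2.2.2.1⟩
  have hlu := h.tendsto hu₀b
  have hlv := h.tendsto hv₀b
  have main : ∀ s : B, SepBy s p q → (∀ n, SepBy p ((k n : Γ) • u₀) s) →
      (∀ n, SepBy q ((k n : Γ) • v₀) s) → a = s := by
    intro s hs h1 h2
    obtain ⟨X, Y, hsp, hpX, hqY⟩ := hs
    have haX : a ∈ closure X := mem_closure_of_tendsto hlu
      (Eventually.of_forall fun n => hsp.mem_of_sepBy hpX (h1 _))
    have haY : a ∈ closure Y := mem_closure_of_tendsto hlv
      (Eventually.of_forall fun n => hsp.symm.mem_of_sepBy hqY (h2 _))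
    rcases hsp.closure_subset haX with h3 | h3
    · exact h3
    · rcases hsp.symm.closure_subset haY with h4 | h4
      · exact h4
      · exact absurd h4 (hsp.not_mem_of_mem h3)
  exact hne ((main r hr (fun n => (hu₀ n).1) (fun n => (hv₀ n).1)).symm.trans
    (main r' hr' (fun n => (hu₀ n).2) (fun n => (hv₀ n).2)))

/-! ### nested sides shrink to the fixed point -/

/-- **leaf lemma.**  `g` of infinite order fixes `f` and moves the cut point `r` towards `f`.  A point `s` none of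
whose backward images is separated from `f` by `r` is equal to `f`. -/
theorem cd9_leaf [PreconnectedSpace B] [T2Space B] [CompactSpace B] [Infinite B] (hc : ConvAct Γ B)
    {g : Γ} (hg : Function.Injective fun n : ℕ => g ^ n) {f r : B} (hf : g • f = f)
    (hr : SepBy (g • r) f r) {s : B} (hs : ∀ n : ℕ, ¬ SepBy r f (g⁻¹ ^ n • s)) : s = f := by
  have hf' : g⁻¹ • f = f := cv_inv_smul_fixed hf
  have hfn : ∀ n : ℕ, g⁻¹ ^ n • f = f := fun n => cv_pow_smul_fixed hf' n
  have hrne : g • r ≠ r := hr.ne_right.symm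
  -- the chain `A n = g⁻ⁿ r`
  have hstep : ∀ n : ℕ, SepBy (g⁻¹ ^ n • r) f (g⁻¹ ^ (n + 1) • r) := by
    intro n
    have h1 := hr.smul (g⁻¹ ^ (n + 1))
    rw [hfn] at h1
    have e : g⁻¹ ^ (n + 1) • g • r = g⁻¹ ^ n • r := by
      rw [pow_succ, mul_smul, inv_smul_smul]
    rwa [e] at h1
  have hchain : ∀ m n : ℕ, SepBy (g⁻¹ ^ m • r) f (g⁻¹ ^ (m + n + 1) • r) := by
    intro m n
    induction n with
    | zero => exact hstep m
    | succ n ih => exact ct_K2 (hstep (m + n + 1)) ih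
  obtain ⟨X, Y, hsp, hfX, hA1⟩ : SepBy r f (g⁻¹ • r) := by simpa using hstep 0
  have hAY : ∀ n : ℕ, g⁻¹ ^ (n + 1) • r ∈ Y := by
    intro n
    cases n with
    | zero => simpa using hA1
    | succ n =>
      have h0 : SepBy r f (g⁻¹ ^ (n + 1 + 1) • r) := by
        have := hchain 0 (n + 1)
        simpa [add_comm, add_left_comm, add_assoc] using this
      have h1 : SepBy (g⁻¹ • r) f (g⁻¹ ^ (n + 1 + 1) • r) := by
        have := hchain 1 n
        simpa [add_comm, add_left_comm, add_assoc] using this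
      have h2 : SepBy r f (g⁻¹ • r) := ⟨X, Y, hsp, hfX, hA1⟩
      have h3 := ct_K4 h1 h2
      rcases hsp.mem_or h0.ne_right with h4 | h4
      · exact absurd ⟨Y, X, hsp.symm, hA1, h4⟩ h3
      · exact h4
  obtain ⟨φ, a, b, hφ, h, ha, hb⟩ := cv_exists_fix hc hg
  have hinv : ConvSeq (fun n => g⁻¹ ^ φ n) b a := by
    have := h.inv
    simpa only [inv_pow] using this
  have hra : r ≠ a := fun h0 => hrne (by rw [h0, ha])
  have hrb : r ≠ b := fun h0 => hrne (by rw [h0, hb])
  have hbY : b ∈ Y := by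
    have h1 : b ∈ closure Y := by
      refine mem_closure_of_tendsto (hinv.tendsto hra) ?_
      filter_upwards [eventually_ge_atTop 1] with n hn
      have h2 : 1 ≤ φ n := hn.trans hφ.le_apply
      obtain ⟨j, hj⟩ : ∃ j, φ n = j + 1 := ⟨φ n - 1, by omega⟩
      simp only [hj]
      exact hAY j
    rcases hsp.symm.closure_subset h1 with h2 | h2
    · exact absurd h2.symm hrb
    · exact h2
  have key : ∀ z : B, (∀ n : ℕ, ¬ SepBy r f (g⁻¹ ^ n • z)) → z = a := by
    intro z hz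
    by_contra hza
    have h1 := (hinv.tendsto hza).eventually (hsp.2.1.mem_nhds hbY)
    obtain ⟨n, hn⟩ := h1.exists
    exact hz _ ⟨X, Y, hsp, hfX, hn⟩
  have hfa : f = a := key f fun n => by rw [hfn]; exact ct_not_sepBy_self r f
  rw [key s hs, hfa]

/-- convexity with respect to `Bt` -/
def BtConvex (H : Set B) : Prop := ∀ x ∈ H, ∀ y ∈ H, ∀ m, Bt x m y → m ∈ H

theorem cd9_edge_aux [PreconnectedSpace B] [T2Space B] [CompactSpace B] [Infinite B]
    (hc : ConvAct Γ B) {H₁ H₂ : Set B} (hcov : H₁ ∪ H₂ = univ) (hdisj : Disjoint H₁ H₂)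
    (hne₁ : H₁.Nonempty) (hc₁ : BtConvex H₁) (hc₂ : BtConvex H₂) {g : Γ}
    (hg : Function.Injective fun n : ℕ => g ^ n) (hg₁ : ∀ x ∈ H₁, g • x ∈ H₁)
    (hg₂ : ∀ x ∈ H₂, g • x ∈ H₂) {f : B} (hf : g • f = f) (hf₂ : f ∈ H₂) (hfc : f ∈ closure H₁) :
    H₂ ⊆ {f} := by
  obtain ⟨y, hy⟩ := hne₁
  have hfH₁ : f ∉ H₁ := fun h => Set.disjoint_left.1 hdisj h hf₂
  -- (i)
  have hi : ∀ x ∈ H₁, Sp x f ⊆ H₁ := by
    rintro x hx t ⟨X, Y, hs, hxX, hfY⟩
    obtain ⟨x', hx'Y, hx'⟩ := mem_closure_iff.1 hfc Y hs.2.1 hfY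
    exact hc₁ x hx x' hx' t (ct_bt_of_sepBy ⟨X, Y, hs, hxX, hx'Y⟩)
  -- (ii)
  have hii : (S3 f y (g • y)).Infinite := fun hfin => hfH₁ (hc₁ y hy (g • y) (hg₁ y hy) f hfin)
  -- (iii)
  obtain ⟨φ, a, b, -, h, -, -⟩ := cv_exists_fix hc hg
  have hfix : {z : B | g • z = z} ⊆ {a, b} := fun z hz => cv_fixed_mem h hz
  obtain ⟨r, hr, hrfix⟩ := (hii.sdiff ((by simp : ({a, b} : Set B).Finite).subset hfix)).nonempty
  have hrH₁ : r ∈ H₁ := hi y hy (by rw [ct_Sp_comm]; exact hr.1)
  have hgr : SepBy (g • r) f (g • y) := by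
    have := SepBy.smul hr.1 g
    rwa [hf] at this
  have hinv₂ : ∀ x ∈ H₂, g⁻¹ • x ∈ H₂ := by
    intro x hx
    have : g⁻¹ • x ∈ H₁ ∪ H₂ := hcov ▸ mem_univ _
    rcases this with h1 | h1
    · have := hg₁ _ h1
      rw [smul_inv_smul] at this
      exact absurd hx (Set.disjoint_left.1 hdisj this)
    · exact h1
  have hpow : ∀ (k : Γ), (∀ x ∈ H₂, k • x ∈ H₂) → ∀ (n : ℕ), ∀ x ∈ H₂, k ^ n • x ∈ H₂ := by
    intro k hk n
    induction n with
    | zero => intro x hx; simpa using hx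
    | succ n ih => intro x hx; rw [pow_succ, mul_smul]; exact ih _ (hk x hx)
  have hno : ∀ r' ∈ H₁, ∀ z ∈ H₂, ¬ SepBy r' f z := fun r' hr' z hz hsep =>
    Set.disjoint_left.1 hdisj hr' (hc₂ f hf₂ z hz r' (ct_bt_of_sepBy hsep))
  intro s hs
  rcases ct_K3 hr.2 hgr (fun h0 => hrfix h0.symm) with hA | hB
  · -- `g` moves `r` away from `f`: use `g⁻¹` and `r' = g r`
    have hg' : Function.Injective fun n : ℕ => g⁻¹ ^ n := by
      intro m n hmn
      apply hg
      simpa only [inv_pow, inv_inj] using hmn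
    refine cd9_leaf hc hg' (cv_inv_smul_fixed hf) (r := g • r) (by rwa [inv_smul_smul]) ?_
    intro n
    rw [inv_inv]
    exact hno _ (hg₁ r hrH₁) _ (hpow g hg₂ n s hs)
  · exact cd9_leaf hc hg hf hB fun n => hno r hrH₁ _ (hpow g⁻¹ hinv₂ n s hs)

/-- **edge lemma**: two complementary `Bt`-convex halves preserved by an element of infinite order: one of them
is a single point. -/
theorem cd9_edge [PreconnectedSpace B] [T2Space B] [CompactSpace B] [Infinite B]
    (hc : ConvAct Γ B) {H₁ H₂ : Set B} (hcov : H₁ ∪ H₂ = univ) (hdisj : Disjoint H₁ H₂)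
    (hne₁ : H₁.Nonempty) (hne₂ : H₂.Nonempty) (hc₁ : BtConvex H₁) (hc₂ : BtConvex H₂) {g : Γ}
    (hg : Function.Injective fun n : ℕ => g ^ n) (hg₁ : ∀ x ∈ H₁, g • x ∈ H₁)
    (hg₂ : ∀ x ∈ H₂, g • x ∈ H₂) : H₁.Subsingleton ∨ H₂.Subsingleton := by
  have hFne : (closure H₁ ∩ closure H₂).Nonempty := by
    have := isPreconnected_closed_iff.1 (isPreconnected_univ (α := B)) (closure H₁) (closure H₂)
      isClosed_closure isClosed_closure
      (by rw [← hcov]; exact union_subset_union subset_closure subset_closure)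
      (by simpa using hne₁.mono subset_closure) (by simpa using hne₂.mono subset_closure)
    simpa using this
  obtain ⟨f, hfF, hf⟩ := cv_closed_inv_fix hc hg (isClosed_closure.inter isClosed_closure) hFne
    (fun x hx => ⟨map_mem_closure (continuous_const_smul g) hx.1 hg₁,
      map_mem_closure (continuous_const_smul g) hx.2 hg₂⟩)
  have : f ∈ H₁ ∪ H₂ := hcov ▸ mem_univ _
  rcases this with h1 | h1
  · left
    exact Set.subsingleton_of_subset_singleton (cd9_edge_aux hc (by rwa [union_comm]) hdisj.symm hne₂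
      hc₂ hc₁ hg hg₂ hg₁ hf h1 hfF.2)
  · right
    exact Set.subsingleton_of_subset_singleton (cd9_edge_aux hc hcov hdisj hne₁ hc₁ hc₂ hg hg₁ hg₂ hf
      h1 hfF.1)

/-! ### an invariant class contains all cut points -/

/-- global cut point -/
def IsCutPt (p : B) : Prop := ∃ x y, SepBy p x y

theorem cd9_fe_of_sepBy [PreconnectedSpace B] {q x y : B} (h : SepBy q x y) (hxy : fe x y) : fe x q :=
  hxy.subset fun _ ht => ct_K2 h ht

/-- `P ⊆ C` -/
theorem cd9_cut_fe_base [PreconnectedSpace B] (hmin : ∀ x : B, Dense (MulAction.orbit Γ x)) {c : B}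
    (hinv : ∀ g : Γ, fe (g • c) c) {q : B} (hq : IsCutPt q) : fe c q := by
  obtain ⟨x, y, U, V, hs, hx, hy⟩ := hq
  obtain ⟨_, hgU, g, rfl⟩ := (hmin c).inter_open_nonempty U hs.1 ⟨x, hx⟩
  obtain ⟨_, hgV, g', rfl⟩ := (hmin c).inter_open_nonempty V hs.2.1 ⟨y, hy⟩
  have h1 : fe (g • c) (g' • c) := (hinv g).trans (hinv g').symm
  exact (hinv g).symm.trans (cd9_fe_of_sepBy ⟨U, V, hs, hgU, hgV⟩ h1)

theorem cd9_cut_fe [PreconnectedSpace B] (hmin : ∀ x : B, Dense (MulAction.orbit Γ x)) {c : B}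
    (hinv : ∀ g : Γ, fe (g • c) c) {a b : B} (ha : IsCutPt a) (hb : IsCutPt b) : fe a b :=
  (cd9_cut_fe_base hmin hinv ha).symm.trans (cd9_cut_fe_base hmin hinv hb)

end Claimed.Agent.R309
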