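import Claimed.Agent.R309.Defs
import Claimed.Agent.R309.S6.CutDyn

/-! # Row 309, S6, leaf BridgeCpt: from `Cpt.Good` to the abstract setting on the subtype `C.B` -/

set_option autoImplicit false

namespace Claimed.Agent.R309

open Set Filter Topology

variable {Γ : Type} [Group Γ] {𝔖 : GenSet Γ} (C : Cpt 𝔖)

theorem Cpt.smul_mem_B (g : Γ) {x : C.X} (hx : x ∈ C.B) : g • x ∈ C.B := by
  rintro ⟨h, hh⟩
  apply hx
  refine ⟨g⁻¹ * h, ?_⟩
  rw [C.ι_mul, hh, inv_smul_smul]

instance Cpt.actB : MulAction Γ C.B where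
  smul g x := ⟨g • x.1, C.smul_mem_B g x.2⟩
  one_smul x := Subtype.ext (one_smul Γ x.1)
  mul_smul g h x := Subtype.ext (mul_smul g h x.1)

theorem Cpt.smul_B_val (g : Γ) (x : C.B) : (g • x).1 = g • x.1 := rfl

instance Cpt.contB : ContinuousConstSMul Γ C.B :=
  ⟨fun g => Continuous.subtype_mk ((C.act_cont g).comp continuous_subtype_val) _⟩

theorem Cpt.bc_isClosed_B : IsClosed C.B := by
  have : IsOpen (range C.ι) := by
    have e : range C.ι = ⋃ g, {C.ι g} := by
      ext x; simp [eq_comm]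
    rw [e]
    exact isOpen_iUnion fun g => C.ι_isolated g
  exact this.isClosed_compl

instance Cpt.compactB : CompactSpace C.B :=
  isCompact_iff_compactSpace.1 C.bc_isClosed_B.isCompact

variable {C}

theorem Cpt.Good.preconnectedSpace (h : C.Good) : PreconnectedSpace C.B :=
  isPreconnected_iff_preconnectedSpace.1 h.conn.isPreconnected

theorem Cpt.Good.infiniteB (h : C.Good) : Infinite C.B :=
  Set.infinite_coe_iff.2 (h.conn.isPreconnected.infinite_of_nontrivial h.nontriv)

/-- the limit of an injective sequence of group vertices lies in the boundary -/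
theorem Cpt.bc_mem_B_of_tendsto {k : ℕ → Γ} (hk : Function.Injective k) {a : C.X}
    (ha : Tendsto (fun n => C.ι (k n)) atTop (𝓝 a)) : a ∈ C.B := by
  rintro ⟨u, rfl⟩
  have h1 : ∀ᶠ n in atTop, C.ι (k n) ∈ ({C.ι u} : Set C.X) :=
    ha ((C.ι_isolated u).mem_nhds rfl)
  obtain ⟨N, hN⟩ := eventually_atTop.1 h1
  have e1 : k N = u := C.ι_inj (hN N le_rfl)
  have e2 : k (N + 1) = u := C.ι_inj (hN (N + 1) (Nat.le_succ N))
  have := hk (e1.trans e2.symm)
  omega

/-- an injective sequence `g n` leaves every finite set, so (compactness of `X`, metrizable) a subsequence has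
`ι (g n) → a`, `ι (g n)⁻¹ → b` with `a, b ∈ B`; then `Cpt.Convergence`. -/
theorem Cpt.Good.convAct (h : C.Good) : ConvAct Γ C.B := by
  intro g hg
  obtain ⟨a, φ₁, hφ₁, ha⟩ := CompactSpace.tendsto_subseq fun n => C.ι (g n)
  obtain ⟨b, φ₂, hφ₂, hb⟩ := CompactSpace.tendsto_subseq fun n => C.ι (g (φ₁ n))⁻¹
  have hφ : StrictMono (φ₁ ∘ φ₂) := hφ₁.comp hφ₂
  have ha' : Tendsto (fun n => C.ι ((g ∘ (φ₁ ∘ φ₂)) n)) atTop (𝓝 a) :=
    ha.comp hφ₂.tendsto_atTop
  have hb' : Tendsto (fun n => C.ι ((g ∘ (φ₁ ∘ φ₂)) n)⁻¹) atTop (𝓝 b) := hb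
  have hinj : Function.Injective (g ∘ (φ₁ ∘ φ₂)) := hg.comp hφ.injective
  have haB : a ∈ C.B := Cpt.bc_mem_B_of_tendsto hinj ha'
  have hbB : b ∈ C.B :=
    Cpt.bc_mem_B_of_tendsto (k := fun n => ((g ∘ (φ₁ ∘ φ₂)) n)⁻¹) (inv_injective.comp hinj) hb'
  refine ⟨φ₁ ∘ φ₂, ⟨a, haB⟩, ⟨b, hbB⟩, hφ, ?_⟩
  intro K hK hbK W hW haW
  have hK' : IsCompact (Subtype.val '' K) := hK.image continuous_subtype_val
  have hbK' : b ∉ Subtype.val '' K := by
    rintro ⟨x, hx, hxb⟩
    apply hbK
    have : x = ⟨b, hbB⟩ := Subtype.ext hxb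
    rwa [← this]
  have hunif := h.conv _ a b haB hbB ha' hb' _ hK' hbK'
  obtain ⟨W', hW', rfl⟩ := isOpen_induced_iff.1 hW
  obtain ⟨ε, hε, hball⟩ := Metric.isOpen_iff.1 hW' a haW
  filter_upwards [Metric.tendstoUniformlyOn_iff.1 hunif ε hε] with n hn x hx
  apply hball
  rw [Metric.mem_ball, dist_comm]
  exact hn x.1 ⟨x, hx, rfl⟩

theorem Cpt.Good.dense_orbit (h : C.Good) (x : C.B) : Dense (MulAction.orbit Γ x) := by
  intro y
  rw [closure_subtype]
  have e : Subtype.val '' (MulAction.orbit Γ x) = range fun g : Γ => g • x.1 := by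
    ext z
    constructor
    · rintro ⟨_, ⟨g, rfl⟩, rfl⟩; exact ⟨g, rfl⟩
    · rintro ⟨g, rfl⟩; exact ⟨g • x, ⟨g, rfl⟩, rfl⟩
  rw [e]
  exact h.minimal x.1 x.2 y.2

theorem Cpt.SepBy.mem {p x y : C.X} (h : C.SepBy p x y) : p ∈ C.B ∧ x ∈ C.B ∧ y ∈ C.B := by
  obtain ⟨hp, U, V, _, _, _, hUV, hx, hy⟩ := h
  have h1 : x ∈ C.B \ {p} := hUV ▸ Or.inl hx
  have h2 : y ∈ C.B \ {p} := hUV ▸ Or.inr hy
  exact ⟨hp, h1.1, h2.1⟩

theorem Cpt.sepBy_iff (p x y : C.B) : C.SepBy p.1 x.1 y.1 ↔ Claimed.Agent.R309.SepBy p x y := by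
  constructor
  · rintro ⟨_, U, V, hU, hV, hd, hUV, hx, hy⟩
    have hmem : ∀ z : C.B, z ≠ p → (z.1 ∈ U ∨ z.1 ∈ V) := by
      intro z hz
      have : z.1 ∈ C.B \ {p.1} := ⟨z.2, fun h => hz (Subtype.ext h)⟩
      rw [← hUV] at this
      exact this
    have hpU : p.1 ∉ U := fun h => by
      have : p.1 ∈ C.B \ {p.1} := hUV ▸ Or.inl h
      exact this.2 rfl
    have hpV : p.1 ∉ V := fun h => by
      have : p.1 ∈ C.B \ {p.1} := hUV ▸ Or.inr h
      exact this.2 rfl
    refine ⟨Subtype.val ⁻¹' U, Subtype.val ⁻¹' V, ⟨?_, ?_, ?_, ?_⟩, hx, hy⟩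
    · have e : (Subtype.val ⁻¹' U : Set C.B) = (Subtype.val ⁻¹' (V ∪ {p.1}))ᶜ := by
        ext z
        simp only [mem_preimage, mem_compl_iff, mem_union, mem_singleton_iff, not_or]
        constructor
        · intro hz
          exact ⟨fun hzV => Set.disjoint_left.1 hd hz hzV, fun hzp => hpU (hzp ▸ hz)⟩
        · rintro ⟨h1, h2⟩
          rcases hmem z (fun h => h2 (congrArg Subtype.val h)) with h3 | h3
          · exact h3
          · exact absurd h3 h1
      rw [e]
      exact (hV.preimage continuous_subtype_val).isOpen_compl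
    · have e : (Subtype.val ⁻¹' V : Set C.B) = (Subtype.val ⁻¹' (U ∪ {p.1}))ᶜ := by
        ext z
        simp only [mem_preimage, mem_compl_iff, mem_union, mem_singleton_iff, not_or]
        constructor
        · intro hz
          exact ⟨fun hzU => Set.disjoint_left.1 hd hzU hz, fun hzp => hpV (hzp ▸ hz)⟩
        · rintro ⟨h1, h2⟩
          rcases hmem z (fun h => h2 (congrArg Subtype.val h)) with h3 | h3
          · exact absurd h3 h1
          · exact h3
      rw [e]
      exact (hU.preimage continuous_subtype_val).isOpen_compl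
    · exact hd.preimage _
    · ext z
      simp only [mem_union, mem_preimage, mem_compl_iff, mem_singleton_iff]
      constructor
      · rintro (h1 | h1) rfl
        · exact hpU h1
        · exact hpV h1
      · intro hz; exact hmem z hz
  · rintro ⟨U, V, ⟨hU, hV, hd, hUV⟩, hx, hy⟩
    have hcl : Topology.IsClosedEmbedding (Subtype.val : C.B → C.X) :=
      C.bc_isClosed_B.isClosedEmbedding_subtypeVal
    have hpU : p ∉ U := fun h => by
      have : p ∈ ({p}ᶜ : Set C.B) := hUV ▸ Or.inl h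
      exact this rfl
    have hpV : p ∉ V := fun h => by
      have : p ∈ ({p}ᶜ : Set C.B) := hUV ▸ Or.inr h
      exact this rfl
    have hmem : ∀ z : C.B, z ≠ p → (z ∈ U ∨ z ∈ V) := by
      intro z hz
      have : z ∈ ({p}ᶜ : Set C.B) := hz
      rw [← hUV] at this
      exact this
    refine ⟨p.2, Subtype.val '' U, Subtype.val '' V, ?_, ?_, ?_, ?_, ⟨x, hx, rfl⟩, ⟨y, hy, rfl⟩⟩
    · have e : Subtype.val '' U ∪ {p.1} = Subtype.val '' Vᶜ := by
        ext z
        constructor
        · rintro (⟨w, hw, rfl⟩ | h1)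
          · exact ⟨w, fun hwV => Set.disjoint_left.1 hd hw hwV, rfl⟩
          · exact ⟨p, hpV, h1.symm⟩
        · rintro ⟨w, hw, rfl⟩
          by_cases hwp : w = p
          · right; rw [hwp]; rfl
          · left
            rcases hmem w hwp with h3 | h3
            · exact ⟨w, h3, rfl⟩
            · exact absurd h3 hw
      rw [e]
      exact hcl.isClosedMap _ hV.isClosed_compl
    · have e : Subtype.val '' V ∪ {p.1} = Subtype.val '' Uᶜ := by
        ext z
        constructor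
        · rintro (⟨w, hw, rfl⟩ | h1)
          · exact ⟨w, fun hwU => Set.disjoint_left.1 hd hwU hw, rfl⟩
          · exact ⟨p, hpU, h1.symm⟩
        · rintro ⟨w, hw, rfl⟩
          by_cases hwp : w = p
          · right; rw [hwp]; rfl
          · left
            rcases hmem w hwp with h3 | h3
            · exact absurd h3 hw
            · exact ⟨w, h3, rfl⟩
      rw [e]
      exact hcl.isClosedMap _ hU.isClosed_compl
    · exact (Set.disjoint_image_iff Subtype.val_injective).2 hd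
    · rw [← Set.image_union, hUV]
      ext z
      constructor
      · rintro ⟨w, hw, rfl⟩
        exact ⟨w.2, fun h => hw (Subtype.ext h)⟩
      · rintro ⟨h1, h2⟩
        exact ⟨⟨z, h1⟩, fun h => h2 (congrArg Subtype.val h), rfl⟩

end Claimed.Agent.R309
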