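import Mathlib

/-!
# Row 309, new Section 6 (helper3's Rips-free proof), topological half, part 1: the cut-point calculus

Owner: helper173.  Prefix `ct_`.  No group here: `B` is a connected T1 space (compact only for medians).

* `SepBy p x y`  : the point `p` separates `x` from `y` (an open splitting of `B \ {p}`);
* `Sp x y`       : the set of all points separating `x` from `y`;
* `fe x y`       : `Sp x y` is finite (the equivalence relation `~` of the blueprint);
* `S3 m x y`     : `Sp m x ∩ Sp m y`;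
* `Bt x m y`     : `S3 m x y` is finite (`[m]` lies in the interval `[[x],[y]]` of `B/~`).

Main results: `Sp x y` is linearly ordered by `SepBy p x q`; the axioms of a median pretree for `Bt` modulo
`fe` (`ct_bt_left`, `ct_bt_symm`, `ct_bt_self`, `ct_bt_I2`, `ct_bt_I3`, `ct_bt_I4`), existence of medians
`ct_exists_med` and the comparison `ct_sp_collinear`.
-/

set_option autoImplicit false
set_option linter.unusedSectionVars false

namespace Claimed.Agent.R309

open Set Topology

variable {B : Type*} [TopologicalSpace B]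

/-- an open splitting of `B \ {p}` -/
def IsSplit (p : B) (U V : Set B) : Prop :=
  IsOpen U ∧ IsOpen V ∧ Disjoint U V ∧ U ∪ V = {p}ᶜ

/-- `p` separates `x` from `y` -/
def SepBy (p x y : B) : Prop := ∃ U V : Set B, IsSplit p U V ∧ x ∈ U ∧ y ∈ V

/-- the set of points separating `x` from `y` -/
def Sp (x y : B) : Set B := {p | SepBy p x y}

/-- finitely many separating points -/
def fe (x y : B) : Prop := (Sp x y).Finite

/-- points separating `m` from `x` and from `y` -/
def S3 (m x y : B) : Set B := Sp m x ∩ Sp m y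

/-- `m` lies between `x` and `y`, up to `fe` -/
def Bt (x m y : B) : Prop := (S3 m x y).Finite

theorem IsSplit.symm {p : B} {U V : Set B} (h : IsSplit p U V) : IsSplit p V U :=
  ⟨h.2.1, h.1, h.2.2.1.symm, by rw [union_comm]; exact h.2.2.2⟩

theorem IsSplit.not_mem_left {p : B} {U V : Set B} (h : IsSplit p U V) : p ∉ U := fun hp => by
  have : p ∈ ({p}ᶜ : Set B) := h.2.2.2 ▸ Or.inl hp
  exact this rfl

theorem IsSplit.not_mem_right {p : B} {U V : Set B} (h : IsSplit p U V) : p ∉ V :=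
  h.symm.not_mem_left

theorem IsSplit.mem_or {p : B} {U V : Set B} (h : IsSplit p U V) {z : B} (hz : z ≠ p) :
    z ∈ U ∨ z ∈ V := by
  have : z ∈ ({p}ᶜ : Set B) := hz
  rwa [← h.2.2.2] at this

theorem IsSplit.not_mem_of_mem {p : B} {U V : Set B} (h : IsSplit p U V) {z : B} (hz : z ∈ U) :
    z ∉ V := fun hz' => (Set.disjoint_left.1 h.2.2.1 hz) hz'

theorem IsSplit.compl_right {p : B} {U V : Set B} (h : IsSplit p U V) : Vᶜ = insert p U := by
  ext z
  simp only [mem_compl_iff, mem_insert_iff]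
  constructor
  · intro hz
    by_cases hzp : z = p
    · exact Or.inl hzp
    · exact Or.inr ((h.mem_or hzp).resolve_right hz)
  · rintro (rfl | hz)
    · exact h.not_mem_right
    · exact h.not_mem_of_mem hz

/-- **the basic connectedness fact**: a side together with the cut point is connected. -/
theorem IsSplit.isPreconnected_insert [PreconnectedSpace B] {p : B} {U V : Set B}
    (h : IsSplit p U V) : IsPreconnected (insert p U) := by
  have hs : IsClosed (insert p U) := by rw [← h.compl_right]; exact h.2.1.isClosed_compl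
  have hs' : IsClosed (insert p V) := by rw [← h.symm.compl_right]; exact h.1.isClosed_compl
  rw [isPreconnected_closed_iff]
  intro t t' ht ht' hcov hne hne'
  by_contra hcon
  rw [Set.not_nonempty_iff_eq_empty] at hcon
  -- wlog `p ∈ t`
  have main : ∀ t t' : Set B, IsClosed t → IsClosed t' → insert p U ⊆ t ∪ t' →
      (insert p U ∩ t').Nonempty → insert p U ∩ (t ∩ t') = ∅ → p ∈ t → False := by
    intro t t' ht ht' hcov hne' hcon hpt
    have hpt' : p ∉ t' := fun hp => by
      have : p ∈ insert p U ∩ (t ∩ t') := ⟨mem_insert _ _, hpt, hp⟩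
      rw [hcon] at this; exact this
    have hsub : insert p U ∩ t' ⊆ U := by
      rintro z ⟨hz, hzt⟩
      rcases hz with rfl | hz
      · exact absurd hzt hpt'
      · exact hz
    have hconn := isPreconnected_closed_iff.1 (isPreconnected_univ (α := B))
      (insert p U ∩ t') ((insert p U ∩ t) ∪ insert p V) (hs.inter ht') ((hs.inter ht).union hs')
      (by
        intro z _
        by_cases hzV : z ∈ V
        · exact Or.inr (Or.inr (Or.inr hzV))
        · have hz : z ∈ insert p U := by rw [← h.compl_right]; exact hzV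
          rcases hcov hz with h1 | h1
          · exact Or.inr (Or.inl ⟨hz, h1⟩)
          · exact Or.inl ⟨hz, h1⟩)
      (by simpa using hne')
      ⟨p, mem_univ _, Or.inr (mem_insert _ _)⟩
    obtain ⟨z, -, hz1, hz2⟩ := hconn
    rcases hz2 with hz2 | hz2
    · have : z ∈ insert p U ∩ (t ∩ t') := ⟨hz1.1, hz2.2, hz1.2⟩
      rw [hcon] at this; exact this
    · have hzU := hsub hz1
      rcases hz2 with rfl | hz2
      · exact h.not_mem_left hzU
      · exact h.not_mem_of_mem hzU hz2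
  rcases hcov (mem_insert p U) with hp | hp
  · exact main t t' ht ht' hcov hne' hcon hp
  · exact main t' t ht' ht (by rwa [union_comm]) hne (by rwa [inter_comm t' t]) hp

/-! ### elementary facts on `SepBy` -/

theorem SepBy.symm {p x y : B} (h : SepBy p x y) : SepBy p y x := by
  obtain ⟨U, V, hs, hx, hy⟩ := h
  exact ⟨V, U, hs.symm, hy, hx⟩

theorem ct_sepBy_comm {p x y : B} : SepBy p x y ↔ SepBy p y x := ⟨SepBy.symm, SepBy.symm⟩

theorem SepBy.ne_left {p x y : B} (h : SepBy p x y) : x ≠ p := by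
  obtain ⟨U, V, hs, hx, -⟩ := h
  rintro rfl
  exact hs.not_mem_left hx

theorem SepBy.ne_right {p x y : B} (h : SepBy p x y) : y ≠ p := h.symm.ne_left

theorem ct_not_sepBy_self (p x : B) : ¬ SepBy p x x := by
  rintro ⟨U, V, hs, hx, hy⟩
  exact hs.not_mem_of_mem hx hy

/-- cotransitivity -/
theorem SepBy.cotrans {p x y : B} (h : SepBy p x y) {z : B} (hz : z ≠ p) :
    SepBy p x z ∨ SepBy p z y := by
  obtain ⟨U, V, hs, hx, hy⟩ := h
  rcases hs.mem_or hz with h1 | h1
  · exact Or.inr ⟨U, V, hs, h1, hy⟩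
  · exact Or.inl ⟨U, V, hs, hx, h1⟩

/-- two splittings at the same point can be intersected -/
theorem SepBy.both {t m x y : B} (h1 : SepBy t m x) (h2 : SepBy t m y) :
    ∃ A A' : Set B, IsSplit t A A' ∧ m ∈ A ∧ x ∈ A' ∧ y ∈ A' := by
  obtain ⟨U, V, hs, hm, hx⟩ := h1
  obtain ⟨U', V', hs', hm', hy⟩ := h2
  refine ⟨U ∩ U', V ∪ V', ⟨hs.1.inter hs'.1, hs.2.1.union hs'.2.1, ?_, ?_⟩, ⟨hm, hm'⟩, Or.inl hx,
    Or.inr hy⟩
  · rw [Set.disjoint_left]
    rintro z ⟨hz, hz'⟩ (h | h)
    · exact hs.not_mem_of_mem hz h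
    · exact hs'.not_mem_of_mem hz' h
  · ext z
    simp only [mem_union, mem_inter_iff, mem_compl_iff, mem_singleton_iff]
    constructor
    · rintro (⟨hz, -⟩ | hz | hz) rfl
      · exact hs.not_mem_left hz
      · exact hs.not_mem_right hz
      · exact hs'.not_mem_right hz
    · intro hz
      rcases hs.mem_or hz with h | h
      · rcases hs'.mem_or hz with h' | h'
        · exact Or.inl ⟨h, h'⟩
        · exact Or.inr (Or.inr h')
      · exact Or.inr (Or.inl h)

/-- a connected set missing `t` is not separated by `t` -/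
theorem ct_not_sepBy_of_conn {C : Set B} (hC : IsPreconnected C) {t a b : B} (ha : a ∈ C) (hb : b ∈ C)
    (ht : t ∉ C) : ¬ SepBy t a b := by
  rintro ⟨X, Y, hs, haX, hbY⟩
  have hsub : C ⊆ X ∪ Y := by
    rw [hs.2.2.2]
    intro z hz hzt
    exact ht (hzt ▸ hz)
  have := hC.subset_left_of_subset_union hs.1 hs.2.1 hs.2.2.1 hsub ⟨a, ha, haX⟩
  exact hs.not_mem_of_mem (this hb) hbY

section Conn

variable [PreconnectedSpace B]

/-- if `t` lies on the `U` side of `p`, then `t` does not separate `p` from a point of the `V` side -/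
theorem IsSplit.not_sepBy {p : B} {U V : Set B} (h : IsSplit p U V) {t y : B} (ht : t ∈ U)
    (hy : y ∈ V) : ¬ SepBy t p y := by
  refine ct_not_sepBy_of_conn h.symm.isPreconnected_insert (mem_insert _ _) (Or.inr hy) ?_
  rintro (rfl | h')
  · exact h.not_mem_left ht
  · exact h.not_mem_of_mem ht h'

/-- (K1) a point separating `x` from `y` is not separated from both by a third point -/
theorem ct_K1 {p x y t : B} (h : SepBy p x y) (h1 : SepBy t p x) (h2 : SepBy t p y) : False := by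
  obtain ⟨U, V, hs, hx, hy⟩ := h
  rcases hs.mem_or h1.ne_left.symm with ht | ht
  · exact hs.not_sepBy ht hy h2
  · exact hs.symm.not_sepBy ht hx h1

theorem ct_S3_eq_empty {p x y : B} (h : SepBy p x y) : S3 p x y = ∅ := by
  ext t
  simp only [S3, Sp, mem_inter_iff, mem_ofPred_eq, mem_empty_iff_false, iff_false, not_and]
  exact fun h1 h2 => ct_K1 h h1 h2

/-- asymmetry of the order -/
theorem ct_asymm {p q x : B} (h : SepBy p x q) : ¬ SepBy q x p := by
  obtain ⟨U, V, hs, hx, hq⟩ := h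
  intro h'
  exact hs.symm.not_sepBy hq hx h'.symm

/-- (K2) `Sp x p ⊆ Sp x y` for `p ∈ Sp x y` -/
theorem ct_K2 {p x y s : B} (h : SepBy p x y) (hs : SepBy s x p) : SepBy s x y := by
  obtain ⟨U, V, hsp, hx, hy⟩ := h
  have hsU : s ∈ U := by
    rcases hsp.mem_or hs.ne_right.symm with h1 | h1
    · exact h1
    · exact absurd hs.symm (hsp.symm.not_sepBy h1 hx)
  have hys : y ≠ s := by
    rintro rfl
    exact hsp.not_mem_of_mem hsU hy
  rcases hs.cotrans hys with h1 | h1
  · exact h1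
  · exact absurd h1.symm (hsp.not_sepBy hsU hy)

/-- (K4) beyond `p` everything stays on the side of `y` -/
theorem ct_K4 {p p' x y : B} (h' : SepBy p' x y) (h : SepBy p x p') : ¬ SepBy p p' y := by
  obtain ⟨X, Y, hs, hx, hy⟩ := h'
  have hpX : p ∈ X := by
    rcases hs.mem_or h.ne_right.symm with h1 | h1
    · exact h1
    · exact absurd h.symm (hs.symm.not_sepBy h1 hx)
  exact hs.not_sepBy hpX hy

/-- (K3) trichotomy on `Sp x y` -/
theorem ct_K3 {p q x y : B} (hp : SepBy p x y) (hq : SepBy q x y) (hpq : p ≠ q) :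
    SepBy p x q ∨ SepBy q x p := by
  rcases hp.cotrans hpq.symm with h | h
  · exact Or.inl h
  · rcases hq.cotrans hpq with h' | h'
    · exact Or.inr h'
    · exfalso
      obtain ⟨U, V, hs, hqU, hy⟩ := h
      exact hs.not_sepBy hqU hy h'

end Conn

/-! ### the relation `fe` -/

theorem ct_Sp_comm (x y : B) : Sp x y = Sp y x := by
  ext p; exact ct_sepBy_comm

theorem ct_Sp_self (x : B) : Sp x x = ∅ := by
  ext p; simpa [Sp] using ct_not_sepBy_self p x

theorem ct_Sp_subset (x y z : B) : Sp x y ⊆ Sp x z ∪ Sp z y ∪ {z} := by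
  intro p hp
  by_cases hz : z = p
  · exact Or.inr hz.symm
  · exact Or.inl (SepBy.cotrans hp hz)

theorem ct_fe_refl (x : B) : fe x x := by
  unfold fe; rw [ct_Sp_self]; exact finite_empty

theorem fe.symm {x y : B} (h : fe x y) : fe y x := by
  unfold fe; rw [ct_Sp_comm]; exact h

theorem fe.trans {x y z : B} (h : fe x y) (h' : fe y z) : fe x z :=
  ((h.union h').union (finite_singleton y)).subset (ct_Sp_subset x z y)

theorem ct_S3_comm (m x y : B) : S3 m x y = S3 m y x := inter_comm _ _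

/-! ### the axioms of a median pretree, modulo `fe` -/

theorem ct_bt_left (x z : B) : Bt x x z := by
  unfold Bt S3; rw [ct_Sp_self, empty_inter]; exact finite_empty

theorem ct_bt_symm {x m y : B} (h : Bt x m y) : Bt y m x := by
  unfold Bt; rw [ct_S3_comm]; exact h

theorem ct_bt_right (x z : B) : Bt x z z := ct_bt_symm (ct_bt_left z x)

theorem ct_bt_self {x y : B} (h : Bt x y x) : fe y x := by
  unfold Bt S3 at h; rwa [inter_self] at h

theorem ct_S3_subset_I2 (x y z w : B) : S3 w x y ⊆ S3 w x z ∪ S3 z x y ∪ {z} := by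
  rintro t ⟨h1, h2⟩
  by_cases hz : z = t
  · exact Or.inr hz.symm
  · by_cases h3 : SepBy t w z
    · exact Or.inl (Or.inl ⟨h1, h3⟩)
    · refine Or.inl (Or.inr ⟨?_, ?_⟩)
      · exact (SepBy.cotrans h1 hz).resolve_left h3
      · exact (SepBy.cotrans h2 hz).resolve_left h3

/-- (I2) -/
theorem ct_bt_I2 {x y z w : B} (h : Bt x z y) (h' : Bt x w z) : Bt x w y :=
  ((h'.union h).union (finite_singleton z)).subset (ct_S3_subset_I2 x y z w)

theorem ct_Sp_subset_I3 (x y z w : B) : Sp w z ⊆ S3 w x z ∪ S3 w z y ∪ S3 z x y ∪ {x, y} := by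
  intro t ht
  by_cases hx : x = t
  · exact Or.inr (Or.inl hx.symm)
  by_cases hy : y = t
  · exact Or.inr (Or.inr hy.symm)
  rcases SepBy.cotrans ht hx with h1 | h1
  · exact Or.inl (Or.inl (Or.inl ⟨h1, ht⟩))
  · rcases SepBy.cotrans ht hy with h2 | h2
    · exact Or.inl (Or.inl (Or.inr ⟨ht, h2⟩))
    · exact Or.inl (Or.inr ⟨h1.symm, h2.symm⟩)

/-- (I3) -/
theorem ct_bt_I3 {x y z w : B} (h : Bt x z y) (h1 : Bt x w z) (h2 : Bt z w y) : fe w z :=
  (((h1.union h2).union h).union (by simp)).subset (ct_Sp_subset_I3 x y z w)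

/-- `Bt` only depends on the `fe`-classes: the middle point -/
theorem ct_bt_congr_mid {x m m' y : B} (h : fe m m') (hb : Bt x m y) : Bt x m' y := by
  have hsub : S3 m' x y ⊆ S3 m x y ∪ Sp m' m ∪ {m} := by
    rintro t ⟨h1, h2⟩
    by_cases hm : m = t
    · exact Or.inr hm.symm
    · by_cases h3 : SepBy t m' m
      · exact Or.inl (Or.inr h3)
      · exact Or.inl (Or.inl ⟨(SepBy.cotrans h1 hm).resolve_left h3,
          (SepBy.cotrans h2 hm).resolve_left h3⟩)
  exact ((hb.union h.symm).union (finite_singleton m)).subset hsub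

/-- `Bt` only depends on the `fe`-classes: an end point -/
theorem ct_bt_congr_left {x x' m y : B} (h : fe x x') (hb : Bt x m y) : Bt x' m y := by
  have hsub : S3 m x' y ⊆ S3 m x y ∪ Sp x x' ∪ {x} := by
    rintro t ⟨h1, h2⟩
    by_cases hx : x = t
    · exact Or.inr hx.symm
    · rcases SepBy.cotrans h1 hx with h3 | h3
      · exact Or.inl (Or.inl ⟨h3, h2⟩)
      · exact Or.inl (Or.inr h3)
  exact ((hb.union h).union (finite_singleton x)).subset hsub

theorem ct_bt_congr_right {x m y y' : B} (h : fe y y') (hb : Bt x m y) : Bt x m y' :=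
  ct_bt_symm (ct_bt_congr_left h (ct_bt_symm hb))

section Conn2

variable [PreconnectedSpace B]

theorem ct_bt_of_sepBy {p x y : B} (h : SepBy p x y) : Bt x p y := by
  unfold Bt; rw [ct_S3_eq_empty h]; exact finite_empty

/-- `S3 w x z` is an initial segment of `Sp w z` -/
theorem ct_S3_initial {w x z s s' : B} (hs : s ∈ S3 w x z) (h : SepBy s' w s) : s' ∈ S3 w x z :=
  ⟨ct_K2 hs.1 h, ct_K2 hs.2 h⟩

/-- two initial segments are comparable -/
theorem ct_S3_comparable (w x y z : B) : S3 w x z ⊆ S3 w z y ∨ S3 w z y ⊆ S3 w x z := by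
  by_contra hcon
  rw [not_or, Set.not_subset, Set.not_subset] at hcon
  obtain ⟨⟨a, ha, ha'⟩, ⟨b, hb, hb'⟩⟩ := hcon
  have hab : a ≠ b := by rintro rfl; exact ha' hb
  rcases ct_K3 ha.2 hb.1 hab with h | h
  · exact ha' (ct_S3_initial hb h)
  · exact hb' (ct_S3_initial ha h)

/-- (I4) -/
theorem ct_bt_I4 {x y w : B} (z : B) (h : Bt x w y) : Bt x w z ∨ Bt z w y := by
  rcases ct_S3_comparable w x y z with h1 | h1
  · left
    exact h.subset fun t ht => ⟨ht.1, (h1 ht).2⟩
  · right
    exact h.subset fun t ht => ⟨(h1 ht).1, ht.2⟩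

/-- comparison of separating sets along a line -/
theorem ct_sp_collinear (c c₁ d₁ d : B) :
    Sp c₁ d₁ ⊆ Sp c d ∪ S3 c₁ c d₁ ∪ S3 d₁ c₁ d ∪ {c, d} := by
  intro t ht
  by_cases hc : c = t
  · exact Or.inr (Or.inl hc.symm)
  by_cases hd : d = t
  · exact Or.inr (Or.inr hd.symm)
  by_cases h1 : SepBy t c₁ c
  · exact Or.inl (Or.inl (Or.inr ⟨h1, ht⟩))
  by_cases h2 : SepBy t d₁ d
  · exact Or.inl (Or.inr ⟨ht.symm, h2⟩)
  refine Or.inl (Or.inl (Or.inl ?_))
  have h3 : SepBy t c d₁ := (SepBy.cotrans ht hc).resolve_left h1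
  exact (SepBy.cotrans h3 hd).resolve_right (fun h => h2 h.symm)

theorem ct_sp_collinear_finite {c c₁ d₁ d : B} (h1 : Bt c c₁ d₁) (h2 : Bt c₁ d₁ d) :
    (Sp c₁ d₁ \ Sp c d).Finite := by
  refine ((h1.union h2).union (by simp : ({c, d} : Set B).Finite)).subset ?_
  rintro t ⟨ht, ht'⟩
  rcases ct_sp_collinear c c₁ d₁ d ht with ((h | h) | h) | h
  · exact absurd h ht'
  · exact Or.inl (Or.inl h)
  · exact Or.inl (Or.inr h)
  · exact Or.inr h

/-- **existence of medians** (no local connectedness, no metric): there is a point `m` which no point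
separates from two of `x, y, z`. -/
theorem ct_exists_med [CompactSpace B] (x y z : B) :
    ∃ m, S3 m x y = ∅ ∧ S3 m y z = ∅ ∧ S3 m x z = ∅ := by
  by_cases hL : S3 x y z = ∅
  · refine ⟨x, ?_, hL, ?_⟩ <;> simp [S3, ct_Sp_self]
  have hne : Nonempty (S3 x y z) := (Set.nonempty_iff_ne_empty.2 hL).to_subtype
  set F : S3 x y z → Set B := fun p => closure {p' | p' ∈ S3 x y z ∧ (p' = p.1 ∨ SepBy p.1 x p')}
    with hF
  have hmono : ∀ p q : S3 x y z, SepBy p.1 x q.1 → F q ⊆ F p := by
    intro p q hpq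
    refine closure_mono ?_
    rintro p' ⟨hp', h⟩
    refine ⟨hp', Or.inr ?_⟩
    rcases h with rfl | h
    · exact hpq
    · exact ct_K2 h hpq
  have hdir : Directed (· ⊇ ·) F := by
    intro p q
    by_cases hpq : p.1 = q.1
    · have : p = q := Subtype.ext hpq
      subst this
      exact ⟨p, subset_rfl, subset_rfl⟩
    · rcases ct_K3 p.2.1 q.2.1 hpq with h | h
      · exact ⟨q, hmono p q h, subset_rfl⟩
      · exact ⟨p, subset_rfl, hmono q p h⟩
  obtain ⟨m, hm⟩ := IsCompact.nonempty_iInter_of_directed_nonempty_isCompact_isClosed F hdir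
    (fun p => ⟨p.1, subset_closure ⟨p.2, Or.inl rfl⟩⟩) (fun p => isClosed_closure.isCompact)
    (fun p => isClosed_closure)
  rw [mem_iInter] at hm
  -- every open neighbourhood of `m` meets the tail beyond `p`
  have hmeet : ∀ (p : S3 x y z) (A : Set B), IsOpen A → m ∈ A →
      ∃ p' ∈ A, p' ∈ S3 x y z ∧ (p' = p.1 ∨ SepBy p.1 x p') := by
    intro p A hA hmA
    obtain ⟨p', hp'A, hp'⟩ := mem_closure_iff.1 (hm p) A hA hmA
    exact ⟨p', hp'A, hp'⟩
  obtain ⟨p₀⟩ := hne
  have h1 : S3 m x y = ∅ := by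
    rw [Set.eq_empty_iff_forall_notMem]
    rintro t ⟨ht1, ht2⟩
    obtain ⟨A, A', hs, hmA, hx, hy⟩ := SepBy.both ht1 ht2
    obtain ⟨p', hp'A, hp', -⟩ := hmeet p₀ A hs.1 hmA
    exact ct_K1 hp'.1 ⟨A, A', hs, hp'A, hx⟩ ⟨A, A', hs, hp'A, hy⟩
  have h2 : S3 m x z = ∅ := by
    rw [Set.eq_empty_iff_forall_notMem]
    rintro t ⟨ht1, ht2⟩
    obtain ⟨A, A', hs, hmA, hx, hz⟩ := SepBy.both ht1 ht2
    obtain ⟨p', hp'A, hp', -⟩ := hmeet p₀ A hs.1 hmA
    exact ct_K1 hp'.2 ⟨A, A', hs, hp'A, hx⟩ ⟨A, A', hs, hp'A, hz⟩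
  refine ⟨m, h1, ?_, h2⟩
  rw [Set.eq_empty_iff_forall_notMem]
  rintro t ⟨ht1, ht2⟩
  obtain ⟨A, A', hs, hmA, hy, hz⟩ := SepBy.both ht1 ht2
  by_cases hxt : x = t
  · subst hxt
    obtain ⟨p', hp'A, hp', -⟩ := hmeet p₀ A hs.1 hmA
    obtain ⟨X, Y, hs', hxX, hyY⟩ := hp'.1
    exact hs'.not_sepBy hxX hyY ⟨A, A', hs, hp'A, hy⟩
  · rcases hs.mem_or hxt with hxA | hxA
    · have htL : t ∈ S3 x y z := ⟨⟨A, A', hs, hxA, hy⟩, ⟨A, A', hs, hxA, hz⟩⟩
      obtain ⟨p', hp'A, hp', h⟩ := hmeet ⟨t, htL⟩ A hs.1 hmA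
      rcases h with rfl | h
      · exact hs.not_mem_left hp'A
      · exact ct_K4 hp'.1 h ⟨A, A', hs, hp'A, hy⟩
    · have : t ∈ S3 m x y := ⟨⟨A, A', hs, hmA, hxA⟩, ht1⟩
      rw [h1] at this
      exact this

theorem ct_exists_med_bt [CompactSpace B] (x y z : B) : ∃ m, Bt x m y ∧ Bt y m z ∧ Bt x m z := by
  obtain ⟨m, h1, h2, h3⟩ := ct_exists_med x y z
  refine ⟨m, ?_, ?_, ?_⟩ <;> unfold Bt <;> simp [h1, h2, h3]

end Conn2

end Claimed.Agent.R309
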