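import Claimed.Agent.R309.S6.T3

/-!
# Row 309, new Section 6: the discrete case and the conclusion `fin_sep`

Owner: helper173.  Prefix `dc_`.  `R` an invariant convex equivalence relation on `FeQ B = B/~`.

* `dc_hasFix`   : if `R⁺` has an invariant class, so has `R` (one-endedness, torsion freeness, `cd9_edge`);
* `dc_fe_fix`   : `~` has an invariant class (Zorn + dense case + discrete case);
* `dc_fin_sep`  : any two cut points are separated by finitely many points only.
-/

set_option autoImplicit false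
set_option linter.unusedSectionVars false

namespace Claimed.Agent.R309.S6

open MedTree Set Filter Topology

/-! ### adjacency in a median tree -/

section Tree

variable {T : Type} [MedTree T]

/-- adjacent points -/
def Adj (X Y : T) : Prop := X ≠ Y ∧ ∀ Z, Bet X Z Y → Z = X ∨ Z = Y

theorem Adj.cases {X Y : T} (h : Adj X Y) (Z : T) : Bet Z X Y ∨ Bet Z Y X := by
  rcases h.2 _ (med_bet₂ Z X Y) with h1 | h1
  · left
    have := med_bet₃ Z X Y
    rwa [h1] at this
  · right
    have := med_bet₁ Z X Y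
    rwa [h1] at this

/-- a nondegenerate finite interval starts with an edge -/
theorem dc_exists_adj {X : T} : ∀ (n : ℕ) (Z : T), X ≠ Z → {W | Bet X W Z}.Finite →
    {W | Bet X W Z}.ncard ≤ n → ∃ Y, Adj X Y ∧ Bet X Y Z := by
  intro n
  induction n with
  | zero =>
    intro Z _ hfin hcard
    have h0 : {W | Bet X W Z}.ncard = 0 := by omega
    rw [Set.ncard_eq_zero hfin] at h0
    have : X ∈ {W | Bet X W Z} := bet_left X Z
    rw [h0] at this
    exact absurd this (Set.notMem_empty _)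
  | succ n ih =>
    intro Z hne hfin hcard
    by_cases hadj : Adj X Z
    · exact ⟨Z, hadj, bet_right X Z⟩
    · unfold Adj at hadj
      push Not at hadj
      obtain ⟨W, hW, hWX, hWZ⟩ := hadj hne
      have hsub : {V | Bet X V W} ⊂ {V | Bet X V Z} := by
        refine ⟨fun V hV => bet_trans hW hV, fun hcon => ?_⟩
        have : Bet X Z W := hcon (bet_right X Z)
        exact hWZ (bet_antisymm' hW this)
      have hlt := Set.ncard_lt_ncard hsub hfin
      obtain ⟨Y, hY, hb⟩ := ih W (Ne.symm hWX) (hfin.subset hsub.1) (by omega)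
      exact ⟨Y, hY, bet_trans hW hb⟩

end Tree

theorem dc_pow_injective {Γ : Type} [Group Γ] (tf : ∀ g : Γ, g ≠ 1 → ∀ n : ℕ, 0 < n → g ^ n ≠ 1)
    {g : Γ} (hg : g ≠ 1) : Function.Injective fun n : ℕ => g ^ n := by
  rw [injective_pow_iff_not_isOfFinOrder, isOfFinOrder_iff_pow_eq_one]
  rintro ⟨n, hn, h⟩
  exact tf g hg n hn h

variable {B : Type} [TopologicalSpace B] [PreconnectedSpace B] [CompactSpace B]

/-- a half which is not reduced to its base vertex has interior points -/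
theorem dc_open (R : CRel (FeQ B)) {X Y Z : R.Q} (hYZ : Y ≠ Z) (h : Bet X Y Z) :
    ∃ V : Set B, IsOpen V ∧ V.Nonempty ∧ ∀ z ∈ V, Bet X Y (R.bp z) := by
  obtain ⟨x, rfl⟩ := R.bp_surj X
  obtain ⟨z, rfl⟩ := R.bp_surj Z
  obtain ⟨y, rfl, hy⟩ := R.bp_lift h
  have hinf : (Sp y z).Infinite := fun hf => hYZ (R.bp_eq_of_fe hf)
  have hfin := ct_sp_collinear_finite hy (ct_bt_right y z)
  obtain ⟨t, ht, ht'⟩ := (hinf.sdiff hfin).nonempty
  have htx : SepBy t x z := by
    by_contra hcon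
    exact ht' ⟨ht, hcon⟩
  obtain ⟨U, V, hs, hxU, hzV⟩ := htx
  refine ⟨V, hs.2.1, ⟨z, hzV⟩, fun z' hz' => ?_⟩
  have h1 : Bet (R.bp x) (R.bp t) (R.bp z') := R.bp_bet ⟨U, V, hs, hxU, hz'⟩
  have h2 : Bet (R.bp y) (R.bp t) (R.bp z) := R.bp_bet ht
  have h3 : Bet (R.bp x) (R.bp y) (R.bp t) := bet_symm (bet_shift (bet_symm h) (bet_symm h2))
  exact bet_trans h1 h3

section Dyn

variable {Γ : Type} [Group Γ] [MulAction Γ B] [ContinuousConstSMul Γ B]

/-- a nonempty open set is visited infinitely often by every orbit -/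
theorem dc_infinite [T1Space B] [Infinite B] (hmin : ∀ x : B, Dense (MulAction.orbit Γ x))
    {V : Set B} (hV : IsOpen V) (hne : V.Nonempty) (x₀ : B) : {g : Γ | g • x₀ ∈ V}.Infinite := by
  intro hfin
  have : ConnectedSpace B := { toPreconnectedSpace := inferInstance, toNonempty := inferInstance }
  have hd := (hmin x₀).sdiff_finite (hfin.image fun g => g • x₀)
  obtain ⟨_, hzV, ⟨g, rfl⟩, hz⟩ := hd.inter_open_nonempty V hV hne
  exact hz ⟨g, hzV, rfl⟩

theorem dc_half_infinite [T1Space B] [Infinite B] (hmin : ∀ x : B, Dense (MulAction.orbit Γ x))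
    (R : ICRel Γ (FeQ B)) {X Y Z : R.toCRel.Q} (hYZ : Y ≠ Z) (h : Bet X Y Z) (X₁ : R.toCRel.Q) :
    {g : Γ | Bet X Y (g • X₁)}.Infinite := by
  obtain ⟨V, hV, hne, hsub⟩ := dc_open R.toCRel hYZ h
  obtain ⟨x₁, rfl⟩ := R.toCRel.bp_surj X₁
  exact (dc_infinite hmin hV hne x₁).mono fun g hg => hsub _ hg

/-- the two halves of an edge -/
theorem dc_edge [T2Space B] [Infinite B] (hc : ConvAct Γ B) (R : ICRel Γ (FeQ B))
    {X Y : R.toCRel.Q} (hadj : Adj X Y) {g : Γ} (hg : Function.Injective fun n : ℕ => g ^ n)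
    (hX : g • X = X) (hY : g • Y = Y) :
    {z : B | Bet (R.toCRel.bp z) X Y}.Subsingleton ∨ {z : B | Bet (R.toCRel.bp z) Y X}.Subsingleton := by
  have hconv : ∀ X Y : R.toCRel.Q, BtConvex {z : B | Bet (R.toCRel.bp z) X Y} := by
    intro X Y x hx y hy m hm
    have h1 : ¬ InDir X Y (R.toCRel.bp x) := not_inDir_iff.2 hx
    have h2 : ¬ InDir X Y (R.toCRel.bp y) := not_inDir_iff.2 hy
    exact not_inDir_iff.1 (not_inDir_convex h1 h2 (R.toCRel.bp_bet_of_bt hm))
  have hinv : ∀ X Y : R.toCRel.Q, g • X = X → g • Y = Y → ∀ x ∈ {z : B | Bet (R.toCRel.bp z) X Y},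
      g • x ∈ {z : B | Bet (R.toCRel.bp z) X Y} := by
    intro X Y hX hY x hx
    have hx' : Bet (R.toCRel.bp x) X Y := hx
    have := TreeAction.bet_smul g hx'
    rwa [hX, hY, R.smul_bp] at this
  obtain ⟨x, hx⟩ := R.toCRel.bp_surj X
  obtain ⟨y, hy⟩ := R.toCRel.bp_surj Y
  refine cd9_edge hc ?_ ?_ ⟨x, ?_⟩ ⟨y, ?_⟩ (hconv X Y) (hconv Y X) hg (hinv X Y hX hY) (hinv Y X hY hX)
  · ext z
    simpa using hadj.cases (R.toCRel.bp z)
  · rw [Set.disjoint_left]
    intro z h1 h2
    exact hadj.1 (bet_antisymm' h1 h2)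
  · show Bet (R.toCRel.bp x) X Y
    rw [hx]; exact bet_left _ _
  · show Bet (R.toCRel.bp y) Y X
    rw [hy]; exact bet_left _ _

/-- **no edge with two inner end points** -/
theorem dc_no_inner_edge [T2Space B] [Infinite B] {S : Finset Γ} (hS : CohHyp S) (hc : ConvAct Γ B)
    (hmin : ∀ x : B, Dense (MulAction.orbit Γ x)) (R : ICRel Γ (FeQ B)) {X Y : R.toCRel.Q}
    (hadj : Adj X Y) (hfin : ∀ g : Γ, {W | Bet X W (g • X)}.Finite) (hX : IsInner X)
    (hY : IsInner Y) : False := by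
  obtain ⟨X', hX', hbX⟩ := t3_prolong hX Y
  obtain ⟨Y', hY', hbY⟩ := t3_prolong hY X
  -- the stabiliser of the edge is trivial
  have hstab : ∀ g : Γ, g • X = X → g • Y = Y → g = 1 := by
    intro g hgX hgY
    by_contra hg
    obtain ⟨x, hx⟩ := R.toCRel.bp_surj X
    obtain ⟨y, hy⟩ := R.toCRel.bp_surj Y
    obtain ⟨x', hx'⟩ := R.toCRel.bp_surj X'
    obtain ⟨y', hy'⟩ := R.toCRel.bp_surj Y'
    rcases dc_edge hc R hadj (dc_pow_injective hS.tf hg) hgX hgY with h | h
    · have h1 : x ∈ {z : B | Bet (R.toCRel.bp z) X Y} := by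
        show Bet (R.toCRel.bp x) X Y
        rw [hx]; exact bet_left _ _
      have h2 : x' ∈ {z : B | Bet (R.toCRel.bp z) X Y} := by
        show Bet (R.toCRel.bp x') X Y
        rw [hx']; exact hbX
      have := h h1 h2
      exact hX' (by rw [← hx', ← hx, this])
    · have h1 : y ∈ {z : B | Bet (R.toCRel.bp z) Y X} := by
        show Bet (R.toCRel.bp y) Y X
        rw [hy]; exact bet_left _ _
      have h2 : y' ∈ {z : B | Bet (R.toCRel.bp z) Y X} := by
        show Bet (R.toCRel.bp y') Y X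
        rw [hy']; exact hbY
      have := h h1 h2
      exact hY' (by rw [← hy', ← hy, this])
  -- the coboundary of `W`
  set W : Set Γ := {g | Bet (g • X) X Y} with hW
  have hcob : {g | g ∈ W ∧ ∃ s ∈ S, g * s ∉ W}.Finite := by
    have hsub : {g | g ∈ W ∧ ∃ s ∈ S, g * s ∉ W} ⊆
        ⋃ s ∈ S, {g : Γ | Bet (g • X) X Y ∧ Bet X Y (g • s • X)} := by
      rintro g ⟨hg, s, hs, hgs⟩
      simp only [Set.mem_iUnion]
      refine ⟨s, hs, hg, ?_⟩
      rcases hadj.cases ((g * s) • X) with h | h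
      · exact absurd h hgs
      · rw [mul_smul] at h
        exact bet_symm h
    refine Set.Finite.subset (Set.Finite.biUnion S.finite_toSet fun s _ => ?_) hsub
    refine Set.Finite.of_injOn (f := fun g : Γ => (g⁻¹ • X, g⁻¹ • Y))
      (t := {W | Bet X W (s • X)} ×ˢ {W | Bet X W (s • X)}) ?_ ?_ ((hfin s).prod (hfin s))
    · rintro g ⟨h1, h2⟩
      have h3 : Bet (g • X) Y (g • s • X) := t3_concat h1 h2 hadj.1
      have h4 : Bet (g • X) X (g • s • X) := bet_trans h3 h1
      have h3' := TreeAction.bet_smul g⁻¹ h3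
      have h4' := TreeAction.bet_smul g⁻¹ h4
      rw [inv_smul_smul, inv_smul_smul] at h3' h4'
      exact ⟨h4', h3'⟩
    · intro g _ h _ hgh
      simp only [Prod.mk.injEq] at hgh
      have h1 : (h * g⁻¹) • X = X := by rw [mul_smul, hgh.1, smul_inv_smul]
      have h2 : (h * g⁻¹) • Y = Y := by rw [mul_smul, hgh.2, smul_inv_smul]
      have := hstab _ h1 h2
      exact (mul_inv_eq_one.1 this).symm
  have hWinf : W.Infinite := by
    refine (dc_half_infinite hmin R hX'.symm (bet_symm hbX) X).mono fun g hg => ?_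
    have hg' : Bet Y X (g • X) := hg
    exact bet_symm hg'
  have hWcinf : Wᶜ.Infinite := by
    refine (dc_half_infinite hmin R hY'.symm (bet_symm hbY) X).mono fun g hg hgW => ?_
    have hg' : Bet X Y (g • X) := hg
    have hgW' : Bet (g • X) X Y := hgW
    exact hadj.1 (bet_antisymm' hgW' (bet_symm hg'))
  rcases hS.oneEnded W hcob with h | h
  · exact hWinf h
  · exact hWcinf h

/-- **the discrete case** -/
theorem dc_hasFix [T2Space B] [Infinite B] {S : Finset Γ} (hS : CohHyp S) (hc : ConvAct Γ B)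
    (hmin : ∀ x : B, Dense (MulAction.orbit Γ x)) (R : ICRel Γ (FeQ B)) (hplus : R.plus.HasFix) :
    R.HasFix := by
  obtain ⟨x, hx⟩ := hplus
  by_contra hno
  rw [ICRel.hasFix_iff] at hno
  push Not at hno
  have hmove : ∀ x' : FeQ B, R.plus.rel x' x → ∀ g : Γ, R.plus.rel x' (g • x') := by
    intro x' hx' g
    exact R.plus.rel_trans hx' (R.plus.rel_trans (R.plus.rel_symm (hx g))
      (R.plus.rel_smul g (R.plus.rel_symm hx')))
  by_cases hA : ∃ x' : FeQ B, R.plus.rel x' x ∧ IsInner (R.pr x')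
  · obtain ⟨x', hx', hin⟩ := hA
    obtain ⟨g, hg⟩ := hno (R.pr x')
    have hfin : ∀ g : Γ, {W | Bet (R.pr x') W (g • R.pr x')}.Finite := fun g => hmove x' hx' g
    obtain ⟨Y, hadj, hb⟩ := dc_exists_adj _ _ (Ne.symm hg) (hfin g) le_rfl
    refine dc_no_inner_edge hS hc hmin R hadj hfin hin ?_
    by_cases hY : Y = g • R.pr x'
    · rw [hY]; exact hin.smul g
    · exact ⟨_, _, hadj.1, Ne.symm hY, hb⟩
  · push Not at hA
    obtain ⟨g, hg⟩ := hno (R.pr x)
    set X₀ := R.pr x with hX₀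
    set Y := g • X₀ with hY
    have hX₀t : ¬ IsInner X₀ := hA x (R.plus.rel_refl x)
    have hYt : ¬ IsInner Y := hA (g • x) (hx g)
    have hadj : Adj X₀ Y := by
      refine ⟨Ne.symm hg, fun Z hZ => ?_⟩
      by_contra hcon
      push Not at hcon
      obtain ⟨z, rfl⟩ := R.pr_surj Z
      obtain ⟨z', hz', hb⟩ := R.bet_pr_iff_exists.1 hZ
      have h1 : R.plus.rel x z' := R.plus.rel_convex (R.plus.rel_symm (hx g)) hb
      refine hA z' (R.plus.rel_symm h1) ?_
      rw [R.pr_eq_pr.2 hz']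
      exact ⟨_, _, Ne.symm hcon.1, Ne.symm hcon.2, hZ⟩
    have hgY : g • Y = X₀ := by
      rcases hadj.cases (g • Y) with h | h
      · by_contra hcon
        exact hX₀t ⟨_, _, hcon, hg, h⟩
      · exfalso
        by_cases h' : g • Y = Y
        · exact hg (smul_left_cancel g h')
        · exact hYt ⟨_, _, h', Ne.symm hg, h⟩
    have hg1 : g ≠ 1 := by
      rintro rfl
      exact hg (one_smul _ _)
    have hg2 : g ^ 2 ≠ 1 := hS.tf g hg1 2 (by norm_num)
    have h2X : g ^ 2 • X₀ = X₀ := by rw [pow_two, mul_smul, ← hY, hgY]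
    have h2Y : g ^ 2 • Y = Y := by rw [pow_two, mul_smul, hgY]
    have hswap : ∀ X Y : R.toCRel.Q, g • X = Y → g • Y = X →
        {z : B | Bet (R.toCRel.bp z) X Y}.Subsingleton → {z : B | Bet (R.toCRel.bp z) Y X}.Subsingleton := by
      intro X Y hXY hYX hsub z hz z' hz'
      have hz1 : Bet (R.toCRel.bp z) Y X := hz
      have hz2 : Bet (R.toCRel.bp z') Y X := hz'
      have h1 := TreeAction.bet_smul g hz1
      have h2 := TreeAction.bet_smul g hz2
      rw [hXY, hYX, R.smul_bp] at h1 h2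
      exact smul_left_cancel g (hsub h1 h2)
    have hboth : {z : B | Bet (R.toCRel.bp z) X₀ Y}.Subsingleton ∧
        {z : B | Bet (R.toCRel.bp z) Y X₀}.Subsingleton := by
      rcases dc_edge hc R hadj (dc_pow_injective hS.tf hg2) h2X h2Y with h | h
      · exact ⟨h, hswap _ _ rfl hgY h⟩
      · exact ⟨hswap _ _ hgY rfl h, h⟩
    have hcov : (univ : Set B) ⊆ {z : B | Bet (R.toCRel.bp z) X₀ Y} ∪ {z : B | Bet (R.toCRel.bp z) Y X₀} :=
      fun z _ => hadj.cases (R.toCRel.bp z)
    exact Set.infinite_univ ((hboth.1.finite.union hboth.2.finite).subset hcov)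

/-- the trivial relation -/
def dc_bot (Γ : Type) (T : Type) [Group Γ] [MedTree T] [TreeAction Γ T] : ICRel Γ T where
  s := ⊥
  convex := fun {x y m} h hm => by
    have h' : x = y := h
    subst h'
    exact (bet_self hm).symm
  inv := fun g {x y} h => by
    have h' : x = y := h
    subst h'
    rfl

/-- **`~` has an invariant class** -/
theorem dc_fe_fix [T2Space B] [Infinite B] {S : Finset Γ} (hS : CohHyp S) (hc : ConvAct Γ B)
    (hmin : ∀ x : B, Dense (MulAction.orbit Γ x)) : ∃ c : B, ∀ g : Γ, fe (g • c) c := by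
  by_contra hcon
  have h₀ : ¬ (dc_bot Γ (FeQ B)).HasFix := by
    rintro ⟨X, hX⟩
    obtain ⟨c, rfl⟩ := fq_surj X
    refine hcon ⟨c, fun g => fq_eq_fq.1 ?_⟩
    exact hX g
  obtain ⟨R, -, hR, hmax⟩ := tq_exists_maximal hS.gen (dc_bot Γ (FeQ B)) h₀
  by_cases hp : R.plus.HasFix
  · exact hR (dc_hasFix hS hc hmin R hp)
  · have hle := hmax R.plus (fun x y h => R.toCRel.rel_plus_of_rel h) hp
    exact hR (t3_dense_hasFix hS hc R (t3_dense_of_plus R.toCRel hle))

/-- **`fin_sep`** -/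
theorem dc_fin_sep [T2Space B] [Infinite B] {S : Finset Γ} (hS : CohHyp S) (hc : ConvAct Γ B)
    (hmin : ∀ x : B, Dense (MulAction.orbit Γ x)) {a b : B} (ha : IsCutPt a) (hb : IsCutPt b) :
    (Sp a b).Finite := by
  obtain ⟨c, hcfix⟩ := dc_fe_fix hS hc hmin
  exact cd9_cut_fe hmin hcfix ha hb

end Dyn

end Claimed.Agent.R309.S6
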