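import Claimed.Agent.R309.S6.Coh
import Claimed.Agent.R309.S6.CutDyn

/-! # Row 309, S6, leaf EdgeInf: stabilisers of "tree edges" `(a, star(a,b))` are infinite -/

set_option autoImplicit false
set_option linter.unusedSectionVars false

namespace Claimed.Agent.R309.S6

open Set

variable {Γ B : Type} [Group Γ] [TopologicalSpace B] [MulAction Γ B]
  [PreconnectedSpace B] [T2Space B] [CompactSpace B] [Infinite B] [ContinuousConstSMul Γ B]

/-- a nonempty open set is visited infinitely often by every orbit -/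
theorem ei_infinite (hmin : ∀ x : B, Dense (MulAction.orbit Γ x))
    {V : Set B} (hV : IsOpen V) (hne : V.Nonempty) (x₀ : B) : {g : Γ | g • x₀ ∈ V}.Infinite := by
  intro hfin
  have : ConnectedSpace B := { toPreconnectedSpace := inferInstance, toNonempty := inferInstance }
  have hd := (hmin x₀).sdiff_finite (hfin.image fun g => g • x₀)
  obtain ⟨_, hzV, ⟨g, rfl⟩, hz⟩ := hd.inter_open_nonempty V hV hne
  exact hz ⟨g, hzV, rfl⟩

theorem ei_isCutPt_smul {a : B} (ha : IsCutPt a) (g : Γ) : IsCutPt (g • a) := by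
  obtain ⟨x, y, h⟩ := ha
  exact ⟨g • x, g • y, h.smul g⟩

/-- **`edge_inf`.**  `H = {h | h a = a, h b adjacent or equal to b}`.  Suppose `H` finite.
`β = {x ≠ a | ¬ SepBy a x b}`, `A = {g | g a ∈ β}`.
(1) `A` and `Aᶜ` are infinite: a side `Y ∌ a` of `b` is an open nonempty subset of `β` (`Y ∪ {b}` is connected and misses
`a`); a side of `a` not containing `b` is an open nonempty set disjoint from `β`; orbits are dense and `B` has no
isolated point.
(2) `{g ∈ A | ∃ s ∈ S, g s ∉ A}` is finite: for such `(g,s)` put `a' = g⁻¹ a`, `b' = g⁻¹ b`: `a ≠ a'`,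
`¬ SepBy a' a b'`, and `s a = a'` or `SepBy a' (s a) b'`, so `a' ∈ Sp a (s a) ∪ {s a}`: finitely many `a'` (`hfin`).
For fixed `a'`: two solutions `g, g₁` have `g⁻¹ b, g₁⁻¹ b` adjacent to `a'` and not separated from `a` by `a'`; no
`q` separates them (`q ≠ a'`: cotransitivity through `a'`), hence `g g₁⁻¹ ∈ H` (up to inversion).
(3) `CohHyp.oneEnded` : contradiction. -/
theorem edge_inf_abs {S : Finset Γ} (hS : CohHyp S)
    (hmin : ∀ x : B, Dense (MulAction.orbit Γ x))
    (hfin : ∀ a b : B, IsCutPt a → IsCutPt b → (Sp a b).Finite)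
    {a b : B} (ha : IsCutPt a) (hb : IsCutPt b) (hab : a ≠ b) (hadj : ∀ q, ¬ SepBy q a b) :
    {h : Γ | h • a = a ∧ ∀ q, ¬ SepBy q (h • b) b}.Infinite := by
  intro hH
  -- solutions with a given `a'`
  have hN : ∀ a' : B, {g : Γ | a ≠ a' ∧ g⁻¹ • a = a' ∧ ¬ SepBy a' a (g⁻¹ • b)}.Finite := by
    intro a'
    by_cases hemp : ∃ g₀ : Γ, a ≠ a' ∧ g₀⁻¹ • a = a' ∧ ¬ SepBy a' a (g₀⁻¹ • b)
    · obtain ⟨g₀, hne, h0a, h0b⟩ := hemp
      refine (hH.image (fun h => h * g₀)).subset ?_
      rintro g ⟨-, hga, hgb⟩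
      refine ⟨g * g₀⁻¹, ⟨?_, ?_⟩, by simp⟩
      · rw [mul_smul, h0a, ← hga, smul_inv_smul]
      · intro q hq
        have h1 := hq.smul g⁻¹
        rw [mul_smul, inv_smul_smul] at h1
        by_cases hq' : g⁻¹ • q = a'
        · rw [hq'] at h1
          rcases h1.cotrans hne with h2 | h2
          · exact h0b h2.symm
          · exact hgb h2
        · rcases h1.cotrans (Ne.symm hq') with h2 | h2
          · rw [← h0a] at h2
            have h3 := h2.smul g₀
            rw [smul_inv_smul, smul_inv_smul] at h3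
            exact hadj _ h3.symm
          · rw [← hga] at h2
            have h3 := h2.smul g
            rw [smul_inv_smul, smul_inv_smul, smul_inv_smul] at h3
            exact hadj _ h3
    · refine Set.finite_empty.subset ?_
      intro g hg
      exact hemp ⟨g, hg⟩
  set A : Set Γ := {g | g • a ≠ a ∧ ¬ SepBy a (g • a) b} with hA
  have hcob : {g | g ∈ A ∧ ∃ s ∈ S, g * s ∉ A}.Finite := by
    have hsub : {g | g ∈ A ∧ ∃ s ∈ S, g * s ∉ A} ⊆
        ⋃ s ∈ S, ⋃ a' ∈ insert (s • a) (Sp a (s • a)),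
          {g : Γ | a ≠ a' ∧ g⁻¹ • a = a' ∧ ¬ SepBy a' a (g⁻¹ • b)} := by
      rintro g ⟨⟨hg1, hg2⟩, s, hs, hgs⟩
      simp only [Set.mem_iUnion]
      have hne : a ≠ g⁻¹ • a := by
        intro h
        apply hg1
        conv_lhs => rw [h]
        rw [smul_inv_smul]
      have hnot : ¬ SepBy (g⁻¹ • a) a (g⁻¹ • b) := by
        intro h
        have h1 := h.smul g
        rw [smul_inv_smul, smul_inv_smul] at h1
        exact hg2 h1
      refine ⟨s, hs, g⁻¹ • a, ?_, hne, rfl, hnot⟩
      by_cases h1 : (g * s) • a = a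
      · left
        have h2 : g⁻¹ • (g * s) • a = g⁻¹ • a := by rw [h1]
        rw [mul_smul, inv_smul_smul] at h2
        exact h2.symm
      · right
        have h2 : SepBy a ((g * s) • a) b := by
          by_contra hcon
          exact hgs ⟨h1, hcon⟩
        have h3 := h2.smul g⁻¹
        rw [mul_smul, inv_smul_smul] at h3
        rcases h3.cotrans hne with h4 | h4
        · exact h4.symm
        · exact absurd h4 hnot
    refine Set.Finite.subset (Set.Finite.biUnion S.finite_toSet fun s _ => ?_) hsub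
    exact Set.Finite.biUnion ((hfin a (s • a) ha (ei_isCutPt_smul ha s)).insert _) fun a' _ => hN a'
  -- `A` is infinite
  have hAinf : A.Infinite := by
    obtain ⟨x, y, Y₁, Y₂, hs, hx, hy⟩ := hb
    have main : ∀ Y Y' : Set B, IsSplit b Y' Y → a ∈ Y' → Y.Nonempty → A.Infinite := by
      intro Y Y' hs haY hne
      refine (ei_infinite hmin hs.2.1 hne a).mono ?_
      intro g hg
      have hg' : g • a ∈ Y := hg
      refine ⟨fun h => hs.not_mem_of_mem haY (h ▸ hg'), ?_⟩
      refine ct_not_sepBy_of_conn hs.symm.isPreconnected_insert (Or.inr hg') (mem_insert _ _) ?_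
      rintro (h | h)
      · exact hab h
      · exact hs.not_mem_of_mem haY h
    rcases hs.mem_or hab with h | h
    · exact main Y₂ Y₁ hs h ⟨y, hy⟩
    · exact main Y₁ Y₂ hs.symm h ⟨x, hx⟩
  have hAcinf : Aᶜ.Infinite := by
    obtain ⟨x, y, U₁, U₂, hs, hx, hy⟩ := ha
    have main : ∀ U U' : Set B, IsSplit a U U' → b ∈ U' → U.Nonempty → Aᶜ.Infinite := by
      intro U U' hs hbU hne
      refine (ei_infinite hmin hs.1 hne a).mono ?_
      intro g hg hgA
      exact hgA.2 ⟨U, U', hs, hg, hbU⟩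
    rcases hs.mem_or hab.symm with h | h
    · exact main U₂ U₁ hs.symm h ⟨y, hy⟩
    · exact main U₁ U₂ hs h ⟨x, hx⟩
  rcases hS.oneEnded A hcob with h | h
  · exact hAinf h
  · exact hAcinf h

end Claimed.Agent.R309.S6
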