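import Claimed.Agent.R309.S6.MDefs

/-!
# Row 309, new Section 6: quotients and interiors of median trees

Owner: helper173.  Prefix `tq_`.

* `CRel T`     : a convex equivalence relation on a median tree; `R.Q` the quotient, again a `MedTree`
                 (`Bet (pr x) (pr y) (pr z) ↔ med x y z ~ y`, `med (pr x) (pr y) (pr z) = pr (med x y z)`);
* `ICRel Γ T`  : an invariant convex equivalence relation; `TreeAction Γ R.Q`;
* `Inn T`      : the interior points of `T` (strictly between two points), a `MedTree` with `TreeAction`;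
* `R.plus`     : `x ~⁺ y` iff the interval `[pr x, pr y]` of `R.Q` is finite.
-/

set_option autoImplicit false

namespace Claimed.Agent.R309.S6

open MedTree

variable {T : Type} [MedTree T]

/-! ### more tree calculus -/

/-- the median is the projection of `x` to `[y,z]` -/
theorem tq_proj {x y z w : T} (hw : Bet y w z) : Bet x (med x y z) w := by
  rcases bet_cases (med x y z) hw with h | h
  · exact bet_symm (bet_shift (bet_symm (med_bet₁ x y z)) h)
  · exact bet_symm (bet_shift (bet_symm (med_bet₃ x y z)) (bet_symm h))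

/-- `x - w - z - y` : from `z ∈ [x,y]`, `w ∈ [x,z]`, `v ∈ [z,y]` get `z ∈ [w,v]` -/
theorem tq_mid {x y z w v : T} (h : Bet x z y) (hw : Bet x w z) (hv : Bet z v y) : Bet w z v := by
  have h1 : Bet w z y := bet_shift h hw
  exact bet_symm (bet_shift (bet_symm h1) (bet_symm hv))

/-- pretree axiom: a point strictly inside `[a,b]` separates any `x ≠ y` from `a` or from `b` -/
theorem tq_bet_or {a b x y : T} (h : Bet a y b) : Bet x y a ∨ Bet x y b := by
  by_cases hxy : x = y
  · subst hxy; exact Or.inl (bet_left _ _)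
  by_contra hcon
  rw [not_or] at hcon
  have h1 : InDir y a x := ⟨hxy, hcon.1⟩
  have h2 : InDir y b x := ⟨hxy, hcon.2⟩
  exact (h2.trans h1.symm).2 h

/-- if the projections of `x, x'` to `[y,z]` differ, they lie on `[x,x']` -/
theorem tq_med_bet {x x' y z : T} (hne : med x y z ≠ med x' y z) : Bet x (med x y z) x' := by
  set m := med x y z with hm
  set m' := med x' y z with hm'
  have h1 : Bet x m m' := tq_proj (med_bet₂ x' y z)
  have h2 : Bet x' m' m := tq_proj (med_bet₂ x y z)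
  by_contra hcon
  have hx' : x' ≠ m := by rintro rfl; exact hcon (bet_right _ _)
  have hd1 : InDir m x x' := ⟨hx', fun h => hcon (bet_symm h)⟩
  have hd2 : InDir m x' m' := ⟨fun h => hne h.symm, fun h => hne (bet_antisymm' (bet_symm h) h2)⟩
  exact (hd1.trans hd2).2 (bet_symm h1)

/-! ### convex equivalence relations -/

/-- a convex equivalence relation -/
structure CRel (T : Type) [MedTree T] where
  s : Setoid T
  convex : ∀ {x y m : T}, s.r x y → Bet x m y → s.r x m

namespace CRel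

variable (R : CRel T)

/-- the relation -/
def rel (x y : T) : Prop := R.s.r x y

theorem rel_refl (x : T) : R.rel x x := R.s.refl' x
theorem rel_symm {x y : T} (h : R.rel x y) : R.rel y x := R.s.symm' h
theorem rel_trans {x y z : T} (h : R.rel x y) (h' : R.rel y z) : R.rel x z := R.s.trans' h h'
theorem rel_convex {x y m : T} (h : R.rel x y) (hm : Bet x m y) : R.rel x m := R.convex h hm

theorem med_congr₁ {x x' : T} (h : R.rel x x') (y z : T) : R.rel (med x y z) (med x' y z) := by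
  by_cases hne : med x y z = med x' y z
  · rw [hne]; exact R.rel_refl _
  · have h1 : Bet x (med x y z) x' := tq_med_bet hne
    have h2 : Bet x' (med x' y z) x := tq_med_bet (Ne.symm hne)
    exact R.rel_trans (R.rel_symm (R.rel_convex h h1)) (R.rel_convex h (bet_symm h2))

theorem med_congr {x x' y y' z z' : T} (hx : R.rel x x') (hy : R.rel y y') (hz : R.rel z z') :
    R.rel (med x y z) (med x' y' z') := by
  have h1 := R.med_congr₁ hx y z
  have h2 : R.rel (med x' y z) (med x' y' z) := by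
    rw [med_comm₁₂ x' y z, med_comm₁₂ x' y' z]; exact R.med_congr₁ hy x' z
  have h3 : R.rel (med x' y' z) (med x' y' z') := by
    rw [med_comm₁₃ x' y' z, med_comm₁₃ x' y' z']; exact R.med_congr₁ hz y' x'
  exact R.rel_trans h1 (R.rel_trans h2 h3)

/-- the quotient -/
def Q : Type := Quotient R.s

/-- the projection -/
def pr (x : T) : R.Q := Quotient.mk R.s x

theorem pr_eq_pr {x y : T} : R.pr x = R.pr y ↔ R.rel x y := Quotient.eq (r := R.s)

theorem pr_surj (X : R.Q) : ∃ x, R.pr x = X := Quotient.exists_rep X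

/-- a representative -/
noncomputable def out (X : R.Q) : T := Quotient.out X

@[simp] theorem pr_out (X : R.Q) : R.pr (R.out X) = X := Quotient.out_eq X

theorem out_pr (x : T) : R.rel (R.out (R.pr x)) x := R.pr_eq_pr.1 (R.pr_out _)

/-- the median of the quotient -/
noncomputable def qmed (X Y Z : R.Q) : R.Q := R.pr (med (R.out X) (R.out Y) (R.out Z))

theorem qmed_pr (x y z : T) : R.qmed (R.pr x) (R.pr y) (R.pr z) = R.pr (med x y z) :=
  R.pr_eq_pr.2 (R.med_congr (R.out_pr x) (R.out_pr y) (R.out_pr z))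

/-- betweenness of the quotient -/
def qbet (X Y Z : R.Q) : Prop := R.qmed X Y Z = Y

theorem qbet_pr {x y z : T} : R.qbet (R.pr x) (R.pr y) (R.pr z) ↔ R.rel (med x y z) y := by
  unfold qbet; rw [qmed_pr, pr_eq_pr]

theorem qbet_of_bet {x y z : T} (h : Bet x y z) : R.qbet (R.pr x) (R.pr y) (R.pr z) := by
  rw [qbet_pr, med_eq_of_bet h]; exact R.rel_refl _

/-- a representative of the middle point on the segment of given representatives of the end points -/
theorem qbet_iff_exists {x y z : T} :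
    R.qbet (R.pr x) (R.pr y) (R.pr z) ↔ ∃ y', R.rel y' y ∧ Bet x y' z := by
  constructor
  · intro h
    exact ⟨med x y z, R.qbet_pr.1 h, med_bet₃ x y z⟩
  · rintro ⟨y', hy, hb⟩
    rw [← R.pr_eq_pr.2 hy]
    exact R.qbet_of_bet hb

noncomputable instance : MedTree R.Q where
  Bet := R.qbet
  bet_left X Z := by
    obtain ⟨x, rfl⟩ := R.pr_surj X
    obtain ⟨z, rfl⟩ := R.pr_surj Z
    exact R.qbet_of_bet (bet_left x z)
  bet_symm {X Y Z} h := by
    obtain ⟨x, rfl⟩ := R.pr_surj X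
    obtain ⟨y, rfl⟩ := R.pr_surj Y
    obtain ⟨z, rfl⟩ := R.pr_surj Z
    rw [qbet_pr] at h ⊢
    rwa [← med_comm₁₃]
  bet_self {X Y} h := by
    obtain ⟨x, rfl⟩ := R.pr_surj X
    obtain ⟨y, rfl⟩ := R.pr_surj Y
    rw [qbet_pr, med_self_outer] at h
    exact (R.pr_eq_pr.2 h).symm
  bet_trans {X Y Z W} h h' := by
    obtain ⟨x, rfl⟩ := R.pr_surj X
    obtain ⟨y, rfl⟩ := R.pr_surj Y
    obtain ⟨z, rfl⟩ := R.pr_surj Z
    obtain ⟨w, rfl⟩ := R.pr_surj W
    obtain ⟨z', hz, hb⟩ := R.qbet_iff_exists.1 h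
    rw [← R.pr_eq_pr.2 hz] at h'
    obtain ⟨w', hw, hb'⟩ := R.qbet_iff_exists.1 h'
    exact R.qbet_iff_exists.2 ⟨w', hw, bet_trans hb hb'⟩
  bet_antisymm {X Y Z W} h h1 h2 := by
    obtain ⟨x, rfl⟩ := R.pr_surj X
    obtain ⟨y, rfl⟩ := R.pr_surj Y
    obtain ⟨z, rfl⟩ := R.pr_surj Z
    obtain ⟨w, rfl⟩ := R.pr_surj W
    obtain ⟨z', hz, hb⟩ := R.qbet_iff_exists.1 h
    rw [← R.pr_eq_pr.2 hz] at h1 h2 ⊢
    obtain ⟨w₁, hw₁, hb₁⟩ := R.qbet_iff_exists.1 h1
    obtain ⟨w₂, hw₂, hb₂⟩ := R.qbet_iff_exists.1 h2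
    have hmid : Bet w₁ z' w₂ := tq_mid hb hb₁ hb₂
    have h12 : R.rel w₁ w₂ := R.rel_trans hw₁ (R.rel_symm hw₂)
    exact R.pr_eq_pr.2 (R.rel_trans (R.rel_symm hw₁) (R.rel_convex h12 hmid))
  bet_cases {X Y W} Z h := by
    obtain ⟨x, rfl⟩ := R.pr_surj X
    obtain ⟨y, rfl⟩ := R.pr_surj Y
    obtain ⟨z, rfl⟩ := R.pr_surj Z
    obtain ⟨w, rfl⟩ := R.pr_surj W
    obtain ⟨w', hw, hb⟩ := R.qbet_iff_exists.1 h
    rcases bet_cases z hb with h1 | h1
    · exact Or.inl (R.qbet_iff_exists.2 ⟨w', hw, h1⟩)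
    · exact Or.inr (R.qbet_iff_exists.2 ⟨w', hw, h1⟩)
  med := R.qmed
  med_bet₁ X Y Z := by
    obtain ⟨x, rfl⟩ := R.pr_surj X
    obtain ⟨y, rfl⟩ := R.pr_surj Y
    obtain ⟨z, rfl⟩ := R.pr_surj Z
    rw [qmed_pr]; exact R.qbet_of_bet (med_bet₁ x y z)
  med_bet₂ X Y Z := by
    obtain ⟨x, rfl⟩ := R.pr_surj X
    obtain ⟨y, rfl⟩ := R.pr_surj Y
    obtain ⟨z, rfl⟩ := R.pr_surj Z
    rw [qmed_pr]; exact R.qbet_of_bet (med_bet₂ x y z)
  med_bet₃ X Y Z := by
    obtain ⟨x, rfl⟩ := R.pr_surj X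
    obtain ⟨y, rfl⟩ := R.pr_surj Y
    obtain ⟨z, rfl⟩ := R.pr_surj Z
    rw [qmed_pr]; exact R.qbet_of_bet (med_bet₃ x y z)

theorem bet_pr {x y z : T} : Bet (R.pr x) (R.pr y) (R.pr z) ↔ R.rel (med x y z) y := R.qbet_pr

theorem bet_pr_of_bet {x y z : T} (h : Bet x y z) : Bet (R.pr x) (R.pr y) (R.pr z) :=
  R.qbet_of_bet h

theorem bet_pr_iff_exists {x y z : T} :
    Bet (R.pr x) (R.pr y) (R.pr z) ↔ ∃ y', R.rel y' y ∧ Bet x y' z := R.qbet_iff_exists

theorem med_pr (x y z : T) : med (R.pr x) (R.pr y) (R.pr z) = R.pr (med x y z) := R.qmed_pr x y z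

/-- the relation `R⁺`: the interval between the classes is finite -/
def plus : CRel T where
  s :=
    { r := fun x y => {Z : R.Q | Bet (R.pr x) Z (R.pr y)}.Finite
      iseqv :=
        { refl := fun x => by
            refine (Set.finite_singleton (R.pr x)).subset ?_
            intro Z hZ
            exact bet_self hZ
          symm := fun {x y} h => by
            refine Set.Finite.subset h ?_
            intro Z hZ
            have hZ' : Bet (R.pr y) Z (R.pr x) := hZ
            exact bet_symm hZ'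
          trans := fun {x y z} h h' => by
            refine (h.union h').subset ?_
            intro Z hZ
            exact bet_cases (R.pr y) hZ } }
  convex := fun {x y m} h hm => by
    refine Set.Finite.subset h ?_
    intro Z hZ
    exact bet_trans (R.bet_pr_of_bet hm) hZ

theorem plus_rel {x y : T} : R.plus.rel x y ↔ {Z : R.Q | Bet (R.pr x) Z (R.pr y)}.Finite := Iff.rfl

theorem rel_plus_of_rel {x y : T} (h : R.rel x y) : R.plus.rel x y := by
  rw [plus_rel, R.pr_eq_pr.2 h]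
  refine (Set.finite_singleton (R.pr y)).subset ?_
  intro Z hZ
  exact bet_self hZ

end CRel

/-! ### invariant convex relations -/

section Action

variable {Γ : Type} [Group Γ] [TreeAction Γ T]

/-- an invariant convex equivalence relation -/
structure ICRel (Γ : Type) (T : Type) [Group Γ] [MedTree T] [TreeAction Γ T] extends CRel T where
  inv : ∀ (g : Γ) {x y : T}, s.r x y → s.r (g • x) (g • y)

namespace ICRel

variable (R : ICRel Γ T)

theorem rel_smul (g : Γ) {x y : T} (h : R.rel x y) : R.rel (g • x) (g • y) := R.inv g h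

theorem rel_smul_iff (g : Γ) {x y : T} : R.rel (g • x) (g • y) ↔ R.rel x y := by
  refine ⟨fun h => ?_, R.rel_smul g⟩
  have := R.rel_smul g⁻¹ h
  simpa using this

noncomputable instance : TreeAction Γ R.toCRel.Q where
  smul g X := Quotient.map (fun x => g • x) (fun _ _ h => R.inv g h) X
  one_smul X := by
    obtain ⟨x, rfl⟩ := R.pr_surj X
    exact congrArg R.pr (one_smul Γ x)
  mul_smul g h X := by
    obtain ⟨x, rfl⟩ := R.pr_surj X
    exact congrArg R.pr (mul_smul g h x)
  bet_smul g {X Y Z} h := by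
    obtain ⟨x, rfl⟩ := R.pr_surj X
    obtain ⟨y, rfl⟩ := R.pr_surj Y
    obtain ⟨z, rfl⟩ := R.pr_surj Z
    have h1 : R.rel (med x y z) y := R.bet_pr.1 h
    have h2 : R.rel (med (g • x) (g • y) (g • z)) (g • y) := by
      rw [← med_smul]; exact R.rel_smul g h1
    exact R.bet_pr.2 h2

theorem smul_pr (g : Γ) (x : T) : g • R.pr x = R.pr (g • x) := rfl

/-- an invariant class -/
def HasFix : Prop := ∃ x : T, ∀ g : Γ, R.rel (g • x) x

theorem hasFix_iff : R.HasFix ↔ ∃ X : R.toCRel.Q, ∀ g : Γ, g • X = X := by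
  constructor
  · rintro ⟨x, hx⟩
    exact ⟨R.pr x, fun g => R.pr_eq_pr.2 (hx g)⟩
  · rintro ⟨X, hX⟩
    obtain ⟨x, rfl⟩ := R.pr_surj X
    exact ⟨x, fun g => R.pr_eq_pr.1 (hX g)⟩

/-- `R⁺` is invariant -/
def plus : ICRel Γ T where
  toCRel := R.toCRel.plus
  inv := fun g {x y} h => by
    have h' : {Z : R.toCRel.Q | Bet (R.pr x) Z (R.pr y)}.Finite := h
    refine Set.Finite.subset (h'.image fun Z => g • Z) ?_
    intro Z hZ
    refine ⟨g⁻¹ • Z, ?_, smul_inv_smul g Z⟩
    have hZ' : Bet (g • R.pr x) Z (g • R.pr y) := hZ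
    have := TreeAction.bet_smul g⁻¹ hZ'
    simpa using this

end ICRel

/-- **Zorn**: above an invariant convex relation without invariant class there is a maximal one
(`Γ` finitely generated). -/
theorem tq_exists_maximal {S : Finset Γ} (hS : Subgroup.closure (S : Set Γ) = ⊤) (R₀ : ICRel Γ T)
    (h₀ : ¬ R₀.HasFix) :
    ∃ R : ICRel Γ T, (∀ x y, R₀.rel x y → R.rel x y) ∧ ¬ R.HasFix ∧
      ∀ R' : ICRel Γ T, (∀ x y, R.rel x y → R'.rel x y) → ¬ R'.HasFix → ∀ x y, R'.rel x y → R.rel x y := by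
  classical
  let good : Set (Setoid T) := {σ | (∀ x y m : T, σ.r x y → Bet x m y → σ.r x m) ∧
    (∀ (g : Γ) (x y : T), σ.r x y → σ.r (g • x) (g • y)) ∧ ¬ ∃ x : T, ∀ g : Γ, σ.r (g • x) x}
  have hR₀ : R₀.s ∈ good := ⟨fun x y m h hm => R₀.convex h hm, fun g x y h => R₀.inv g h, h₀⟩
  have hz := zorn_le_nonempty₀ good (by
    intro c hc hchain σ₀ hσ₀
    -- the union of the chain
    have hcomp : ∀ σ ∈ c, ∀ τ ∈ c, σ ≤ τ ∨ τ ≤ σ := by
      intro σ hσ τ hτ
      by_cases hst : σ = τ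
      · exact Or.inl (le_of_eq hst)
      · exact hchain hσ hτ hst
    let U : Setoid T :=
      { r := fun x y => ∃ σ ∈ c, σ.r x y
        iseqv :=
          { refl := fun x => ⟨σ₀, hσ₀, σ₀.refl' x⟩
            symm := fun {x y} ⟨σ, hσ, h⟩ => ⟨σ, hσ, σ.symm' h⟩
            trans := fun {x y z} ⟨σ, hσ, h⟩ ⟨τ, hτ, h'⟩ => by
              rcases hcomp σ hσ τ hτ with hle | hle
              · exact ⟨τ, hτ, τ.trans' (hle h) h'⟩
              · exact ⟨σ, hσ, σ.trans' h (hle h')⟩ } }
    refine ⟨U, ⟨?_, ?_, ?_⟩, fun σ hσ x y h => ⟨σ, hσ, h⟩⟩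
    · rintro x y m ⟨σ, hσ, h⟩ hm
      exact ⟨σ, hσ, (hc hσ).1 x y m h hm⟩
    · rintro g x y ⟨σ, hσ, h⟩
      exact ⟨σ, hσ, (hc hσ).2.1 g x y h⟩
    · rintro ⟨x, hx⟩
      -- one member of the chain works for all generators
      have hfin : ∀ S' : Finset Γ, ∃ σ ∈ c, ∀ s ∈ S', σ.r (s • x) x := by
        intro S'
        induction S' using Finset.induction_on with
        | empty => exact ⟨σ₀, hσ₀, by simp⟩
        | insert a S' _ ih =>
          obtain ⟨σ, hσ, h⟩ := ih
          obtain ⟨τ, hτ, h'⟩ := hx a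
          rcases hcomp σ hσ τ hτ with hle | hle
          · refine ⟨τ, hτ, fun s hs => ?_⟩
            rcases Finset.mem_insert.1 hs with rfl | hs
            · exact h'
            · exact hle (h s hs)
          · refine ⟨σ, hσ, fun s hs => ?_⟩
            rcases Finset.mem_insert.1 hs with rfl | hs
            · exact hle h'
            · exact h s hs
      obtain ⟨σ, hσ, h⟩ := hfin S
      refine (hc hσ).2.2 ⟨x, fun g => ?_⟩
      have hg : g ∈ Subgroup.closure (S : Set Γ) := hS ▸ Subgroup.mem_top g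
      induction hg using Subgroup.closure_induction with
      | mem s hs => exact h s hs
      | one => rw [one_smul]
      | mul a b _ _ iha ihb =>
        rw [mul_smul]
        exact σ.trans' ((hc hσ).2.1 a _ _ ihb) iha
      | inv a _ iha =>
        have := (hc hσ).2.1 a⁻¹ _ _ iha
        rw [inv_smul_smul] at this
        exact σ.symm' this) R₀.s hR₀
  obtain ⟨σ, hle, hmax⟩ := hz
  refine ⟨⟨⟨σ, fun {x y m} h hm => hmax.prop.1 x y m h hm⟩, fun g {x y} h => hmax.prop.2.1 g x y h⟩,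
    fun x y h => hle h, hmax.prop.2.2, ?_⟩
  intro R' hRR' hfix x y h
  have hR' : R'.s ∈ good := ⟨fun x y m h hm => R'.convex h hm, fun g x y h => R'.inv g h, hfix⟩
  exact hmax.le_of_ge hR' (fun {x y} h => hRR' x y h) h

end Action

/-! ### interior points -/

/-- `x` lies strictly between two points -/
def IsInner (x : T) : Prop := ∃ a b : T, a ≠ x ∧ b ≠ x ∧ Bet a x b

theorem tq_isInner_med {x y z : T} (hx : IsInner x) (hy : IsInner y) : IsInner (med x y z) := by
  by_cases h1 : x = med x y z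
  · rw [← h1]; exact hx
  by_cases h2 : y = med x y z
  · rw [← h2]; exact hy
  exact ⟨x, y, h1, h2, med_bet₁ x y z⟩

/-- the subtree of interior points -/
def Inn (T : Type) [MedTree T] : Type := {x : T // IsInner x}

instance : MedTree (Inn T) where
  Bet x y z := Bet x.1 y.1 z.1
  bet_left x z := bet_left x.1 z.1
  bet_symm h := bet_symm h
  bet_self h := Subtype.ext (bet_self h)
  bet_trans h h' := bet_trans h h'
  bet_antisymm h h1 h2 := Subtype.ext (bet_antisymm h h1 h2)
  bet_cases z h := bet_cases z.1 h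
  med x y z := ⟨med x.1 y.1 z.1, tq_isInner_med x.2 y.2⟩
  med_bet₁ x y z := med_bet₁ x.1 y.1 z.1
  med_bet₂ x y z := med_bet₂ x.1 y.1 z.1
  med_bet₃ x y z := med_bet₃ x.1 y.1 z.1

theorem tq_inn_bet {x y z : Inn T} : Bet x y z ↔ Bet x.1 y.1 z.1 := Iff.rfl

section InnAction

variable {Γ : Type} [Group Γ] [TreeAction Γ T]

theorem IsInner.smul {x : T} (h : IsInner x) (g : Γ) : IsInner (g • x) := by
  obtain ⟨a, b, ha, hb, hab⟩ := h
  exact ⟨g • a, g • b, fun h => ha (smul_left_cancel g h), fun h => hb (smul_left_cancel g h),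
    TreeAction.bet_smul g hab⟩

instance : TreeAction Γ (Inn T) where
  smul g x := ⟨g • x.1, x.2.smul g⟩
  one_smul x := Subtype.ext (one_smul Γ x.1)
  mul_smul g h x := Subtype.ext (mul_smul g h x.1)
  bet_smul g {_ _ _} h := TreeAction.bet_smul g h

theorem tq_inn_smul_val (g : Γ) (x : Inn T) : (g • x).1 = g • x.1 := rfl

end InnAction

/-- a dense tree -/
def IsDenseTree (T : Type) [MedTree T] : Prop := ∀ x y : T, x ≠ y → ∃ m, m ≠ x ∧ m ≠ y ∧ Bet x m y

theorem tq_inn_nonterminal (hd : IsDenseTree T) (x y : Inn T) (hxy : x ≠ y) :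
    ∃ c : Inn T, c ≠ y ∧ Bet x y c := by
  obtain ⟨a, b, ha, hb, hab⟩ := y.2
  obtain ⟨c₀, hc₀, hbet⟩ : ∃ c₀ : T, c₀ ≠ y.1 ∧ Bet x.1 y.1 c₀ := by
    rcases tq_bet_or (x := x.1) hab with h | h
    · exact ⟨a, ha, h⟩
    · exact ⟨b, hb, h⟩
  obtain ⟨c, hcy, hcc₀, hc⟩ := hd y.1 c₀ hc₀.symm
  refine ⟨⟨c, y.1, c₀, hcy.symm, hcc₀.symm, hc⟩, fun h => hcy (congrArg Subtype.val h), ?_⟩
  have h1 : Bet c y.1 x.1 := bet_shift (bet_symm hbet) (bet_symm hc)
  exact bet_symm h1

theorem tq_inn_nonempty (hd : IsDenseTree T) {x y : T} (hxy : x ≠ y) : Nonempty (Inn T) := by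
  obtain ⟨m, hmx, hmy, hm⟩ := hd x y hxy
  exact ⟨⟨m, x, y, hmx.symm, hmy.symm, hm⟩⟩

end Claimed.Agent.R309.S6
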