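import Claimed.Agent.R309.S6.CutDyn
import Claimed.Agent.R309.S6.TreeQuot

/-!
# Row 309, new Section 6: the ambient median tree `B/~`

Owner: helper173.  Prefix `ft_`.  `FeQ B = B / fe` with `Bet ⟦x⟧ ⟦m⟧ ⟦y⟧ ↔ Bt x m y` is a `MedTree`
(`B` a compact connected space), with a `TreeAction` of every group acting by homeomorphisms.
-/

set_option autoImplicit false

namespace Claimed.Agent.R309.S6

open MedTree Set

variable {B : Type} [TopologicalSpace B]

/-- the setoid of `fe` -/
def feSetoid (B : Type) [TopologicalSpace B] : Setoid B :=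
  ⟨fe, ⟨ct_fe_refl, fun h => fe.symm h, fun h h' => fe.trans h h'⟩⟩

/-- `B/~` -/
def FeQ (B : Type) [TopologicalSpace B] : Type := Quotient (feSetoid B)

/-- the projection -/
def fq (x : B) : FeQ B := Quotient.mk (feSetoid B) x

theorem fq_eq_fq {x y : B} : fq x = fq y ↔ fe x y := Quotient.eq (r := feSetoid B)

theorem fq_surj (X : FeQ B) : ∃ x, fq x = X := Quotient.exists_rep X

/-- a representative -/
noncomputable def fout (X : FeQ B) : B := Quotient.out X

@[simp] theorem fq_fout (X : FeQ B) : fq (fout X) = X := Quotient.out_eq X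

theorem fout_fq (x : B) : fe (fout (fq x)) x := fq_eq_fq.1 (fq_fout _)

/-- betweenness -/
def fbet (X Y Z : FeQ B) : Prop := Bt (fout X) (fout Y) (fout Z)

theorem fbet_fq {x y z : B} : fbet (fq x) (fq y) (fq z) ↔ Bt x y z := by
  unfold fbet
  constructor
  · intro h
    exact ct_bt_congr_right (fout_fq z) (ct_bt_congr_left (fout_fq x) (ct_bt_congr_mid (fout_fq y) h))
  · intro h
    exact ct_bt_congr_right (fout_fq z).symm
      (ct_bt_congr_left (fout_fq x).symm (ct_bt_congr_mid (fout_fq y).symm h))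

variable [PreconnectedSpace B] [CompactSpace B]

noncomputable instance : MedTree (FeQ B) where
  Bet := fbet
  bet_left X Z := by
    obtain ⟨x, rfl⟩ := fq_surj X
    obtain ⟨z, rfl⟩ := fq_surj Z
    exact fbet_fq.2 (ct_bt_left x z)
  bet_symm {X Y Z} h := ct_bt_symm h
  bet_self {X Y} h := by
    obtain ⟨x, rfl⟩ := fq_surj X
    obtain ⟨y, rfl⟩ := fq_surj Y
    exact fq_eq_fq.2 (ct_bt_self (fbet_fq.1 h))
  bet_trans {X Y Z W} h h' := ct_bt_I2 h h'
  bet_antisymm {X Y Z W} h h1 h2 := by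
    obtain ⟨x, rfl⟩ := fq_surj X
    obtain ⟨y, rfl⟩ := fq_surj Y
    obtain ⟨z, rfl⟩ := fq_surj Z
    obtain ⟨w, rfl⟩ := fq_surj W
    exact fq_eq_fq.2 (ct_bt_I3 (fbet_fq.1 h) (fbet_fq.1 h1) (fbet_fq.1 h2))
  bet_cases {X Y W} Z h := ct_bt_I4 (fout Z) h
  med X Y Z := fq (Classical.choose (ct_exists_med_bt (fout X) (fout Y) (fout Z)))
  med_bet₁ X Y Z := by
    have h := (Classical.choose_spec (ct_exists_med_bt (fout X) (fout Y) (fout Z))).1
    have := fbet_fq.2 h
    simpa using this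
  med_bet₂ X Y Z := by
    have h := (Classical.choose_spec (ct_exists_med_bt (fout X) (fout Y) (fout Z))).2.1
    have := fbet_fq.2 h
    simpa using this
  med_bet₃ X Y Z := by
    have h := (Classical.choose_spec (ct_exists_med_bt (fout X) (fout Y) (fout Z))).2.2
    have := fbet_fq.2 h
    simpa using this

theorem ft_bet_fq {x y z : B} : Bet (fq x) (fq y) (fq z) ↔ Bt x y z := fbet_fq

theorem ft_bet_of_sepBy {p x y : B} (h : SepBy p x y) : Bet (fq x) (fq p) (fq y) :=
  ft_bet_fq.2 (ct_bt_of_sepBy h)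

section Action

variable {Γ : Type} [Group Γ] [MulAction Γ B] [ContinuousConstSMul Γ B]

noncomputable instance : TreeAction Γ (FeQ B) where
  smul g X := Quotient.map (fun x => g • x) (fun _ _ h => (cd9_fe_smul_iff g).2 h) X
  one_smul X := by
    obtain ⟨x, rfl⟩ := fq_surj X
    exact congrArg fq (one_smul Γ x)
  mul_smul g h X := by
    obtain ⟨x, rfl⟩ := fq_surj X
    exact congrArg fq (mul_smul g h x)
  bet_smul g {X Y Z} h := by
    obtain ⟨x, rfl⟩ := fq_surj X
    obtain ⟨y, rfl⟩ := fq_surj Y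
    obtain ⟨z, rfl⟩ := fq_surj Z
    exact ft_bet_fq.2 ((cd9_bt_smul_iff g).2 (ft_bet_fq.1 h))

theorem ft_smul_fq (g : Γ) (x : B) : g • fq x = fq (g • x) := rfl

end Action

end Claimed.Agent.R309.S6
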