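import Claimed.Agent.R309.S6.Discrete

/-! # Row 309, S6: discreteness.  An invariant `fe`-class exists; `Sp a b` is finite for cut points `a, b` -/

set_option autoImplicit false

namespace Claimed.Agent.R309.S6

open MedTree

variable {Γ B : Type} [Group Γ] [TopologicalSpace B] [MulAction Γ B]
  [PreconnectedSpace B] [T2Space B] [CompactSpace B] [Infinite B] [ContinuousConstSMul Γ B]

/-- **discrete case** (owner helper173): if `R⁺` has an invariant class then so has `R`.
`Sg` = the invariant `R⁺`-class in `R.Q`, a tree with finite intervals.  `g ≠ 1` fixing two adjacent points `U,V` of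
`R.Q`: `cd9_edge` for the two halves: one of `U,V` is terminal with a one point fibre.  So adjacent pairs of
non-terminal points of `Sg` have trivial stabiliser; one-endedness gives a fixed vertex. -/
theorem disc_hasFix {S : Finset Γ} (hS : CohHyp S) (hc : ConvAct Γ B)
    (hmin : ∀ x : B, Dense (MulAction.orbit Γ x)) (R : ICRel Γ (FeQ B))
    (hplus : R.plus.HasFix) : R.HasFix := dc_hasFix hS hc hmin R hplus

/-- equality, as an invariant convex relation -/
def ICRel.bot (Γ T : Type) [Group Γ] [MedTree T] [TreeAction Γ T] : ICRel Γ T where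
  s := ⊥
  convex := by
    intro x y m h hm
    have h' : x = y := h
    subst h'
    exact (bet_self hm).symm
  inv := by
    intro g x y h
    have h' : x = y := h
    subst h'
    rfl

/-- **Theorem (discreteness).**  There is a `Γ`-invariant `fe`-class. -/
theorem exists_invariant_class {S : Finset Γ} (hS : CohHyp S) (hc : ConvAct Γ B)
    (hmin : ∀ x : B, Dense (MulAction.orbit Γ x)) : ∃ c : B, ∀ g : Γ, fe (g • c) c := by
  by_contra hno
  have h₀ : ¬ (ICRel.bot Γ (FeQ B)).HasFix := by
    rintro ⟨X, hX⟩
    obtain ⟨c, rfl⟩ := fq_surj X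
    exact hno ⟨c, fun g => fq_eq_fq.mp (hX g)⟩
  obtain ⟨R, -, hR, hmax⟩ := tq_exists_maximal hS.gen _ h₀
  by_cases hp : R.plus.HasFix
  · exact hR (disc_hasFix hS hc hmin R hp)
  · have hle := hmax R.plus (fun x y h => R.toCRel.rel_plus_of_rel h) hp
    exact hR (t3_dense_hasFix hS hc R (t3_dense_of_plus R.toCRel hle))

/-- **`fin_sep`** -/
theorem fin_sep_abs {S : Finset Γ} (hS : CohHyp S) (hc : ConvAct Γ B)
    (hmin : ∀ x : B, Dense (MulAction.orbit Γ x)) {a b : B} (ha : IsCutPt a) (hb : IsCutPt b) :
    (Sp a b).Finite := by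
  obtain ⟨c, hcinv⟩ := exists_invariant_class hS hc hmin
  exact cd9_cut_fe hmin hcinv ha hb

end Claimed.Agent.R309.S6
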