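import Claimed.Agent.R309.S6.ConvBasics

/-!
# Row 309, S6: the stabiliser of a fixed point of a loxodromic element (Tukia), owner helper3, prefix `lx_`

`Trap η p x O`: `η` fixes `p ≠ x`, `O` is a neighbourhood of `p` whose closure misses `x` and is mapped into `O`.
-/

set_option autoImplicit false
set_option linter.unusedSectionVars false

namespace Claimed.Agent.R309.S6

open Set Filter Topology

variable {Γ B : Type} [Group Γ] [TopologicalSpace B] [MulAction Γ B]

/-- trapping region -/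
structure Trap (η : Γ) (p x : B) (O : Set B) : Prop where
  isOpen : IsOpen O
  p_mem : p ∈ O
  x_not : x ∉ closure O
  trap : ∀ y ∈ closure O, η • y ∈ O
  fp : η • p = p
  fx : η • x = x
  inj : Function.Injective fun n : ℕ => η ^ n

namespace Trap

variable {η : Γ} {p x : B} {O : Set B}

theorem ne (T : Trap η p x O) : p ≠ x := fun h => T.x_not (subset_closure (h ▸ T.p_mem))

theorem pow_mem (T : Trap η p x O) {y : B} (hy : y ∈ O) (j : ℕ) : η ^ j • y ∈ O := by
  induction j with
  | zero => simpa using hy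
  | succ j ih => rw [pow_succ', mul_smul]; exact T.trap _ (subset_closure ih)

/-- backward orbits stay outside -/
theorem inv_not_mem (T : Trap η p x O) {y : B} (hy : y ∉ O) : η⁻¹ • y ∉ closure O := fun h => by
  have := T.trap _ h
  rw [smul_inv_smul] at this
  exact hy this

theorem inv_pow_not_mem (T : Trap η p x O) {y : B} (hy : y ∉ O) (j : ℕ) : η⁻¹ ^ j • y ∉ O := by
  induction j with
  | zero => simpa using hy
  | succ j ih => rw [pow_succ', mul_smul]; exact fun h => T.inv_not_mem ih (subset_closure h)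

/-- if a backward image is inside, so are the earlier ones -/
theorem inv_pow_mem_of_le (T : Trap η p x O) {y : B} {i j : ℕ} (hij : i ≤ j)
    (hj : η⁻¹ ^ j • y ∈ O) : η⁻¹ ^ i • y ∈ O := by
  by_contra h
  obtain ⟨d, rfl⟩ := Nat.exists_eq_add_of_le hij
  have := T.inv_pow_not_mem h d
  rw [← mul_smul, ← pow_add, add_comm] at this
  exact this hj

variable [PreconnectedSpace B] [T2Space B] [CompactSpace B] [Infinite B] [ContinuousConstSMul Γ B]

theorem pow_fp (T : Trap η p x O) (j : ℕ) : η ^ j • p = p := cv_pow_smul_fixed T.fp j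
theorem pow_fx (T : Trap η p x O) (j : ℕ) : η ^ j • x = x := cv_pow_smul_fixed T.fx j
theorem inv_pow_fp (T : Trap η p x O) (j : ℕ) : η⁻¹ ^ j • p = p :=
  cv_pow_smul_fixed (cv_inv_smul_fixed T.fp) j
theorem inv_pow_fx (T : Trap η p x O) (j : ℕ) : η⁻¹ ^ j • x = x :=
  cv_pow_smul_fixed (cv_inv_smul_fixed T.fx) j

/-- a point of `O` different from `p` -/
theorem exists_ne (T : Trap η p x O) : ∃ z ∈ O, z ≠ p := by
  by_contra hcon
  push Not at hcon
  have hO : O = {p} := by
    ext z
    exact ⟨fun hz => hcon z hz, fun hz => by rw [mem_singleton_iff.mp hz]; exact T.p_mem⟩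
  have hclopen : IsClopen ({p} : Set B) := ⟨isClosed_singleton, hO ▸ T.isOpen⟩
  rcases isClopen_iff.mp hclopen with h | h
  · exact (singleton_nonempty p).ne_empty h
  · have : x ∈ ({p} : Set B) := h ▸ mem_univ x
    exact T.ne (mem_singleton_iff.mp this).symm

/-- the powers of `η` collapse to `p` off `x` (along a subsequence) -/
theorem convSeq (T : Trap η p x O) (hc : ConvAct Γ B) :
    ∃ ψ : ℕ → ℕ, StrictMono ψ ∧ ConvSeq (fun n => η ^ ψ n) p x := by
  obtain ⟨ψ, a, b, hψ, h, -, -⟩ := cv_exists_fix hc T.inj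
  refine ⟨ψ, hψ, ?_⟩
  have hp := cv_fixed_mem h T.fp
  have hx := cv_fixed_mem h T.fx
  obtain ⟨z, hzO, hzp⟩ := T.exists_ne
  have hzx : z ≠ x := fun e => T.x_not (subset_closure (e ▸ hzO))
  -- `a ≠ x`
  have hax : a ≠ x := by
    intro hax
    have hbp : b = p := by
      rcases hp with h1 | h1
      · exact absurd (h1.trans hax) T.ne
      · exact h1.symm
    have hlim := h.tendsto (x := z) (by rw [hbp]; exact hzp)
    have : a ∈ closure O := mem_closure_of_tendsto hlim
      (Eventually.of_forall fun n => T.pow_mem hzO _)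
    exact T.x_not (hax ▸ this)
  have hb : b = x := by
    rcases hx with h1 | h1
    · exact absurd h1.symm hax
    · exact h1.symm
  have ha : a = p := by
    rcases hp with h1 | h1
    · exact h1.symm
    · exact absurd (h1.trans hb) T.ne
  rw [ha, hb] at h
  exact h

/-- (F1) -/
theorem exists_inv_pow_not_mem (T : Trap η p x O) (hc : ConvAct Γ B) {y : B} (hy : y ≠ p) :
    ∃ j : ℕ, η⁻¹ ^ j • y ∉ O := by
  obtain ⟨ψ, -, h⟩ := T.convSeq hc
  have hlim := h.inv.tendsto hy
  have hev : ∀ᶠ n in atTop, (η ^ ψ n)⁻¹ • y ∈ (closure O)ᶜ :=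
    hlim.eventually (isClosed_closure.isOpen_compl.mem_nhds T.x_not)
  obtain ⟨n, hn⟩ := hev.exists
  refine ⟨ψ n, fun hmem => hn ?_⟩
  rw [← inv_pow]
  exact subset_closure hmem

/-- (F2) -/
theorem exists_pow_mem (T : Trap η p x O) (hc : ConvAct Γ B) {y : B} (hy : y ≠ x) :
    ∃ j : ℕ, η ^ j • y ∈ O := by
  obtain ⟨ψ, -, h⟩ := T.convSeq hc
  obtain ⟨n, hn⟩ := ((h.tendsto hy).eventually (T.isOpen.mem_nhds T.p_mem)).exists
  exact ⟨ψ n, hn⟩

/-- the fundamental domain -/
def K (_T : Trap η p x O) : Set B := {w | w ∈ closure O ∧ η⁻¹ • w ∉ O}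

theorem isClosed_K (T : Trap η p x O) : IsClosed T.K := by
  have h1 : IsClosed {w : B | η⁻¹ • w ∉ O} :=
    T.isOpen.isClosed_compl.preimage (continuous_const_smul η⁻¹)
  exact isClosed_closure.inter h1

theorem p_not_mem_K (T : Trap η p x O) : p ∉ T.K := fun h =>
  h.2 (by rw [cv_inv_smul_fixed T.fp]; exact T.p_mem)

theorem x_not_mem_K (T : Trap η p x O) : x ∉ T.K := fun h => T.x_not h.1

/-- every point of `O \ {p}` is pulled back into `K`, at the last moment -/
theorem exists_mem_K (T : Trap η p x O) (hc : ConvAct Γ B) {y : B} (hyO : y ∈ O) (hy : y ≠ p) :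
    ∃ m : ℕ, η⁻¹ ^ m • y ∈ T.K ∧ ∀ j : ℕ, η⁻¹ ^ j • y ∈ O → j ≤ m := by
  classical
  have hex : ∃ j : ℕ, η⁻¹ ^ (j + 1) • y ∉ O := by
    obtain ⟨j, hj⟩ := T.exists_inv_pow_not_mem hc hy
    cases j with
    | zero => exact absurd (by simpa using hyO) hj
    | succ j => exact ⟨j, hj⟩
  refine ⟨Nat.find hex, ⟨?_, ?_⟩, ?_⟩
  · apply subset_closure
    rcases Nat.eq_zero_or_pos (Nat.find hex) with h0 | h0
    · rw [h0]; simpa using hyO
    · have := Nat.find_min hex (m := Nat.find hex - 1) (by omega)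
      rw [not_not] at this
      have e : Nat.find hex - 1 + 1 = Nat.find hex := by omega
      rwa [e] at this
  · have := Nat.find_spec hex
    rwa [pow_succ', mul_smul] at this
  · intro j hj
    by_contra hlt
    push Not at hlt
    exact Nat.find_spec hex (T.inv_pow_mem_of_le hlt hj)

/-- the closed set `{w | η w ∉ O}` misses `p` and `K` and contains the late backward orbit of `z ≠ p` -/
theorem late_backward (T : Trap η p x O) (hc : ConvAct Γ B) {z : B} (hz : z ≠ p) :
    ∃ i : ℕ, ∀ m : ℕ, i < m → η • (η⁻¹ ^ m • z) ∉ O := by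
  obtain ⟨i, hi⟩ := T.exists_inv_pow_not_mem hc hz
  refine ⟨i, fun m hm => ?_⟩
  obtain ⟨d, rfl⟩ : ∃ d, m = i + d + 1 := ⟨m - i - 1, by omega⟩
  have e : η • (η⁻¹ ^ (i + d + 1) • z) = η⁻¹ ^ d • (η⁻¹ ^ i • z) := by
    rw [pow_succ', mul_smul, smul_inv_smul, add_comm, pow_add, mul_smul]
  rw [e]
  exact T.inv_pow_not_mem hi d

theorem pow_inj (T : Trap η p x O) {d : ℕ} (hd : 0 < d) :
    Function.Injective fun n : ℕ => (η ^ d) ^ n := by
  intro m n h
  simp only [← pow_mul] at h
  exact Nat.eq_of_mul_eq_mul_left hd (T.inj h)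

/-- a nontrivial power of `η` has no third fixed point -/
theorem fixed_of_pow (T : Trap η p x O) (hc : ConvAct Γ B) {d : ℕ} (hd : 0 < d) {w : B}
    (hw : η ^ d • w = w) : w = p ∨ w = x := by
  obtain ⟨φ, a, b, -, h, -, -⟩ := cv_exists_fix hc (T.pow_inj hd)
  have h1 := cv_fixed_mem h (T.pow_fp d)
  have h2 := cv_fixed_mem h (T.pow_fx d)
  have h3 := cv_fixed_mem h hw
  have hne := T.ne
  rcases h1 with h1 | h1 <;> rcases h2 with h2 | h2 <;> rcases h3 with h3 | h3
  · exact absurd (h1.trans h2.symm) hne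
  · exact absurd (h1.trans h2.symm) hne
  · exact Or.inl (h3.trans h1.symm)
  · exact Or.inr (h3.trans h2.symm)
  · exact Or.inr (h3.trans h2.symm)
  · exact Or.inl (h3.trans h1.symm)
  · exact absurd (h1.trans h2.symm) hne
  · exact absurd (h1.trans h2.symm) hne

/-- **(c)** the stabiliser of `p` fixes `x` -/
theorem stab_fix (T : Trap η p x O) (hc : ConvAct Γ B) {k : Γ} (hk : k • p = p) : k • x = x := by
  classical
  by_contra hkx
  obtain ⟨x0, hx0⟩ := Infinite.exists_notMem_finset ({p, x} : Finset B)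
  simp only [Finset.mem_insert, Finset.mem_singleton, not_or] at hx0
  obtain ⟨hx0p, hx0x⟩ := hx0
  obtain ⟨ψ, hψ, hconv⟩ := T.convSeq hc
  have hy : Tendsto (fun n => k • (η ^ ψ n • x0)) atTop (𝓝 p) := by
    have := ((continuous_const_smul k).tendsto p).comp (hconv.tendsto hx0x)
    rw [hk] at this
    exact this
  have hyne : ∀ n, k • (η ^ ψ n • x0) ≠ p := by
    intro n h
    have h1 : η ^ ψ n • x0 = p := smul_left_cancel k (h.trans hk.symm)
    exact hx0p (smul_left_cancel (η ^ ψ n) (h1.trans (T.pow_fp _).symm))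
  obtain ⟨n0, hn0⟩ := eventually_atTop.mp (hy.eventually (T.isOpen.mem_nhds T.p_mem))
  have hm : ∀ n, ∃ m : ℕ, η⁻¹ ^ m • (k • (η ^ ψ (n0 + n) • x0)) ∈ T.K ∧
      ∀ j : ℕ, η⁻¹ ^ j • (k • (η ^ ψ (n0 + n) • x0)) ∈ O → j ≤ m :=
    fun n => T.exists_mem_K hc (hn0 _ (Nat.le_add_right _ _)) (hyne _)
  choose m hmK hmmax using hm
  set g : ℕ → Γ := fun n => η⁻¹ ^ m n * k * η ^ ψ (n0 + n) with hg
  have hgx0 : ∀ n, g n • x0 ∈ T.K := by
    intro n; simp only [hg, mul_smul]; exact hmK n
  have hgp : ∀ n, g n • p = p := by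
    intro n; simp only [hg, mul_smul, T.pow_fp, hk, T.inv_pow_fp]
  have hgx : ∀ n, g n • x = η⁻¹ ^ m n • (k • x) := by
    intro n; simp only [hg, mul_smul, T.pow_fx]
  have hminf : ∀ i : ℕ, ∀ᶠ n in atTop, i < m n := by
    intro i
    have h2 : Tendsto (fun n => k • (η ^ ψ (n0 + n) • x0)) atTop (𝓝 p) :=
      hy.comp (tendsto_atTop_mono (fun n => Nat.le_add_left n n0) tendsto_id)
    have h1 : Tendsto (fun n => η⁻¹ ^ (i + 1) • (k • (η ^ ψ (n0 + n) • x0))) atTop (𝓝 p) := by
      have := ((continuous_const_smul (η⁻¹ ^ (i + 1))).tendsto p).comp h2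
      rw [T.inv_pow_fp] at this
      exact this
    filter_upwards [h1.eventually (T.isOpen.mem_nhds T.p_mem)] with n hn
    exact hmmax n (i + 1) hn
  have hzp : k • x ≠ p := fun h => T.ne (smul_left_cancel k (hk.trans h.symm))
  have hninj : ¬ Function.Injective g := by
    intro hinj
    obtain ⟨φ, a', b', hφ, hcs⟩ := hc g hinj
    obtain ⟨i, hi⟩ := T.late_backward hc hzp
    have hC : IsClosed {w : B | η • w ∉ O} :=
      T.isOpen.isClosed_compl.preimage (continuous_const_smul η)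
    have hevC : ∀ᶠ n in atTop, (g ∘ φ) n • x ∈ {w : B | η • w ∉ O} := by
      filter_upwards [hφ.tendsto_atTop.eventually (hminf i)] with n hn
      show η • (g (φ n) • x) ∉ O
      rw [hgx]; exact hi _ hn
    have hpab := hcs.fixed_mem (z := p) (fun n => hgp _)
    by_cases hb : b' = p
    · have h1 := hcs.tendsto (x := x0) (by rw [hb]; exact hx0p)
      have h2 := hcs.tendsto (x := x) (by rw [hb]; exact T.ne.symm)
      have ha1 : a' ∈ T.K :=
        T.isClosed_K.mem_of_tendsto h1 (Eventually.of_forall fun n => hgx0 _)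
      have ha2 : a' ∈ {w : B | η • w ∉ O} := hC.mem_of_tendsto h2 hevC
      exact ha2 (T.trap _ ha1.1)
    · have ha : a' = p := by
        rcases hpab with h | h
        · exact h.symm
        · exact absurd h.symm hb
      by_cases hb0 : x0 = b'
      · have h2 := hcs.tendsto (x := x) (by rw [← hb0]; exact fun h => hx0x h.symm)
        have ha2 : a' ∈ {w : B | η • w ∉ O} := hC.mem_of_tendsto h2 hevC
        rw [ha] at ha2
        exact ha2 (by rw [T.fp]; exact T.p_mem)
      · have h1 := hcs.tendsto (x := x0) hb0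
        have ha1 : a' ∈ T.K :=
          T.isClosed_K.mem_of_tendsto h1 (Eventually.of_forall fun n => hgx0 _)
        exact T.p_not_mem_K (ha ▸ ha1)
  -- two equal terms
  have key : ∀ n n' : ℕ, n < n' → g n = g n' → False := by
    intro n n' hlt heq
    have hlt' : ψ (n0 + n) < ψ (n0 + n') := hψ (by omega)
    obtain ⟨d, hd, hd'⟩ : ∃ d, 0 < d ∧ ψ (n0 + n') = d + ψ (n0 + n) :=
      ⟨ψ (n0 + n') - ψ (n0 + n), by omega, by omega⟩
    set w : B := k⁻¹ • x with hw
    have h1 : g n • ((η ^ ψ (n0 + n))⁻¹ • w) = x := by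
      simp only [hg, mul_smul, smul_inv_smul, hw, T.inv_pow_fx]
    have h2 : g n' • ((η ^ ψ (n0 + n))⁻¹ • w) = η⁻¹ ^ m n' • (k • (η ^ d • w)) := by
      simp only [hg, mul_smul, hd', pow_add, smul_inv_smul]
    rw [heq, h2] at h1
    have h3 : k • (η ^ d • w) = x :=
      smul_left_cancel (η⁻¹ ^ m n') (h1.trans (T.inv_pow_fx _).symm)
    have h4 : η ^ d • w = w := by
      rw [hw, eq_inv_smul_iff, ← hw]; exact h3
    rcases T.fixed_of_pow hc hd h4 with h5 | h5
    · apply T.ne
      rw [hw, inv_smul_eq_iff, hk] at h5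
      exact h5.symm
    · apply hkx
      rw [hw, inv_smul_eq_iff] at h5
      exact h5.symm
  apply hninj
  intro n n' heq
  rcases lt_trichotomy n n' with h | h | h
  · exact (key n n' h heq).elim
  · exact h
  · exact (key n' n h heq.symm).elim

/-- **(d)** finitely many elements fix `p`, `x` and map `x0` into `K` -/
theorem finite_K (T : Trap η p x O) (hc : ConvAct Γ B) {x0 : B} (hx0p : x0 ≠ p) (hx0x : x0 ≠ x) :
    {g : Γ | g • p = p ∧ g • x = x ∧ g • x0 ∈ T.K}.Finite := by
  by_contra hinf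
  have hinf' : Set.Infinite _ := hinf
  set e := hinf'.natEmbedding with he
  obtain ⟨φ, a', b', -, hcs⟩ := hc (fun n => (e n : Γ)) (fun m n hmn => e.injective (Subtype.ext hmn))
  have hp := hcs.fixed_mem (z := p) (fun n => (e (φ n)).2.1)
  have hx := hcs.fixed_mem (z := x) (fun n => (e (φ n)).2.2.1)
  have hb : x0 ≠ b' := by
    intro h
    rcases hp with h1 | h1
    · rcases hx with h2 | h2
      · exact T.ne (h1.trans h2.symm)
      · exact hx0x (h.trans h2.symm)
    · exact hx0p (h.trans h1.symm)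
  have h1 := hcs.tendsto hb
  have ha1 : a' ∈ T.K :=
    T.isClosed_K.mem_of_tendsto h1 (Eventually.of_forall fun n => (e (φ n)).2.2.2)
  rcases hp with h2 | h2
  · exact T.p_not_mem_K (h2 ▸ ha1)
  · rcases hx with h3 | h3
    · exact T.x_not_mem_K (h3 ▸ ha1)
    · exact T.ne (h2.trans h3.symm)

/-- **Tukia**, for a trapping element -/
theorem stab_cosets (T : Trap η p x O) (hc : ConvAct Γ B) :
    ∃ F : Finset Γ, ∀ k : Γ, k • p = p → ∃ m : ℤ, ∃ f ∈ F, k = η ^ m * f := by
  classical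
  obtain ⟨x0, hx0⟩ := Infinite.exists_notMem_finset ({p, x} : Finset B)
  simp only [Finset.mem_insert, Finset.mem_singleton, not_or] at hx0
  obtain ⟨hx0p, hx0x⟩ := hx0
  refine ⟨(T.finite_K hc hx0p hx0x).toFinset, fun k hk => ?_⟩
  have hkx := T.stab_fix hc hk
  have h1 : k • x0 ≠ x := fun h => hx0x (smul_left_cancel k (h.trans hkx.symm))
  have h2 : k • x0 ≠ p := fun h => hx0p (smul_left_cancel k (h.trans hk.symm))
  obtain ⟨j, hj⟩ := T.exists_pow_mem hc h1
  have h3 : η ^ j • (k • x0) ≠ p := fun h => h2 (smul_left_cancel (η ^ j) (h.trans (T.pow_fp j).symm))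
  obtain ⟨m, hm, -⟩ := T.exists_mem_K hc hj h3
  refine ⟨(m : ℤ) - j, η⁻¹ ^ m * η ^ j * k, ?_, ?_⟩
  · rw [Set.Finite.mem_toFinset]
    refine ⟨?_, ?_, ?_⟩
    · simp only [mul_smul, hk, T.pow_fp, T.inv_pow_fp]
    · simp only [mul_smul, hkx, T.pow_fx, T.inv_pow_fx]
    · simpa only [mul_smul] using hm
  · rw [zpow_sub, zpow_natCast, zpow_natCast, inv_pow]
    group

end Trap

end Claimed.Agent.R309.S6
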