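import Claimed.Agent.R309.S6.Coh

/-!
# Row 309, new Section 6, part A: locally free `F₂Γ`-modules

Abstract homological input of the "Machine" (helper3's Rips-free proof of Sec 6).
Everything is stated for a representation `ρ : Representation (ZMod 2) Γ B` and an invariant
submodule `M` of `B`.

* `LocFree ρ M` : every finite subset of `M` lies in the span of a linearly independent family
  `(ρ g (v i))`, `(g, i) ∈ Γ × ι`, `ι` finite, `v i ∈ M`.
* `LocFree → Z1` (equivariant 1-cocycles are coboundaries), from `SC2` and `OneEnd`.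
* `LocFree → Z2` (if `d ψ` takes values in `M` then `d ψ = d w` with `w` valued in `M`), from `H2c`.
* criteria for `LocFree`: free permutation bases, gradings by a free `Γ`-set, the Boolean ring lemma,
  extensions.
-/

set_option autoImplicit false

namespace Claimed.Agent.R309.S6A

open Function Submodule

variable {Γ : Type} [Group Γ]

/-! ## 0. The triangular Cayley complex, `F₂`-cochains -/

section Cayley
variable (S : Finset Γ)

/-- generators as a type -/
abbrev Gn : Type := {s : Γ // s ∈ S}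

/-- `F₂`-coboundary of a 1-cochain on the triangle `(g, s₁, s₂)` -/
def cb2 (α : Γ × Gn S → ZMod 2) (g : Γ) (s₁ s₂ : Gn S) (h : s₁.1 * s₂.1 ∈ S) : ZMod 2 :=
  α (g, s₁) + α (g * s₁.1, s₂) + α (g, ⟨s₁.1 * s₂.1, h⟩)

/-- triangle types -/
abbrev Tri : Type := {t : Gn S × Gn S // t.1.1 * t.2.1 ∈ S}

/-- every `F₂`-cocycle is a gradient -/
def SC2 : Prop :=
  ∀ c : Γ × Gn S → ZMod 2, (∀ g s₁ s₂ h, cb2 S c g s₁ s₂ h = 0) →
    ∃ φ : Γ → ZMod 2, ∀ g (s : Gn S), c (g, s) = φ (g * s.1) + φ g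

/-- one-endedness -/
def OneEnd : Prop :=
  ∀ W : Set Γ, {e : Γ × Gn S | e.1 ∈ W ∧ e.1 * e.2.1 ∉ W}.Finite → W.Finite ∨ Wᶜ.Finite

/-- `H²(Γ; F₂Γ) = 0` on the triangular complex -/
def H2c : Prop :=
  ∀ α : Γ × Gn S → ZMod 2,
    {t : Γ × Gn S × Gn S | ∃ h : t.2.1.1 * t.2.2.1 ∈ S, cb2 S α t.1 t.2.1 t.2.2 h ≠ 0}.Finite →
    ∃ η : Γ × Gn S → ZMod 2, (support η).Finite ∧
      ∀ g s₁ s₂ h, cb2 S η g s₁ s₂ h = cb2 S α g s₁ s₂ h

end Cayley

lemma zmod2_cases (x : ZMod 2) : x = 0 ∨ x = 1 := by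
  revert x; decide

lemma zmod2_ne_zero {x : ZMod 2} : x ≠ 0 ↔ x = 1 := by
  revert x; decide

/-- a finitely supported cocycle is the gradient of a finitely supported function -/
lemma fin_primitive {S : Finset Γ} (hSC : SC2 S) (hOE : OneEnd S) (α : Γ × Gn S → ZMod 2)
    (hfin : (support α).Finite) (hα : ∀ g s₁ s₂ h, cb2 S α g s₁ s₂ h = 0) :
    ∃ φ : Γ → ZMod 2, (support φ).Finite ∧ ∀ g (s : Gn S), α (g, s) = φ (g * s.1) + φ g := by
  obtain ⟨φ, hφ⟩ := hSC α hα
  have hW : {e : Γ × Gn S | e.1 ∈ support φ ∧ e.1 * e.2.1 ∉ support φ}.Finite := by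
    refine hfin.subset ?_
    rintro ⟨g, s⟩ ⟨h1, h2⟩
    simp only [mem_support, not_not] at h1 h2 ⊢
    rw [hφ, h2, zero_add]; exact h1
  rcases hOE _ hW with h | h
  · exact ⟨φ, h, hφ⟩
  · refine ⟨fun g => φ g + 1, h.subset ?_, ?_⟩
    · intro g hg
      simp only [mem_support, Set.mem_compl_iff, not_not] at hg ⊢
      rcases zmod2_cases (φ g) with h0 | h0
      · exact h0
      · rw [h0] at hg; exact absurd (by decide) hg
    · intro g s
      rw [hφ]
      have : (1 : ZMod 2) + 1 = 0 := by decide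
      calc φ (g * s.1) + φ g = φ (g * s.1) + φ g + ((1 : ZMod 2) + 1) := by rw [this, add_zero]
        _ = _ := by ring

/-! ## 1. The standard free module -/

section Std
variable (ι : Type)

/-- left translation on `Γ × ι` -/
def shiftE (h : Γ) : Γ × ι ≃ Γ × ι := (Equiv.mulLeft h).prodCongr (Equiv.refl ι)

/-- the `Γ`-action on the standard free module -/
noncomputable def shift (h : Γ) : (Γ × ι →₀ ZMod 2) ≃ₗ[ZMod 2] (Γ × ι →₀ ZMod 2) :=
  Finsupp.domLCongr (shiftE ι h)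

variable {ι}

@[simp] lemma shift_apply (h : Γ) (c : Γ × ι →₀ ZMod 2) (g : Γ) (i : ι) :
    shift ι h c (g, i) = c (h⁻¹ * g, i) := by
  simp [shift, shiftE, Finsupp.domLCongr_apply, Finsupp.domCongr_apply,
    Finsupp.equivMapDomain_apply]

lemma shift_single (h : Γ) (p : Γ × ι) (a : ZMod 2) :
    shift ι h (Finsupp.single p a) = Finsupp.single (h * p.1, p.2) a := by
  obtain ⟨g, i⟩ := p
  simp [shift, shiftE, Finsupp.domLCongr_apply, Finsupp.domCongr_apply,
    Finsupp.equivMapDomain_single]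

lemma finite_inv_fiber (c : Γ × ι →₀ ZMod 2) (i : ι) : {g : Γ | c (g⁻¹, i) ≠ 0}.Finite := by
  have : {g : Γ | c (g⁻¹, i) ≠ 0} = (fun g : Γ => (g⁻¹, i)) ⁻¹' (c.support : Set (Γ × ι)) := by
    ext g; simp
  rw [this]
  refine Set.Finite.preimage ?_ c.support.finite_toSet
  intro a _ b _ hab
  simpa using hab

/-- `Z1` for the standard free module of finite rank -/
lemma Z1std {S : Finset Γ} (hSC : SC2 S) (hOE : OneEnd S) [Finite ι]
    (c : Gn S → (Γ × ι →₀ ZMod 2))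
    (hc : ∀ (s₁ s₂ : Gn S) (h : s₁.1 * s₂.1 ∈ S),
      c s₁ + shift ι s₁.1 (c s₂) + c ⟨s₁.1 * s₂.1, h⟩ = 0) :
    ∃ μ : Γ × ι →₀ ZMod 2, ∀ s : Gn S, c s = shift ι s.1 μ + μ := by
  classical
  have key : ∀ i : ι, ∃ φ : Γ → ZMod 2, (support φ).Finite ∧
      ∀ g (s : Gn S), c s (g⁻¹, i) = φ (g * s.1) + φ g := by
    intro i
    refine fin_primitive hSC hOE (fun e => c e.2 (e.1⁻¹, i)) ?_ ?_
    · have h1 : (⋃ s : Gn S, {g : Γ | c s (g⁻¹, i) ≠ 0}).Finite :=
        Set.finite_iUnion fun s => finite_inv_fiber (c s) i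
      refine (h1.prod (Set.finite_univ (α := Gn S))).subset ?_
      rintro ⟨g, s⟩ hg
      exact ⟨Set.mem_iUnion.2 ⟨s, hg⟩, Set.mem_univ _⟩
    · intro g s₁ s₂ h
      have := DFunLike.congr_fun (hc s₁ s₂ h) (g⁻¹, i)
      simpa [cb2, mul_inv_rev] using this
  choose φ hφfin hφ using key
  have hfin : (support fun p : Γ × ι => φ p.2 p.1⁻¹).Finite := by
    have h1 : (⋃ i : ι, {g : Γ | φ i g⁻¹ ≠ 0}).Finite := by
      refine Set.finite_iUnion fun i => ?_
      have : {g : Γ | φ i g⁻¹ ≠ 0} = (fun g : Γ => g⁻¹) ⁻¹' (support (φ i)) := by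
        ext g; simp
      rw [this]
      exact Set.Finite.preimage (inv_injective.injOn) (hφfin i)
    refine (h1.prod (Set.finite_univ (α := ι))).subset ?_
    rintro ⟨g, i⟩ hg
    exact ⟨Set.mem_iUnion.2 ⟨i, hg⟩, Set.mem_univ _⟩
  refine ⟨Finsupp.ofSupportFinite _ hfin, fun s => ?_⟩
  ext ⟨h, i⟩
  have := hφ i h⁻¹ s
  simp only [inv_inv] at this
  simp [Finsupp.ofSupportFinite_coe, this, mul_inv_rev]

end Std

/-! ## 2. Representations, `LocFree`, `Z1`, `Z2` -/

variable {B : Type} [AddCommGroup B] [Module (ZMod 2) B] (ρ : Representation (ZMod 2) Γ B)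

/-- invariant submodule -/
def Inv (M : Submodule (ZMod 2) B) : Prop := ∀ g, ∀ m ∈ M, ρ g m ∈ M

/-- the orbit family of a family of vectors -/
def orb {ι : Type} (v : ι → B) : Γ × ι → B := fun p => ρ p.1 (v p.2)

/-- `M` is free over `F₂Γ` -/
def IsFreeOn (M : Submodule (ZMod 2) B) : Prop :=
  ∃ (ι : Type) (v : ι → B), (∀ i, v i ∈ M) ∧ LinearIndependent (ZMod 2) (orb ρ v) ∧
    M ≤ span (ZMod 2) (Set.range (orb ρ v))

/-- `M` is locally free over `F₂Γ` -/
def LocFree (M : Submodule (ZMod 2) B) : Prop :=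
  ∀ F : Finset B, (↑F : Set B) ⊆ M → ∃ (ι : Type) (_ : Finite ι) (v : ι → B), (∀ i, v i ∈ M) ∧
    LinearIndependent (ZMod 2) (orb ρ v) ∧ (↑F : Set B) ⊆ span (ZMod 2) (Set.range (orb ρ v))

section Z
variable (S : Finset Γ)

/-- equivariant coboundary of `ψ : S → B` on the triangle `(s₁, s₂)` -/
def dcb (ψ : Gn S → B) (s₁ s₂ : Gn S) (h : s₁.1 * s₂.1 ∈ S) : B :=
  ψ s₁ + ρ s₁.1 (ψ s₂) + ψ ⟨s₁.1 * s₂.1, h⟩

/-- `H¹(Γ; M) = 0` -/
def Z1 (M : Submodule (ZMod 2) B) : Prop :=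
  ∀ ψ : Gn S → B, (∀ s, ψ s ∈ M) → (∀ s₁ s₂ h, dcb ρ S ψ s₁ s₂ h = 0) →
    ∃ m ∈ M, ∀ s : Gn S, ψ s = ρ s.1 m + m

/-- `H²(Γ; M) → H²(Γ; B)` is injective -/
def Z2 (M : Submodule (ZMod 2) B) : Prop :=
  ∀ ψ : Gn S → B, (∀ s₁ s₂ h, dcb ρ S ψ s₁ s₂ h ∈ M) →
    ∃ w : Gn S → B, (∀ s, w s ∈ M) ∧ ∀ s₁ s₂ h, dcb ρ S w s₁ s₂ h = dcb ρ S ψ s₁ s₂ h

end Z

section Lam
variable {ι : Type} (v : ι → B)

/-- the parametrisation of the span of the orbit family -/
noncomputable def Lam : (Γ × ι →₀ ZMod 2) →ₗ[ZMod 2] B := Finsupp.linearCombination (ZMod 2) (orb ρ v)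

lemma Lam_single (p : Γ × ι) (a : ZMod 2) : Lam ρ v (Finsupp.single p a) = a • ρ p.1 (v p.2) := by
  simp [Lam, orb]

lemma rho_Lam (h : Γ) (c : Γ × ι →₀ ZMod 2) : ρ h (Lam ρ v c) = Lam ρ v (shift ι h c) := by
  induction c using Finsupp.induction_linear with
  | zero => simp
  | add f g hf hg => simp [map_add, hf, hg]
  | single p a => simp [Lam_single, shift_single, map_mul]

lemma Lam_mem {M : Submodule (ZMod 2) B} (hM : Inv ρ M) (hv : ∀ i, v i ∈ M)
    (c : Γ × ι →₀ ZMod 2) : Lam ρ v c ∈ M := by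
  induction c using Finsupp.induction_linear with
  | zero => simp
  | add f g hf hg => rw [map_add]; exact M.add_mem hf hg
  | single p a => rw [Lam_single]; exact M.smul_mem _ (hM _ _ (hv _))

lemma exists_Lam_of_mem {x : B} (hx : x ∈ span (ZMod 2) (Set.range (orb ρ v))) :
    ∃ c, Lam ρ v c = x := by
  obtain ⟨c, hc⟩ := Finsupp.mem_span_range_iff_exists_finsupp.1 hx
  exact ⟨c, by rw [← hc]; simp [Lam, Finsupp.linearCombination_apply]⟩

end Lam

theorem LocFree.z1 {S : Finset Γ} (hSC : SC2 S) (hOE : OneEnd S) {M : Submodule (ZMod 2) B}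
    (hM : Inv ρ M) (hL : LocFree ρ M) : Z1 ρ S M := by
  classical
  intro ψ hψM hψ
  obtain ⟨ι, _, v, hv, hli, hF⟩ := hL (Finset.univ.image ψ) (by
    intro x hx
    simp only [Finset.coe_image, Finset.coe_univ, Set.image_univ, Set.mem_range] at hx
    obtain ⟨s, rfl⟩ := hx
    exact hψM s)
  have hex : ∀ s, ∃ c, Lam ρ v c = ψ s := fun s =>
    exists_Lam_of_mem ρ v (hF (by simp))
  choose c hc using hex
  have hinj : Injective (Lam ρ v) := hli
  obtain ⟨μ, hμ⟩ := Z1std hSC hOE c (by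
    intro s₁ s₂ h
    apply hinj
    rw [map_add, map_add, ← rho_Lam, hc, hc, hc, map_zero]
    exact hψ s₁ s₂ h)
  refine ⟨Lam ρ v μ, Lam_mem ρ v hM hv μ, fun s => ?_⟩
  rw [rho_Lam, ← map_add, ← hμ, hc]

theorem LocFree.z2 {S : Finset Γ} (hH2 : H2c S) {M : Submodule (ZMod 2) B}
    (hM : Inv ρ M) (hL : LocFree ρ M) : Z2 ρ S M := by
  classical
  intro ψ hψ
  obtain ⟨ι, _, v, hv, hli, hF⟩ := hL
    ((Finset.univ : Finset (Tri S)).image fun t : Tri S => dcb ρ S ψ t.1.1 t.1.2 t.2) (by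
    intro x hx
    simp only [Finset.coe_image, Finset.coe_univ, Set.image_univ, Set.mem_range] at hx
    obtain ⟨t, rfl⟩ := hx
    exact hψ _ _ _)
  have hex : ∀ t : Tri S, ∃ c, Lam ρ v c = dcb ρ S ψ t.1.1 t.1.2 t.2 := fun t =>
    exists_Lam_of_mem ρ v (hF (by
      simp only [Finset.coe_image, Finset.coe_univ, Set.image_univ, Set.mem_range]
      exact ⟨t, rfl⟩))
  choose k hk using hex
  have hinj : Injective (Lam ρ v) := hli
  obtain ⟨L, hL'⟩ := LinearMap.exists_leftInverse_of_injective (Lam ρ v)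
    (LinearMap.ker_eq_bot.2 hinj)
  have hLL : ∀ c, L (Lam ρ v c) = c := fun c => by
    have := LinearMap.congr_fun hL' c
    simpa using this
  -- the coordinate cochains
  have hcb : ∀ (i : ι) g s₁ s₂ (h : s₁.1 * s₂.1 ∈ S),
      cb2 S (fun e => L (ρ e.1 (ψ e.2)) (1, i)) g s₁ s₂ h = k ⟨(s₁, s₂), h⟩ (g⁻¹, i) := by
    intro i g s₁ s₂ h
    have h1 : L (ρ g (dcb ρ S ψ s₁ s₂ h)) = shift ι g (k ⟨(s₁, s₂), h⟩) := by
      rw [← hk ⟨(s₁, s₂), h⟩, rho_Lam, hLL]
    have h2 := DFunLike.congr_fun h1 (1, i)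
    rw [shift_apply, mul_one] at h2
    rw [← h2]
    simp [cb2, dcb, map_add, map_mul]
  have key : ∀ i : ι, ∃ η : Γ × Gn S → ZMod 2, (support η).Finite ∧
      ∀ g s₁ s₂ (h : s₁.1 * s₂.1 ∈ S), cb2 S η g s₁ s₂ h = k ⟨(s₁, s₂), h⟩ (g⁻¹, i) := by
    intro i
    obtain ⟨η, hη, hη'⟩ := hH2 (fun e => L (ρ e.1 (ψ e.2)) (1, i)) (by
      have h1 : (⋃ t : Tri S, {g : Γ | k t (g⁻¹, i) ≠ 0}).Finite :=
        Set.finite_iUnion fun t => finite_inv_fiber (k t) i
      refine (h1.prod (Set.finite_univ (α := Gn S × Gn S))).subset ?_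
      rintro ⟨g, s₁, s₂⟩ ⟨h, hg⟩
      rw [hcb] at hg
      exact ⟨Set.mem_iUnion.2 ⟨⟨(s₁, s₂), h⟩, hg⟩, Set.mem_univ _⟩)
    exact ⟨η, hη, fun g s₁ s₂ h => by rw [hη', hcb]⟩
  choose η hηfin hη using key
  have hfin : ∀ s : Gn S, (support fun p : Γ × ι => η p.2 (p.1⁻¹, s)).Finite := by
    intro s
    have h1 : (⋃ i : ι, {g : Γ | η i (g⁻¹, s) ≠ 0}).Finite := by
      refine Set.finite_iUnion fun i => ?_
      have : {g : Γ | η i (g⁻¹, s) ≠ 0} = (fun g : Γ => (g⁻¹, s)) ⁻¹' (support (η i)) := by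
        ext g; simp
      rw [this]
      refine Set.Finite.preimage ?_ (hηfin i)
      intro a _ b _ hab
      simpa using hab
    refine (h1.prod (Set.finite_univ (α := ι))).subset ?_
    rintro ⟨g, i⟩ hg
    exact ⟨Set.mem_iUnion.2 ⟨i, hg⟩, Set.mem_univ _⟩
  let ω : Gn S → (Γ × ι →₀ ZMod 2) := fun s => Finsupp.ofSupportFinite _ (hfin s)
  refine ⟨fun s => Lam ρ v (ω s), fun s => Lam_mem ρ v hM hv _, fun s₁ s₂ h => ?_⟩
  rw [← hk ⟨(s₁, s₂), h⟩]
  unfold dcb
  rw [rho_Lam, ← map_add, ← map_add]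
  congr 1
  ext ⟨g, i⟩
  have := hη i g⁻¹ s₁ s₂ h
  simp only [inv_inv] at this
  rw [← this]
  simp [ω, cb2, Finsupp.ofSupportFinite_coe, mul_inv_rev]

/-! ## 3. Criteria for `LocFree` -/

lemma rho_injective (g : Γ) : Injective (ρ g) := by
  intro a b hab
  have := congrArg (ρ g⁻¹) hab
  simpa [← Module.End.mul_apply, ← map_mul] using this

/-- shrink an arbitrary independent orbit family to a finite index set -/
lemma exists_finite_subfamily {M : Submodule (ZMod 2) B} {ι : Type} (v : ι → B)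
    (hv : ∀ i, v i ∈ M) (hli : LinearIndependent (ZMod 2) (orb ρ v)) (F : Finset B)
    (hF : (↑F : Set B) ⊆ span (ZMod 2) (Set.range (orb ρ v))) :
    ∃ (ι' : Type) (_ : Finite ι') (v' : ι' → B), (∀ i, v' i ∈ M) ∧
      LinearIndependent (ZMod 2) (orb ρ v') ∧
      (↑F : Set B) ⊆ span (ZMod 2) (Set.range (orb ρ v')) := by
  classical
  have hex : ∀ x : B, ∃ c : Γ × ι →₀ ZMod 2, x ∈ F → Lam ρ v c = x := by
    intro x
    by_cases hx : x ∈ F
    · obtain ⟨c, hc⟩ := exists_Lam_of_mem ρ v (hF hx)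
      exact ⟨c, fun _ => hc⟩
    · exact ⟨0, fun h => absurd h hx⟩
  choose c hc using hex
  let ι0 : Finset ι := F.biUnion fun x => (c x).support.image Prod.snd
  refine ⟨{i // i ∈ ι0}, inferInstance, fun i => v i.1, fun i => hv _, ?_, ?_⟩
  · have : orb ρ (fun i : {i // i ∈ ι0} => v i.1) =
        orb ρ v ∘ (Prod.map id Subtype.val : Γ × {i // i ∈ ι0} → Γ × ι) := by
      ext p; rfl
    rw [this]
    exact hli.comp _ (Injective.prodMap injective_id Subtype.val_injective)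
  · intro x hx
    have hx' : x ∈ F := hx
    rw [← hc x hx']
    simp only [Lam, Finsupp.linearCombination_apply, Finsupp.sum]
    refine Submodule.sum_mem _ fun p hp => Submodule.smul_mem _ _ (Submodule.subset_span ?_)
    have hp2 : p.2 ∈ ι0 := by
      simp only [ι0, Finset.mem_biUnion, Finset.mem_image]
      exact ⟨x, hx', p, hp, rfl⟩
    exact ⟨(p.1, ⟨p.2, hp2⟩), rfl⟩

theorem IsFreeOn.locFree {M : Submodule (ZMod 2) B} (h : IsFreeOn ρ M) : LocFree ρ M := by
  obtain ⟨ι, v, hv, hli, hsp⟩ := h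
  intro F hF
  exact exists_finite_subfamily ρ v hv hli F (hF.trans hsp)

section Perm
variable {𝒯 : Type} [MulAction Γ 𝒯]

/-- the parametrisation of a free `Γ`-set by `Γ × (orbits)` -/
noncomputable def orbPar (p : Γ × MulAction.orbitRel.Quotient Γ 𝒯) : 𝒯 := p.1 • p.2.out

lemma orbPar_injective (hfree : ∀ (g : Γ) (t : 𝒯), g • t = t → g = 1) :
    Injective (orbPar : Γ × MulAction.orbitRel.Quotient Γ 𝒯 → 𝒯) := by
  rintro ⟨g, q⟩ ⟨g', q'⟩ h
  simp only [orbPar] at h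
  have hq : q = q' := by
    have h1 : (Quotient.mk _ (g • q.out) : MulAction.orbitRel.Quotient Γ 𝒯) = q := by
      conv_rhs => rw [← Quotient.out_eq q]
      exact Quotient.sound (MulAction.orbitRel_apply.2 ⟨g, rfl⟩)
    have h2 : (Quotient.mk _ (g' • q'.out) : MulAction.orbitRel.Quotient Γ 𝒯) = q' := by
      conv_rhs => rw [← Quotient.out_eq q']
      exact Quotient.sound (MulAction.orbitRel_apply.2 ⟨g', rfl⟩)
    rw [← h1, ← h2, h]
  subst hq
  have : (g'⁻¹ * g) • q.out = q.out := by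
    rw [mul_smul, h, inv_smul_smul]
  have := hfree _ _ this
  have hg : g = g' := by
    have := congrArg (g' * ·) this
    simpa using this
  rw [hg]

lemma orbPar_surjective : Surjective (orbPar : Γ × MulAction.orbitRel.Quotient Γ 𝒯 → 𝒯) := by
  intro t
  have h : (Quotient.mk _ t : MulAction.orbitRel.Quotient Γ 𝒯).out ∈ MulAction.orbit Γ t := by
    have := Quotient.mk_out (s := MulAction.orbitRel Γ 𝒯) t
    exact MulAction.orbitRel_apply.1 this
  obtain ⟨g, hg⟩ := h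
  refine ⟨(g⁻¹, Quotient.mk _ t), ?_⟩
  simp only [orbPar]
  rw [← hg, inv_smul_smul]

/-- an independent family permuted freely by `Γ` gives an independent orbit family -/
lemma exists_orb_of_perm (hfree : ∀ (g : Γ) (t : 𝒯), g • t = t → g = 1) (j : 𝒯 → B)
    (hj : ∀ g t, ρ g (j t) = j (g • t)) (hli : LinearIndependent (ZMod 2) j) :
    ∃ (ι : Type) (v : ι → B), (∀ i, v i ∈ Set.range j) ∧ LinearIndependent (ZMod 2) (orb ρ v) ∧
      Set.range (orb ρ v) = Set.range j := by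
  refine ⟨MulAction.orbitRel.Quotient Γ 𝒯, fun q => j q.out, fun q => ⟨_, rfl⟩, ?_, ?_⟩
  · have : orb ρ (fun q : MulAction.orbitRel.Quotient Γ 𝒯 => j q.out) = j ∘ orbPar := by
      ext p; simp [orb, orbPar, hj]
    rw [this]
    exact hli.comp _ (orbPar_injective hfree)
  · have : orb ρ (fun q : MulAction.orbitRel.Quotient Γ 𝒯 => j q.out) = j ∘ orbPar := by
      ext p; simp [orb, orbPar, hj]
    rw [this, Set.range_comp, orbPar_surjective.range_eq, Set.image_univ]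

end Perm

section Graded
variable {I : Type} [MulAction Γ I]

/-- a module graded by a free `Γ`-set is free -/
theorem isFreeOn_of_graded (hfree : ∀ (g : Γ) (i : I), g • i = i → g = 1)
    {M : Submodule (ZMod 2) B} (Mi : I → Submodule (ZMod 2) B) (hind : iSupIndep Mi)
    (hρ : ∀ g i, ∀ m ∈ Mi i, ρ g m ∈ Mi (g • i)) (hle : ∀ i, Mi i ≤ M) (hsup : M ≤ ⨆ i, Mi i) :
    IsFreeOn ρ M := by
  classical
  let Q := MulAction.orbitRel.Quotient Γ I
  let idx : Q → Type := fun q => ↥(Module.Basis.ofVectorSpaceIndex (ZMod 2) ↥(Mi q.out))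
  let bs : ∀ q : Q, Module.Basis (idx q) (ZMod 2) ↥(Mi q.out) :=
    fun q => Module.Basis.ofVectorSpace (ZMod 2) ↥(Mi q.out)
  let f : ∀ j : Γ × Q, idx j.2 → B := fun j β => ρ j.1 ((bs j.2 β : ↥(Mi j.2.out)) : B)
  have hfmem : ∀ (j : Γ × Q) (β : idx j.2), f j β ∈ Mi (orbPar j) := fun j β =>
    hρ _ _ _ (bs j.2 β).2
  have hspan_le : ∀ j : Γ × Q, span (ZMod 2) (Set.range (f j)) ≤ Mi (orbPar j) := by
    intro j
    rw [span_le]
    rintro _ ⟨β, rfl⟩
    exact hfmem j β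
  have hindep : ∀ j, LinearIndependent (ZMod 2) (f j) := by
    intro j
    have h1 := (bs j.2).linearIndependent
    have h2 := h1.map' ((ρ j.1) ∘ₗ (Mi j.2.out).subtype) (by
      rw [LinearMap.ker_eq_bot]
      exact (rho_injective ρ j.1).comp (Subtype.val_injective))
    exact h2
  have hbig : LinearIndependent (ZMod 2) fun ji : Σ j : Γ × Q, idx j.2 => f ji.1 ji.2 := by
    refine linearIndependent_iUnion_finite hindep ?_
    intro j t _ hjt
    refine (hind (orbPar j)).mono (hspan_le j) ?_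
    refine iSup₂_le fun j' hj' => ?_
    have hne : orbPar j' ≠ orbPar j := by
      intro h
      exact hjt ((orbPar_injective hfree h) ▸ hj')
    exact (hspan_le j').trans (le_iSup₂_of_le (orbPar j') hne le_rfl)
  refine ⟨Σ q : Q, idx q, fun x => ((bs x.1 x.2 : ↥(Mi x.1.out)) : B),
    fun x => hle _ (bs x.1 x.2).2, ?_, ?_⟩
  · have : orb ρ (fun x : Σ q : Q, idx q => ((bs x.1 x.2 : ↥(Mi x.1.out)) : B)) =
        (fun ji : Σ j : Γ × Q, idx j.2 => f ji.1 ji.2) ∘
          (fun p : Γ × Σ q : Q, idx q => (⟨(p.1, p.2.1), p.2.2⟩ : Σ j : Γ × Q, idx j.2)) := by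
      ext p; rfl
    rw [this]
    refine hbig.comp _ ?_
    rintro ⟨g, q, β⟩ ⟨g', q', β'⟩ h
    simp only [Sigma.mk.injEq, Prod.mk.injEq] at h
    obtain ⟨⟨rfl, rfl⟩, h3⟩ := h
    rw [eq_of_heq h3]
  · refine hsup.trans (iSup_le fun i => ?_)
    obtain ⟨⟨g, q⟩, hgq⟩ := orbPar_surjective (Γ := Γ) i
    intro m hm
    have hm' : ρ g⁻¹ m ∈ Mi q.out := by
      have := hρ g⁻¹ i m hm
      rw [← hgq] at this
      simpa [orbPar] using this
    have h1 : (⟨ρ g⁻¹ m, hm'⟩ : ↥(Mi q.out)) ∈ span (ZMod 2) (Set.range (bs q)) := by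
      rw [(bs q).span_eq]; trivial
    have h2 := Submodule.mem_map_of_mem (f := (ρ g) ∘ₗ (Mi q.out).subtype) h1
    rw [Submodule.map_span] at h2
    have h3 : ((ρ g) ∘ₗ (Mi q.out).subtype) ⟨ρ g⁻¹ m, hm'⟩ = m := by
      simp [← Module.End.mul_apply, ← map_mul]
    rw [h3] at h2
    refine span_mono ?_ h2
    rintro _ ⟨_, ⟨β, rfl⟩, rfl⟩
    exact ⟨(g, ⟨q, β⟩), rfl⟩

end Graded

section Concrete
variable {X : Type} [MulAction Γ X] {I : Type} [MulAction Γ I]

lemma rho_eq_mapDomain (ρ : Representation (ZMod 2) Γ (X →₀ ZMod 2))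
    (hρ : ∀ g x a, ρ g (Finsupp.single x a) = Finsupp.single (g • x) a) (g : Γ)
    (m : X →₀ ZMod 2) : ρ g m = Finsupp.mapDomain (g • ·) m := by
  induction m using Finsupp.induction_linear with
  | zero => simp
  | add f g hf hg => simp [map_add, hf, hg, Finsupp.mapDomain_add]
  | single p a => simp [hρ]

/-- a span of generators, each supported in one fibre of an equivariant map to a free `Γ`-set,
is free -/
theorem isFreeOn_of_fibred (ρ : Representation (ZMod 2) Γ (X →₀ ZMod 2))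
    (hρ : ∀ g x a, ρ g (Finsupp.single x a) = Finsupp.single (g • x) a)
    (hfree : ∀ (g : Γ) (i : I), g • i = i → g = 1)
    (X' : Set X) (hX' : ∀ (g : Γ), ∀ x ∈ X', g • x ∈ X') (p : X → I)
    (hp : ∀ (g : Γ), ∀ x ∈ X', p (g • x) = g • p x)
    (𝒢 : Set (X →₀ ZMod 2)) (h𝒢 : ∀ γ ∈ 𝒢, ∃ i, ∀ x ∈ γ.support, x ∈ X' ∧ p x = i)
    (hinv : Inv ρ (span (ZMod 2) 𝒢)) : IsFreeOn ρ (span (ZMod 2) 𝒢) := by
  classical
  let fib : I → Set X := fun i => {x | x ∈ X' ∧ p x = i}
  have hind0 : iSupIndep fun i => Finsupp.supported (ZMod 2) (ZMod 2) (fib i) := by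
    intro i
    have : (⨆ j, ⨆ (_ : j ≠ i), Finsupp.supported (ZMod 2) (ZMod 2) (fib j)) ≤
        Finsupp.supported (ZMod 2) (ZMod 2) (⋃ j, ⋃ (_ : j ≠ i), fib j) := by
      refine iSup₂_le fun j hj => Finsupp.supported_mono ?_
      exact Set.subset_iUnion₂_of_subset j hj subset_rfl
    refine Disjoint.mono_right this ?_
    refine Finsupp.disjoint_supported_supported ?_
    rw [Set.disjoint_left]
    intro x hx hx'
    simp only [Set.mem_iUnion] at hx'
    obtain ⟨j, hj, hxj⟩ := hx'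
    exact hj (hxj.2.symm.trans hx.2)
  refine isFreeOn_of_graded ρ hfree
    (fun i => span (ZMod 2) 𝒢 ⊓ Finsupp.supported (ZMod 2) (ZMod 2) (fib i))
    (hind0.mono fun i => inf_le_right) ?_ (fun i => inf_le_left) ?_
  · rintro g i m ⟨hm1, hm2⟩
    refine ⟨hinv g m hm1, ?_⟩
    rw [SetLike.mem_coe, Finsupp.mem_supported] at hm2 ⊢
    rw [rho_eq_mapDomain ρ hρ]
    intro x hx
    have := Finsupp.mapDomain_support hx
    obtain ⟨y, hy, rfl⟩ := Finset.mem_image.1 this
    have hy' := hm2 hy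
    exact ⟨hX' g y hy'.1, by rw [hp g y hy'.1, hy'.2]⟩
  · rw [span_le]
    intro γ hγ
    obtain ⟨i, hi⟩ := h𝒢 γ hγ
    refine Submodule.mem_iSup_of_mem i ⟨subset_span hγ, ?_⟩
    rw [SetLike.mem_coe, Finsupp.mem_supported]
    intro x hx
    exact hi x hx

end Concrete

lemma Lam_mem_span {ι : Type} (v : ι → B) (c : Γ × ι →₀ ZMod 2) :
    Lam ρ v c ∈ span (ZMod 2) (Set.range (orb ρ v)) := by
  rw [← Finsupp.range_linearCombination]
  exact ⟨c, rfl⟩

lemma span_orb_le {ι : Type} (v : ι → B) {M : Submodule (ZMod 2) B} (hM : Inv ρ M)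
    (hv : ∀ i, v i ∈ M) : span (ZMod 2) (Set.range (orb ρ v)) ≤ M := by
  rw [span_le]
  rintro _ ⟨p, rfl⟩
  exact hM _ _ (hv _)

/-- extension of a locally free module by a free one, local form -/
theorem LocFree.extend_aux {W N : Submodule (ZMod 2) B} (hWN : W ≤ N) (hW : Inv ρ W)
    (hL : LocFree ρ W) {𝒥 : Type} (κ : 𝒥 → B) (hκ : ∀ j, κ j ∈ N)
    (hind : ∀ c : Γ × 𝒥 →₀ ZMod 2, Lam ρ κ c ∈ W → c = 0) (F : Finset B)
    (hspan : ∀ x ∈ F, x ∈ W ⊔ span (ZMod 2) (Set.range (orb ρ κ))) :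
    ∃ (ι : Type) (_ : Finite ι) (v : ι → B), (∀ i, v i ∈ N) ∧
      LinearIndependent (ZMod 2) (orb ρ v) ∧
      (↑F : Set B) ⊆ span (ZMod 2) (Set.range (orb ρ v)) := by
  classical
  have hex : ∀ x : B, ∃ (w : B) (c : Γ × 𝒥 →₀ ZMod 2), w ∈ W ∧ (x ∈ F → x = w + Lam ρ κ c) := by
    intro x
    by_cases hx : x ∈ F
    · obtain ⟨w, hw, y, hy, hxy⟩ := Submodule.mem_sup.1 (hspan x hx)
      obtain ⟨c, hc⟩ := exists_Lam_of_mem ρ κ hy
      exact ⟨w, c, hw, fun _ => by rw [hc, hxy]⟩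
    · exact ⟨0, 0, W.zero_mem, fun h => absurd h hx⟩
  choose w c hw hwc using hex
  obtain ⟨ι1, _, v1, hv1, hli1, hF1⟩ := hL (F.image w) (by
    intro x hx
    simp only [Finset.coe_image, Set.mem_image] at hx
    obtain ⟨y, _, rfl⟩ := hx
    exact hw y)
  have hliκ : LinearIndependent (ZMod 2) (orb ρ κ) := by
    rw [linearIndependent_iff]
    intro l hl
    exact hind l (by show Finsupp.linearCombination _ _ l ∈ W; rw [hl]; exact W.zero_mem)
  have hdisj : Disjoint (span (ZMod 2) (Set.range (orb ρ v1)))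
      (span (ZMod 2) (Set.range (orb ρ κ))) := by
    rw [Submodule.disjoint_def]
    intro x hx1 hx2
    obtain ⟨c', rfl⟩ := exists_Lam_of_mem ρ κ hx2
    rw [hind c' (span_orb_le ρ v1 hW hv1 hx1), map_zero]
  have hsum := hli1.sum_type hliκ hdisj
  have heq : orb ρ (Sum.elim v1 κ) =
      Sum.elim (orb ρ v1) (orb ρ κ) ∘ (Equiv.prodSumDistrib Γ ι1 𝒥) := by
    ext ⟨g, i | j⟩ <;> rfl
  refine exists_finite_subfamily ρ (Sum.elim v1 κ) ?_ ?_ F ?_
  · rintro (i | j)
    · exact hWN (hv1 i)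
    · exact hκ j
  · rw [heq]
    exact hsum.comp _ (Equiv.injective _)
  · intro x hx
    have hx' : x ∈ F := hx
    rw [hwc x hx']
    refine Submodule.add_mem _ ?_ ?_
    · have h1 : w x ∈ span (ZMod 2) (Set.range (orb ρ v1)) :=
        hF1 (by simp only [Finset.coe_image]; exact ⟨x, hx', rfl⟩)
      refine span_mono ?_ h1
      rintro _ ⟨p, rfl⟩
      exact ⟨(p.1, Sum.inl p.2), rfl⟩
    · refine span_mono ?_ (Lam_mem_span ρ κ (c x))
      rintro _ ⟨p, rfl⟩
      exact ⟨(p.1, Sum.inr p.2), rfl⟩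

/-- extension of a locally free module by a free one -/
theorem LocFree.extend {W N : Submodule (ZMod 2) B} (hWN : W ≤ N) (hW : Inv ρ W)
    (hL : LocFree ρ W) {𝒥 : Type} (κ : 𝒥 → B) (hκ : ∀ j, κ j ∈ N)
    (hspan : N ≤ W ⊔ span (ZMod 2) (Set.range (orb ρ κ)))
    (hind : ∀ c : Γ × 𝒥 →₀ ZMod 2, Lam ρ κ c ∈ W → c = 0) : LocFree ρ N :=
  fun F hF => LocFree.extend_aux ρ hWN hW hL κ hκ hind F fun _ hx => hspan (hF hx)

/-! ## 4. The Boolean ring lemma -/

section Boolean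
open Pointwise
variable {Ω : Type} [MulAction Γ Ω]

/-- a nonempty finite subset of a torsion-free group has trivial stabiliser -/
lemma eq_one_of_smul_finite_set (hTF : ∀ g : Γ, g ≠ 1 → ∀ n : ℕ, 0 < n → g ^ n ≠ 1)
    (h : Γ) (A : Set Γ) (hA : A.Finite) (hne : A.Nonempty) (hh : h • A = A) : h = 1 := by
  by_contra hcon
  obtain ⟨a, ha⟩ := hne
  have hmem : ∀ n : ℕ, h ^ n * a ∈ A := by
    intro n
    induction n with
    | zero => simpa using ha
    | succ n ih =>
      rw [← hh]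
      refine ⟨h ^ n * a, ih, ?_⟩
      simp [pow_succ', mul_assoc]
  have hinj : Injective fun n : ℕ => h ^ n * a := by
    intro n m hnm
    have hnm' : h ^ n = h ^ m := mul_right_cancel hnm
    by_contra hne
    rcases lt_or_gt_of_ne hne with hlt | hlt
    · refine hTF h hcon (m - n) (Nat.sub_pos_of_lt hlt) ?_
      have : h ^ m = h ^ (m - n) * h ^ n := by rw [← pow_add, Nat.sub_add_cancel hlt.le]
      rw [this] at hnm'
      exact (mul_eq_right.1 hnm'.symm)
    · refine hTF h hcon (n - m) (Nat.sub_pos_of_lt hlt) ?_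
      have : h ^ n = h ^ (n - m) * h ^ m := by rw [← pow_add, Nat.sub_add_cancel hlt.le]
      rw [this] at hnm'
      exact (mul_eq_right.1 hnm')
  exact Set.infinite_of_injective_forall_mem hinj hmem hA

variable {ρ}

/-- closure of `E '' M` under finite products with a leading factor -/
lemma exists_prod_mem {M : Submodule (ZMod 2) B} (E : B →ₗ[ZMod 2] (Ω → ZMod 2))
    (hmul : ∀ m ∈ M, ∀ m' ∈ M, ∃ m'' ∈ M, E m'' = E m * E m') {α : Type} (P : Finset α)
    (y : α → B) (hy : ∀ a, y a ∈ M) :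
    ∀ x ∈ M, ∃ m ∈ M, E m = E x * ∏ a ∈ P, E (y a) := by
  classical
  induction P using Finset.induction_on with
  | empty => intro x hx; exact ⟨x, hx, by simp⟩
  | insert a P ha ih =>
    intro x hx
    obtain ⟨x', hx', hE'⟩ := hmul x hx (y a) (hy a)
    obtain ⟨m, hm, hEm⟩ := ih x' hx'
    exact ⟨m, hm, by rw [hEm, hE', Finset.prod_insert ha, mul_assoc]⟩

lemma exists_prod_mem' {M : Submodule (ZMod 2) B} (E : B →ₗ[ZMod 2] (Ω → ZMod 2))
    (hmul : ∀ m ∈ M, ∀ m' ∈ M, ∃ m'' ∈ M, E m'' = E m * E m') {α : Type} (P : Finset α)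
    (y : α → B) (hy : ∀ a, y a ∈ M) :
    ∀ x ∈ M, ∃ m ∈ M, E m = E x * ∏ a ∈ P, (1 + E (y a)) := by
  classical
  induction P using Finset.induction_on with
  | empty => intro x hx; exact ⟨x, hx, by simp⟩
  | insert a P ha ih =>
    intro x hx
    obtain ⟨x', hx', hE'⟩ := hmul x hx (y a) (hy a)
    obtain ⟨m, hm, hEm⟩ := ih (x + x') (M.add_mem hx hx')
    refine ⟨m, hm, ?_⟩
    rw [hEm, map_add, hE', Finset.prod_insert ha]
    ring

variable (ρ)

/-- **Boolean ring lemma.**  If `M` is realised equivariantly and injectively as a ring of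
`F₂`-valued functions on a `Γ`-set on which `Γ` acts "properly", and `Γ` is torsion-free, then `M`
is locally free. -/
theorem locFree_of_boolean (hTF : ∀ g : Γ, g ≠ 1 → ∀ n : ℕ, 0 < n → g ^ n ≠ 1)
    {M : Submodule (ZMod 2) B} (hM : Inv ρ M) (E : B →ₗ[ZMod 2] (Ω → ZMod 2))
    (hE : ∀ g b ω, E (ρ g b) ω = E b (g⁻¹ • ω))
    (hinj : ∀ m ∈ M, E m = 0 → m = 0)
    (hmul : ∀ m ∈ M, ∀ m' ∈ M, ∃ m'' ∈ M, E m'' = E m * E m')
    (hprop : ∀ m ∈ M, ∀ m' ∈ M, {g : Γ | E (ρ g m) * E m' ≠ 0}.Finite) : LocFree ρ M := by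
  classical
  intro F hF
  let Fi : Type := {x // x ∈ F}
  have hFi : ∀ f : Fi, f.1 ∈ M := fun f => hF f.2
  -- the type of a point
  let τ : Ω → Fi → Set Γ := fun ω f => {g | E (ρ g f.1) ω ≠ 0}
  have hτ : ∀ (h : Γ) (ω : Ω), τ (h • ω) = h • τ ω := by
    intro h ω
    funext f
    ext g
    rw [Pi.smul_apply, Set.mem_smul_set_iff_inv_smul_mem]
    simp only [τ, Set.mem_ofPred_eq, smul_eq_mul]
    rw [map_mul, Module.End.mul_apply, hE h⁻¹, inv_inv]
  let Ω0 : Set Ω := {ω | ∃ (f : Fi) (g : Γ), g ∈ τ ω f}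
  have hΩ0 : ∀ (h : Γ) (ω : Ω), ω ∈ Ω0 → h • ω ∈ Ω0 := by
    rintro h ω ⟨f, g, hg⟩
    refine ⟨f, h * g, ?_⟩
    rw [hτ, Pi.smul_apply]
    exact ⟨g, hg, rfl⟩
  let 𝒯 : SubMulAction Γ (Fi → Set Γ) :=
    { carrier := τ '' Ω0
      smul_mem' := by
        rintro h _ ⟨ω, hω, rfl⟩
        exact ⟨h • ω, hΩ0 h ω hω, hτ h ω⟩ }
  -- finiteness of types
  have hfin : ∀ ω ∈ Ω0, ∀ f, (τ ω f).Finite := by
    rintro ω ⟨f0, g0, hg0⟩ f
    refine (hprop f.1 (hFi f) (ρ g0 f0.1) (hM _ _ (hFi f0))).subset ?_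
    intro g hg hzero
    have := congrFun hzero ω
    simp only [Pi.mul_apply, Pi.zero_apply, mul_eq_zero] at this
    rcases this with h | h
    · exact hg h
    · exact hg0 h
  have hfree : ∀ (h : Γ) (t : 𝒯), h • t = t → h = 1 := by
    rintro h ⟨_, ω, hω, rfl⟩ ht
    obtain ⟨f, g, hg⟩ := id hω
    have ht' : h • τ ω = τ ω := congrArg Subtype.val ht
    exact eq_one_of_smul_finite_set hTF h (τ ω f) (hfin ω hω f) ⟨g, hg⟩ (congrFun ht' f)
  -- the indicator functions of the atoms lie in `E '' M`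
  have hatom : ∀ t : 𝒯, ∃ m ∈ M, ∀ ω, E m ω = if τ ω = t.1 then 1 else 0 := by
    rintro ⟨_, ω0, hω0, rfl⟩
    obtain ⟨f0, g0, hg0⟩ := id hω0
    have ha0 : ρ g0 f0.1 ∈ M := hM _ _ (hFi f0)
    have hQ : ∀ f : Fi, {g : Γ | E (ρ g f.1) * E (ρ g0 f0.1) ≠ 0}.Finite := fun f =>
      hprop f.1 (hFi f) _ ha0
    let Pall : Finset (Γ × Fi) := Finset.univ.biUnion fun f => (hQ f).toFinset.image fun g => (g, f)
    have hPall : ∀ p : Γ × Fi, p ∈ Pall ↔ E (ρ p.1 p.2.1) * E (ρ g0 f0.1) ≠ 0 := by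
      rintro ⟨g, f⟩
      simp only [Pall, Finset.mem_biUnion, Finset.mem_univ, true_and, Finset.mem_image,
        Set.Finite.mem_toFinset, Set.mem_ofPred_eq, Prod.mk.injEq]
      constructor
      · rintro ⟨f', g', h1, rfl, rfl⟩; exact h1
      · intro h1; exact ⟨f, g, h1, rfl, rfl⟩
    let y : Γ × Fi → B := fun p => ρ p.1 p.2.1
    have hy : ∀ p, y p ∈ M := fun p => hM _ _ (hFi p.2)
    obtain ⟨m1, hm1, hEm1⟩ := exists_prod_mem E hmul (Pall.filter fun p => p.1 ∈ τ ω0 p.2) y hy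
      _ ha0
    obtain ⟨m2, hm2, hEm2⟩ := exists_prod_mem' E hmul (Pall.filter fun p => p.1 ∉ τ ω0 p.2) y hy
      _ hm1
    refine ⟨m2, hm2, fun ω => ?_⟩
    have hval : E m2 ω = E (ρ g0 f0.1) ω * (∏ p ∈ Pall.filter fun p => p.1 ∈ τ ω0 p.2, E (y p) ω) *
        ∏ p ∈ Pall.filter fun p => p.1 ∉ τ ω0 p.2, (1 + E (y p) ω) := by
      rw [hEm2, hEm1]
      simp [Finset.prod_apply]
    have hiff : E m2 ω ≠ 0 ↔ τ ω = τ ω0 := by
      rw [hval]
      simp only [ne_eq, mul_eq_zero, Finset.prod_eq_zero_iff, not_or, not_exists, not_and,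
        Finset.mem_filter, and_imp]
      constructor
      · rintro ⟨⟨h1, h2⟩, h3⟩
        funext f
        ext g
        constructor
        · intro hg
          by_contra hcon
          have hp : (g, f) ∈ Pall := by
            rw [hPall]
            intro hz
            have := congrFun hz ω
            simp only [Pi.mul_apply, Pi.zero_apply, mul_eq_zero] at this
            rcases this with h | h
            · exact hg h
            · exact h1 h
          have := h3 (g, f) hp hcon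
          have hg1 : E (ρ g f.1) ω = 1 := zmod2_ne_zero.1 hg
          apply this
          simp only [y]
          rw [hg1]; decide
        · intro hg
          have hp : (g, f) ∈ Pall := by
            rw [hPall]
            intro hz
            have := congrFun hz ω0
            simp only [Pi.mul_apply, Pi.zero_apply, mul_eq_zero] at this
            rcases this with h | h
            · exact hg h
            · exact hg0 h
          exact h2 (g, f) hp hg
      · intro hτeq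
        refine ⟨⟨?_, ?_⟩, ?_⟩
        · have : g0 ∈ τ ω f0 := by rw [hτeq]; exact hg0
          exact this
        · intro p _ hp
          have : p.1 ∈ τ ω p.2 := by rw [hτeq]; exact hp
          exact this
        · intro p _ hp
          have : p.1 ∉ τ ω p.2 := by rw [hτeq]; exact hp
          have h0 : E (y p) ω = 0 := by
            by_contra hne; exact this hne
          rw [h0]; decide
    by_cases hc : τ ω = τ ω0
    · rw [if_pos hc]; exact zmod2_ne_zero.1 (hiff.2 hc)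
    · rw [if_neg hc]
      by_contra hne; exact hc (hiff.1 hne)
  choose j hjM hjE using hatom
  have hjeq : ∀ g t, ρ g (j t) = j (g • t) := by
    intro g t
    have hsub : ρ g (j t) - j (g • t) = 0 := by
      refine hinj _ (M.sub_mem (hM _ _ (hjM t)) (hjM _)) ?_
      funext ω
      rw [map_sub, Pi.sub_apply, hE, hjE, hjE, hτ, Pi.zero_apply, sub_eq_zero]
      have : (g⁻¹ • τ ω = t.1) ↔ (τ ω = (g • t : 𝒯).1) := by
        rw [inv_smul_eq_iff]; rfl
      simp only [this]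
    exact sub_eq_zero.1 hsub
  have hli : LinearIndependent (ZMod 2) j := by
    refine LinearIndependent.of_comp E ?_
    rw [linearIndependent_iff']
    intro s c hc t ht
    obtain ⟨ω, _, hω⟩ := t.2
    have := congrFun hc ω
    simp only [Finset.sum_apply, Pi.smul_apply, comp_apply, hjE, smul_eq_mul, Pi.zero_apply,
      mul_ite, mul_one, mul_zero] at this
    rw [Finset.sum_eq_single t] at this
    · simpa [hω] using this
    · intro t' _ hne
      rw [if_neg]
      intro h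
      exact hne (Subtype.ext (h.symm.trans hω))
    · intro h; exact absurd ht h
  obtain ⟨ι, v, hv, hliv, hrange⟩ := exists_orb_of_perm ρ hfree j hjeq hli
  refine exists_finite_subfamily ρ v (fun i => ?_) hliv F ?_
  · obtain ⟨t, ht⟩ := hv i
    rw [← ht]; exact hjM t
  · rw [hrange]
    intro x hx
    let f : Fi := ⟨x, hx⟩
    -- the finitely many types containing `(1, f)`
    have hRfin : {t : 𝒯 | (1 : Γ) ∈ t.1 f}.Finite := by
      have hbig : (Set.pi Set.univ fun f' : Fi =>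
          𝒫 {g : Γ | E (ρ g f'.1) * E x ≠ 0}).Finite :=
        Set.Finite.pi fun f' => (hprop f'.1 (hFi f') x (hF hx)).powerset
      refine Set.Finite.of_finite_image (f := Subtype.val) (hbig.subset ?_)
        (Subtype.val_injective.injOn)
      rintro _ ⟨⟨_, ω, hω, rfl⟩, h1, rfl⟩ f' _ g hg hz
      have := congrFun hz ω
      simp only [Pi.mul_apply, Pi.zero_apply, mul_eq_zero] at this
      rcases this with h | h
      · exact hg h
      · apply h1
        simpa [f] using h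
    have hsum : x = ∑ t ∈ hRfin.toFinset, j t := by
      have hsub : x - ∑ t ∈ hRfin.toFinset, j t = 0 := by
        refine hinj _ (M.sub_mem (hF hx) (M.sum_mem fun t _ => hjM t)) ?_
        funext ω
        rw [map_sub, map_sum, Pi.sub_apply, Finset.sum_apply, Pi.zero_apply, sub_eq_zero]
        simp only [hjE]
        by_cases h0 : E x ω = 0
        · rw [h0, Finset.sum_eq_zero]
          intro t ht
          rw [if_neg]
          intro h
          have h1 : (1 : Γ) ∈ t.1 f := by simpa using ht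
          rw [← h] at h1
          apply h1
          simpa [f] using h0
        · have h1 : (1 : Γ) ∈ τ ω f := by
            show E (ρ 1 x) ω ≠ 0
            simpa using h0
          have hω : ω ∈ Ω0 := ⟨f, 1, h1⟩
          let t0 : 𝒯 := ⟨τ ω, ω, hω, rfl⟩
          rw [Finset.sum_eq_single t0]
          · rw [if_pos rfl]; exact zmod2_ne_zero.1 h0
          · intro t' _ hne
            rw [if_neg]
            intro h
            exact hne (Subtype.ext h.symm)
          · intro h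
            exact absurd (by simpa using h1) h
      exact sub_eq_zero.1 hsub
    rw [SetLike.mem_coe, hsum]
    exact Submodule.sum_mem _ fun t _ => subset_span ⟨t, rfl⟩

lemma inv_span {𝒢 : Set B} (h𝒢 : ∀ g, ∀ γ ∈ 𝒢, ρ g γ ∈ 𝒢) : Inv ρ (span (ZMod 2) 𝒢) := by
  intro g m hm
  induction hm using Submodule.span_induction with
  | mem x hx => exact subset_span (h𝒢 g x hx)
  | zero => simp
  | add x y _ _ hx hy => rw [map_add]; exact Submodule.add_mem _ hx hy
  | smul a x _ hx => rw [map_smul]; exact Submodule.smul_mem _ _ hx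

/-- the Boolean ring lemma, hypotheses checked on generators only -/
theorem locFree_of_boolean_span (hTF : ∀ g : Γ, g ≠ 1 → ∀ n : ℕ, 0 < n → g ^ n ≠ 1)
    {𝒢 : Set B} (h𝒢 : ∀ g, ∀ γ ∈ 𝒢, ρ g γ ∈ 𝒢) (E : B →ₗ[ZMod 2] (Ω → ZMod 2))
    (hE : ∀ g b ω, E (ρ g b) ω = E b (g⁻¹ • ω))
    (hinj : ∀ m ∈ span (ZMod 2) 𝒢, E m = 0 → m = 0)
    (hmul : ∀ γ ∈ 𝒢, ∀ γ' ∈ 𝒢, ∃ m'' ∈ span (ZMod 2) 𝒢, E m'' = E γ * E γ')
    (hprop : ∀ γ ∈ 𝒢, ∀ γ' ∈ 𝒢, {g : Γ | E (ρ g γ) * E γ' ≠ 0}.Finite) :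
    LocFree ρ (span (ZMod 2) 𝒢) := by
  refine locFree_of_boolean ρ hTF (inv_span ρ h𝒢) E hE hinj ?_ ?_
  · have h1 : ∀ γ ∈ 𝒢, ∀ m' ∈ span (ZMod 2) 𝒢, ∃ m'' ∈ span (ZMod 2) 𝒢, E m'' = E γ * E m' := by
      intro γ hγ m' hm'
      induction hm' using Submodule.span_induction with
      | mem x hx => exact hmul γ hγ x hx
      | zero => exact ⟨0, Submodule.zero_mem _, by simp⟩
      | add x y _ _ hx hy =>
        obtain ⟨a, ha, hEa⟩ := hx
        obtain ⟨b, hb, hEb⟩ := hy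
        exact ⟨a + b, Submodule.add_mem _ ha hb, by rw [map_add, map_add, hEa, hEb, mul_add]⟩
      | smul c x _ hx =>
        obtain ⟨a, ha, hEa⟩ := hx
        exact ⟨c • a, Submodule.smul_mem _ _ ha, by rw [map_smul, map_smul, hEa, mul_smul_comm]⟩
    intro m hm m' hm'
    induction hm using Submodule.span_induction with
    | mem x hx => exact h1 x hx m' hm'
    | zero => exact ⟨0, Submodule.zero_mem _, by simp⟩
    | add x y _ _ hx hy =>
      obtain ⟨a, ha, hEa⟩ := hx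
      obtain ⟨b, hb, hEb⟩ := hy
      exact ⟨a + b, Submodule.add_mem _ ha hb, by rw [map_add, map_add, hEa, hEb, add_mul]⟩
    | smul c x _ hx =>
      obtain ⟨a, ha, hEa⟩ := hx
      exact ⟨c • a, Submodule.smul_mem _ _ ha, by rw [map_smul, map_smul, hEa, smul_mul_assoc]⟩
  · have h1 : ∀ γ ∈ 𝒢, ∀ m' ∈ span (ZMod 2) 𝒢, {g : Γ | E (ρ g γ) * E m' ≠ 0}.Finite := by
      intro γ hγ m' hm'
      induction hm' using Submodule.span_induction with
      | mem x hx => exact hprop γ hγ x hx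
      | zero => simp
      | add x y _ _ hx hy =>
        refine (hx.union hy).subset ?_
        intro g hg
        by_contra hcon
        simp only [Set.mem_union, Set.mem_ofPred_eq, not_or, not_not] at hcon
        apply hg
        rw [map_add, mul_add, hcon.1, hcon.2, add_zero]
      | smul c x _ hx =>
        refine hx.subset ?_
        intro g hg hcon
        apply hg
        rw [map_smul, mul_smul_comm, hcon, smul_zero]
    intro m hm m' hm'
    induction hm using Submodule.span_induction with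
    | mem x hx => exact h1 x hx m' hm'
    | zero => simp
    | add x y _ _ hx hy =>
      refine (hx.union hy).subset ?_
      intro g hg
      by_contra hcon
      simp only [Set.mem_union, Set.mem_ofPred_eq, not_or, not_not] at hcon
      apply hg
      rw [map_add, map_add, add_mul, hcon.1, hcon.2, add_zero]
    | smul c x _ hx =>
      refine hx.subset ?_
      intro g hg hcon
      apply hg
      rw [map_smul, map_smul, smul_mul_assoc, hcon, smul_zero]

end Boolean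

/-! ## 5. Extensions through an equivariant map -/

section ExtMap
variable {V : Type} [AddCommGroup V] [Module (ZMod 2) V] (ρ' : Representation (ZMod 2) Γ V)

lemma map_Lam {N : Submodule (ZMod 2) B} (Φ : B →ₗ[ZMod 2] V)
    (hΦ : ∀ g, ∀ x ∈ N, Φ (ρ g x) = ρ' g (Φ x)) {ι : Type} (κ : ι → B) (hκ : ∀ i, κ i ∈ N)
    (c : Γ × ι →₀ ZMod 2) : Φ (Lam ρ κ c) = Lam ρ' (fun i => Φ (κ i)) c := by
  induction c using Finsupp.induction_linear with
  | zero => simp
  | add f g hf hg => simp [map_add, hf, hg]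
  | single p a => simp [Lam_single, hΦ _ _ (hκ _)]

/-- `0 → W → N → K' → 0` with `W` locally free and `K'` free: then `N` is locally free -/
theorem LocFree.extend_of_map {W N : Submodule (ZMod 2) B} (hWN : W ≤ N) (hW : Inv ρ W)
    (hN : Inv ρ N) (hL : LocFree ρ W) (Φ : B →ₗ[ZMod 2] V)
    (hΦ : ∀ g, ∀ x ∈ N, Φ (ρ g x) = ρ' g (Φ x))
    (hker : ∀ x ∈ N, Φ x = 0 → x ∈ W) (hW0 : ∀ x ∈ W, Φ x = 0)
    {K' : Submodule (ZMod 2) V} (hK : IsFreeOn ρ' K') (hmap : ∀ x ∈ N, Φ x ∈ K')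
    (hsurj : ∀ k ∈ K', ∃ x ∈ N, Φ x = k) : LocFree ρ N := by
  obtain ⟨ι, v', hv', hli', hsp'⟩ := hK
  choose κ hκN hκ using fun i => hsurj (v' i) (hv' i)
  have hfun : (fun i => Φ (κ i)) = v' := funext hκ
  refine LocFree.extend ρ hWN hW hL κ hκN ?_ ?_
  · intro x hx
    obtain ⟨c, hc⟩ := exists_Lam_of_mem ρ' v' (hsp' (hmap x hx))
    have h1 : Φ (x - Lam ρ κ c) = 0 := by
      rw [map_sub, map_Lam ρ ρ' Φ hΦ κ hκN, hfun, hc, sub_self]
    have h2 : x - Lam ρ κ c ∈ W :=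
      hker _ (N.sub_mem hx (Lam_mem ρ κ hN hκN c)) h1
    have : x = (x - Lam ρ κ c) + Lam ρ κ c := by abel
    rw [this]
    exact Submodule.add_mem_sup h2 (Lam_mem_span ρ κ c)
  · intro c hc
    have h1 := hW0 _ hc
    rw [map_Lam ρ ρ' Φ hΦ κ hκN, hfun] at h1
    have hinj : Injective (Lam ρ' v') := hli'
    exact hinj (by rw [h1, map_zero])

/-- `0 → W → N → E(N) → 0` with `W` and `E(N)` locally free: then `N` is locally free -/
theorem LocFree.extend_of_map' {W N : Submodule (ZMod 2) B} (hWN : W ≤ N) (hW : Inv ρ W)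
    (hN : Inv ρ N) (hL : LocFree ρ W) (Φ : B →ₗ[ZMod 2] V)
    (hΦ : ∀ g, ∀ x ∈ N, Φ (ρ g x) = ρ' g (Φ x))
    (hker : ∀ x ∈ N, Φ x = 0 → x ∈ W) (hW0 : ∀ x ∈ W, Φ x = 0)
    (hK : LocFree ρ' (N.map Φ)) : LocFree ρ N := by
  classical
  intro F hF
  obtain ⟨ι, _, v', hv', hli', hsp'⟩ := hK (F.image Φ) (by
    intro y hy
    simp only [Finset.coe_image, Set.mem_image] at hy
    obtain ⟨x, hx, rfl⟩ := hy
    exact Submodule.mem_map_of_mem (hF hx))
  choose κ hκN hκ using fun i => Submodule.mem_map.1 (hv' i)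
  have hfun : (fun i => Φ (κ i)) = v' := funext hκ
  refine LocFree.extend_aux ρ hWN hW hL κ hκN ?_ F ?_
  · intro c hc
    have h1 := hW0 _ hc
    rw [map_Lam ρ ρ' Φ hΦ κ hκN, hfun] at h1
    have hinj : Injective (Lam ρ' v') := hli'
    exact hinj (by rw [h1, map_zero])
  · intro x hx
    obtain ⟨c, hc⟩ := exists_Lam_of_mem ρ' v'
      (hsp' (by simp only [Finset.coe_image]; exact ⟨x, hx, rfl⟩))
    have h1 : Φ (x - Lam ρ κ c) = 0 := by
      rw [map_sub, map_Lam ρ ρ' Φ hΦ κ hκN, hfun, hc, sub_self]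
    have h2 : x - Lam ρ κ c ∈ W :=
      hker _ (N.sub_mem (hF hx) (Lam_mem ρ κ hN hκN c)) h1
    have : x = (x - Lam ρ κ c) + Lam ρ κ c := by abel
    rw [this]
    exact Submodule.add_mem_sup h2 (Lam_mem_span ρ κ c)

end ExtMap

/-! ## 6. Functions with support in a prescribed set -/

section SuppIn
variable {X : Type}

/-- functions `X → F₂` vanishing outside `A` -/
def suppIn (A : Set X) : Submodule (ZMod 2) (X → ZMod 2) where
  carrier := {f | ∀ p, f p ≠ 0 → p ∈ A}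
  add_mem' := by
    intro f g hf hg p hp
    by_contra hcon
    apply hp
    have h1 : f p = 0 := by by_contra h; exact hcon (hf p h)
    have h2 : g p = 0 := by by_contra h; exact hcon (hg p h)
    simp [h1, h2]
  zero_mem' := by intro p hp; exact absurd rfl hp
  smul_mem' := by
    intro c f hf p hp
    apply hf
    intro h
    apply hp
    simp [h]

lemma mem_suppIn {A : Set X} {f : X → ZMod 2} : f ∈ suppIn A ↔ ∀ p, f p ≠ 0 → p ∈ A := Iff.rfl

lemma suppIn_mono {A A' : Set X} (h : A ⊆ A') : suppIn A ≤ suppIn A' :=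
  fun _ hf p hp => h (hf p hp)

lemma iSupIndep_suppIn {D : Type} (A : D → Set X)
    (hA : ∀ d d', d ≠ d' → Disjoint (A d) (A d')) : iSupIndep fun d => suppIn (A d) := by
  intro d
  have : (⨆ j, ⨆ (_ : j ≠ d), suppIn (A j)) ≤ suppIn (⋃ j, ⋃ (_ : j ≠ d), A j) := by
    refine iSup₂_le fun j hj => suppIn_mono ?_
    exact Set.subset_iUnion₂_of_subset j hj subset_rfl
  refine Disjoint.mono_right this ?_
  rw [Submodule.disjoint_def]
  intro f hf hf'
  funext p
  by_contra hp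
  have h1 := hf p hp
  have h2 := hf' p hp
  simp only [Set.mem_iUnion] at h2
  obtain ⟨j, hj, hpj⟩ := h2
  exact Set.disjoint_left.1 (hA j d hj) hpj h1

end SuppIn

/-! ## 7. Bridge to the statement forms of `Coh.lean` -/

section Bridge

theorem locFree_iff (N : Submodule (ZMod 2) B) : LocFree ρ N ↔ S6.LocFree ρ N := by
  constructor
  · intro h A hA
    obtain ⟨ι, _, v, hv, hli, hsp⟩ := h A hA
    obtain ⟨r, ⟨e⟩⟩ := Finite.exists_equiv_fin ι
    have heq : (fun p : Γ × Fin r => ρ p.1 (v (e.symm p.2))) =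
        orb ρ v ∘ (Prod.map id e.symm : Γ × Fin r → Γ × ι) := by
      ext p; rfl
    refine ⟨r, fun i => v (e.symm i), fun i => hv _, ?_, ?_⟩
    · rw [heq]
      exact hli.comp _ (Injective.prodMap injective_id e.symm.injective)
    · refine hsp.trans (span_mono ?_)
      rintro _ ⟨p, rfl⟩
      exact ⟨(p.1, e p.2), by simp [orb]⟩
  · intro h A hA
    obtain ⟨r, v, hv, hli, hsp⟩ := h A hA
    exact ⟨Fin r, inferInstance, v, hv, hli, hsp⟩

variable {S : Finset Γ}

theorem sc2_of_cohHyp (hS : S6.CohHyp S) : SC2 S := by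
  classical
  intro c hc
  obtain ⟨φ, hφ⟩ := hS.sc2 (fun g s => if h : s ∈ S then c (g, ⟨s, h⟩) else 0) (by
    intro g s₁ s₂ h₁ h₂ h₁₂
    have := hc g ⟨s₁, h₁⟩ ⟨s₂, h₂⟩ h₁₂
    simpa [S6.dTri, cb2, h₁, h₂, h₁₂] using this)
  refine ⟨φ, fun g s => ?_⟩
  have := hφ g s.1 s.2
  simpa [s.2] using this

theorem oneEnd_of_cohHyp (hS : S6.CohHyp S) : OneEnd S := by
  intro W hW
  refine hS.oneEnded W ((hW.image Prod.fst).subset ?_)
  rintro g ⟨hg, s, hs, hgs⟩
  exact ⟨(g, ⟨s, hs⟩), ⟨hg, hgs⟩, rfl⟩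

theorem h2c_of_cohHyp (hS : S6.CohHyp S) : H2c S := by
  classical
  intro α hα
  obtain ⟨η, hηfin, hη⟩ := hS.h2c (fun g s => if h : s ∈ S then α (g, ⟨s, h⟩) else 0) (by
    refine (hα.image Prod.fst).subset ?_
    rintro g ⟨s₁, h₁, s₂, h₂, h₁₂, hne⟩
    refine ⟨(g, ⟨s₁, h₁⟩, ⟨s₂, h₂⟩), ⟨h₁₂, ?_⟩, rfl⟩
    simpa [S6.dTri, cb2, h₁, h₂, h₁₂] using hne)
  refine ⟨fun e => η e.1 e.2.1, ?_, ?_⟩
  · refine (hηfin.prod (Set.finite_univ (α := Gn S))).subset ?_
    rintro ⟨g, s⟩ hg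
    exact ⟨⟨s.1, s.2, hg⟩, Set.mem_univ _⟩
  · intro g s₁ s₂ h
    have := hη g s₁.1 s₂.1 s₁.2 s₂.2 h
    simpa [S6.dTri, cb2, s₁.2, s₂.2, h] using this

end Bridge

end Claimed.Agent.R309.S6A
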