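import Claimed.Agent.R309.S6.MDefs
import Claimed.Agent.R309.S6.LocFree

/-! # Row 309, S6: a subspace graded by a free `Γ`-set is locally free (leaf LFGraded) -/

set_option autoImplicit false

namespace Claimed.Agent.R309.S6

variable {Γ : Type} [Group Γ]

/-- **Graded lemma.**  `G` an invariant set of functions `X → F₂`, each supported in one fibre of a
(partial, relational) equivariant grading `R : X → D → Prop`, `Γ` acting freely on `D`.
Then `span G` is locally free (even free: `S6A.isFreeOn_of_graded`). -/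
theorem locFree_of_graded {X D : Type} [MulAction Γ X] [MulAction Γ D]
    (hfree : ∀ (g : Γ) (d : D), g • d = d → g = 1)
    (R : X → D → Prop) (hfun : ∀ p d d', R p d → R p d' → d = d')
    (hR : ∀ (g : Γ) p d, R p d → R (g • p) (g • d))
    (G : Set (X → ZMod 2)) (hGinv : ∀ g : Γ, ∀ v ∈ G, funRep Γ X g v ∈ G)
    (hG : ∀ v ∈ G, ∃ d, ∀ p, v p ≠ 0 → R p d) :
    LocFree (funRep Γ X) (Submodule.span (ZMod 2) G) := by
  rw [← S6A.locFree_iff]
  refine S6A.IsFreeOn.locFree _ ?_
  have hind0 : iSupIndep fun d : D => S6A.suppIn {p : X | R p d} := by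
    refine S6A.iSupIndep_suppIn _ fun d d' hdd' => ?_
    rw [Set.disjoint_left]
    intro p hp hp'
    exact hdd' (hfun p d d' hp hp')
  refine S6A.isFreeOn_of_graded (funRep Γ X) hfree
    (fun d => Submodule.span (ZMod 2) G ⊓ S6A.suppIn {p : X | R p d})
    (hind0.mono fun d => inf_le_right) ?_ (fun d => inf_le_left) ?_
  · rintro g d m ⟨hm1, hm2⟩
    refine ⟨S6A.inv_span (funRep Γ X) hGinv g m hm1, ?_⟩
    intro p hp
    have := hR g _ _ (hm2 (g⁻¹ • p) hp)
    simpa using this
  · rw [Submodule.span_le]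
    intro γ hγ
    obtain ⟨d, hd⟩ := hG γ hγ
    exact Submodule.mem_iSup_of_mem d ⟨Submodule.subset_span hγ, hd⟩

end Claimed.Agent.R309.S6
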