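import Claimed.Agent.R309.S6.M6
import Claimed.Agent.R309.S6.LFGraded

/-! # Row 309, S6 Machine, leaf M7: `NN` (marker changes) is locally free -/

set_option autoImplicit false

namespace Claimed.Agent.R309.S6

open MedTree

variable {T : Type} [MedTree T] {Γ : Type} [Group Γ] [TreeAction Γ T]

theorem box_no_common {x y c c' z : T} (h : Box x y c c') (hz1 : Bet x z y) (hz2 : Bet c z c') :
    False := by
  obtain ⟨_, hyc, _, h1, h2⟩ := h
  have a : Bet z y c' := bet_shift h1 hz1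
  have b : Bet y z c' := bet_trans' h2 hz2
  have c3 : Bet y c z := bet_shift' h2 hz2
  have hyz : y = z := bet_antisymm' (bet_symm a) (bet_symm b)
  subst hyz
  exact hyc (bet_self c3).symm

theorem cnr_ne_zero {q : Dir T × Dir T} : cnr q ≠ 0 ↔ q.1.base = q.2.base ∧ q.1 ≠ q.2 := by
  unfold cnr; split_ifs with h <;> simp [h]

/-- `E'` kills proper boxes: two distinct directions at one point `z` cannot separate `x|y` and
`c|c'` when `x<y<c<c'` (`z ∈ [x,y] ∩ [c,c'] = ∅`). -/
theorem cornerE_W1 (Ξ : V2 T) (h : Ξ ∈ W1 T) : cornerE Ξ = 0 := by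
  induction h using Submodule.span_induction with
  | mem v hv =>
    obtain ⟨x, y, c, c', hb, rfl⟩ := hv
    funext q
    rw [cornerE_eq, boxE_bb2, Pi.zero_apply]
    by_contra hne
    have f0 : cnr q ≠ 0 := by intro h0; apply hne; rw [h0]; ring
    have f1 : ind x q.1 + ind y q.1 ≠ 0 := by intro h0; apply hne; rw [h0]; ring
    have f2 : ind c q.2 + ind c' q.2 ≠ 0 := by intro h0; apply hne; rw [h0]; ring
    have b1 := bet_base_of_ind f1
    have b2 := bet_base_of_ind f2
    rw [← (cnr_ne_zero.1 f0).1] at b2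
    exact box_no_common hb b1 b2
  | zero => simp
  | add a b _ _ ha hb => rw [map_add, ha, hb, add_zero]
  | smul c a _ ha => rw [map_smul, ha, smul_zero]

/-- a marker change whose markers lie in the same direction at `y` is a sum of two boxes
(`m = med y c c' ≠ y`: `(x+y)⊗(c+m) + (x+y)⊗(m+c')`). -/
theorem markerChange_mem_W1 {x y c c' : T} (h : Ahead x y c) (h' : Ahead x y c')
    (hm : med y c c' ≠ y) : bb x y c + bb x y c' ∈ W1 T := by
  set m := med y c c' with hmdef
  have e : bb x y c + bb x y c' = (bb x y m + bb x y c) + (bb x y m + bb x y c') := by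
    have e1 : (bb x y m + bb x y c) + (bb x y m + bb x y c') =
        (bb x y c + bb x y c') + (bb x y m + bb x y m) := by abel
    rw [e1, z2_add_self, add_zero]
  rw [e]
  refine Submodule.add_mem _ ?_ ?_
  · by_cases hmc : m = c
    · rw [hmc, z2_add_self]; exact Submodule.zero_mem _
    · exact Submodule.subset_span
        ⟨x, y, m, c, ⟨h.1, hm.symm, hmc, h.2.1, med_bet₁ y c c'⟩, rfl⟩
  · by_cases hmc : m = c'
    · rw [hmc, z2_add_self]; exact Submodule.zero_mem _
    · exact Submodule.subset_span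
        ⟨x, y, m, c', ⟨h'.1, hm.symm, hmc, h'.2.1, med_bet₃ y c c'⟩, rfl⟩

theorem Dir.eq_dirOf' {d : Dir T} {z u : T} (hb : d.base = z) (hu : u ∈ d) (hne : u ≠ z) :
    d = dirOf z u hne := by
  subst hb; exact Dir.eq_dirOf hu

theorem ind_base (d : Dir T) : ind d.base d = 0 := by
  unfold ind; rw [if_neg d.base_not_mem]

theorem ind_dirOf_self {z t : T} (h : t ≠ z) : ind t (dirOf z t h) = 1 := by
  unfold ind; rw [if_pos]; exact inDir_self h

theorem ind_dirOf_of_bet {z t u : T} (h : t ≠ z) (hb : Bet u z t) : ind u (dirOf z t h) = 0 := by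
  unfold ind; rw [if_neg]; rw [mem_dirOf, not_inDir_iff]; exact hb

theorem dirOf_ne_of_bet {z t u : T} (h : t ≠ z) (h' : u ≠ z) (hb : Bet u z t) :
    dirOf z t h ≠ dirOf z u h' := by
  intro he
  rw [dirOf_eq_iff] at he
  exact he.2 hb

/-- value of `E'` on a corner (`y ∈ [c,c']`): the indicator of `(e,f)` plus that of `(e,f')`,
`e = dir_y x`, `f = dir_y c`, `f' = dir_y c'`. -/
theorem cornerE_corner {x y c c' : T} (h : Ahead x y c) (h' : Ahead x y c') (hm : Bet c y c')
    (q : Dir T × Dir T) :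
    cornerE (bb x y c + bb x y c') q =
      (open Classical in
        (if q = (dirOf y x h.1, dirOf y c h.2.2.symm) then 1 else 0) +
        (if q = (dirOf y x h.1, dirOf y c' h'.2.2.symm) then 1 else 0)) := by
  classical
  have hff : dirOf y c h.2.2.symm ≠ dirOf y c' h'.2.2.symm :=
    dirOf_ne_of_bet _ _ (bet_symm hm)
  have hef : dirOf y x h.1 ≠ dirOf y c h.2.2.symm := dirOf_ne_of_bet _ _ (bet_symm h.2.1)
  have hef' : dirOf y x h.1 ≠ dirOf y c' h'.2.2.symm := dirOf_ne_of_bet _ _ (bet_symm h'.2.1)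
  have hy0 : ind y (dirOf y x h.1) = 0 := ind_base (dirOf y x h.1)
  rw [cornerE_eq, boxE_bb2]
  by_cases hq1 : q = (dirOf y x h.1, dirOf y c h.2.2.symm)
  · have hq2 : q ≠ (dirOf y x h.1, dirOf y c' h'.2.2.symm) := by
      rw [hq1]; intro he; exact hff (Prod.ext_iff.1 he).2
    rw [if_pos hq1, if_neg hq2, hq1]
    have hc : cnr (dirOf y x h.1, dirOf y c h.2.2.symm) = 1 := by
      unfold cnr; rw [if_pos]; exact ⟨rfl, hef⟩
    simp only [hc, ind_dirOf_self, hy0, ind_dirOf_of_bet h.2.2.symm (bet_symm hm)]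
    decide
  by_cases hq2 : q = (dirOf y x h.1, dirOf y c' h'.2.2.symm)
  · rw [if_neg hq1, if_pos hq2, hq2]
    have hc : cnr (dirOf y x h.1, dirOf y c' h'.2.2.symm) = 1 := by
      unfold cnr; rw [if_pos]; exact ⟨rfl, hef'⟩
    simp only [hc, ind_dirOf_self, hy0, ind_dirOf_of_bet h'.2.2.symm hm]
    decide
  rw [if_neg hq1, if_neg hq2, add_zero]
  by_contra hne
  have f0 : cnr q ≠ 0 := by intro h0; apply hne; rw [h0]; ring
  have f1 : ind x q.1 + ind y q.1 ≠ 0 := by intro h0; apply hne; rw [h0]; ring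
  have f2 : ind c q.2 + ind c' q.2 ≠ 0 := by intro h0; apply hne; rw [h0]; ring
  have b1 := bet_base_of_ind f1
  have b2 := bet_base_of_ind f2
  have hbase := (cnr_ne_zero.1 f0).1
  rw [← hbase] at b2
  have hz : q.1.base = y := by
    rcases bet_cases y b2 with hh | hh
    · exact bet_antisymm h.2.1 b1 (bet_symm hh)
    · exact bet_antisymm h'.2.1 b1 hh
  have hz2 : q.2.base = y := hbase ▸ hz
  have hx : x ∈ q.1 := by
    rcases ind_add_ne_zero.1 f1 with ⟨h1, _⟩ | ⟨_, h2⟩
    · exact h1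
    · exact absurd (hz ▸ h2) q.1.base_not_mem
  have he : q.1 = dirOf y x h.1 := Dir.eq_dirOf' hz hx h.1
  rcases ind_add_ne_zero.1 f2 with ⟨h1, _⟩ | ⟨_, h2⟩
  · exact hq1 (Prod.ext he (Dir.eq_dirOf' hz2 h1 h.2.2.symm))
  · exact hq2 (Prod.ext he (Dir.eq_dirOf' hz2 h2 h'.2.2.symm))

theorem ahead_congr {x y c c₁ : T} (h : Ahead x y c) (hc : InDir y c c₁) : Ahead x y c₁ := by
  refine ⟨h.1, ?_, hc.ne.symm⟩
  rw [← not_inDir_iff, ← inDir_congr hc, not_inDir_iff]
  exact h.2.1

theorem ahead_congr_left {x y c x₁ : T} (h : Ahead x y c) (hx : InDir y x x₁) : Ahead x₁ y c := by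
  refine ⟨hx.ne, ?_, h.2.2⟩
  rw [← not_inDir_iff]
  intro hi
  have : InDir y c x := hi.trans hx.symm
  exact this.2 h.2.1

theorem med_ne_of_inDir {y c c₁ : T} (h : InDir y c c₁) : med y c c₁ ≠ y := by
  intro he
  have := med_bet₂ y c c₁
  rw [he] at this
  exact h.2 (bet_symm this)

/-- moving the tail of the arc: `(x + x₁) ⊗ (c + c')` lies in `W1` -/
theorem tailChange_mem_W1 {x y c c' x₁ : T} (h : Ahead x y c) (h' : Ahead x y c')
    (hx : InDir y x x₁) :
    (bb x y c + bb x y c') + (bb x₁ y c + bb x₁ y c') ∈ W1 T := by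
  set m := med y x x₁ with hmdef
  have hmy : m ≠ y := med_ne_of_inDir hx
  have key : ∀ {u : T}, Ahead u y c → Ahead u y c' → Bet u m y →
      bb u m c + bb u m c' ∈ W1 T := by
    intro u hu hu' hum
    by_cases hne : u = m
    · rw [← hne, bb_self, bb_self, add_zero]; exact Submodule.zero_mem _
    have aux : ∀ {k : T}, Ahead u y k → Ahead u m k ∧ InDir m y k := by
      intro k hk
      have h1 : Bet u m k := bet_trans hk.2.1 hum
      have h2 : Bet m y k := bet_shift hk.2.1 hum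
      have h3 : m ≠ k := by
        rintro rfl
        exact hmy (bet_self h2).symm
      refine ⟨⟨hne, h1, h3⟩, h3.symm, fun hb => ?_⟩
      exact hmy (bet_antisymm' hb (bet_symm h2))
    obtain ⟨a1, a2⟩ := aux hu
    obtain ⟨a1', a2'⟩ := aux hu'
    exact markerChange_mem_W1 a1 a1' (med_ne_of_inDir (a2.symm.trans a2'))
  have k1 := key h h' (bet_symm (med_bet₁ y x x₁))
  have k2 := key (ahead_congr_left h hx) (ahead_congr_left h' hx) (bet_symm (med_bet₃ y x x₁))
  have e : (bb x y c + bb x y c') + (bb x₁ y c + bb x₁ y c') =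
      (bb x m c + bb x m c') + (bb x₁ m c + bb x₁ m c') := by
    rw [bb_split x m y c, bb_split x m y c', bb_split x₁ m y c, bb_split x₁ m y c']
    have e1 : bb x m c + bb m y c + (bb x m c' + bb m y c') +
        (bb x₁ m c + bb m y c + (bb x₁ m c' + bb m y c')) =
        (bb x m c + bb x m c') + (bb x₁ m c + bb x₁ m c') +
          ((bb m y c + bb m y c) + (bb m y c' + bb m y c')) := by abel
    rw [e1, z2_add_self, z2_add_self, add_zero, add_zero]
  rw [e]
  exact Submodule.add_mem _ k1 k2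

/-- modulo `W1` a corner only depends on its three directions -/
theorem corner_congr {x y c c' x₁ c₁ c₁' : T} (h : Ahead x y c) (h' : Ahead x y c')
    (hx : InDir y x x₁) (hc : InDir y c c₁) (hc' : InDir y c' c₁') :
    (bb x y c + bb x y c') + (bb x₁ y c₁ + bb x₁ y c₁') ∈ W1 T := by
  have g1 := ahead_congr h hc
  have g1' := ahead_congr h' hc'
  have A := markerChange_mem_W1 h g1 (med_ne_of_inDir hc)
  have A' := markerChange_mem_W1 h' g1' (med_ne_of_inDir hc')
  have D := tailChange_mem_W1 g1 g1' hx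
  have e : (bb x y c + bb x y c') + (bb x₁ y c₁ + bb x₁ y c₁') =
      (bb x y c + bb x y c₁) + (bb x y c' + bb x y c₁') +
        ((bb x y c₁ + bb x y c₁') + (bb x₁ y c₁ + bb x₁ y c₁')) := by
    have e1 : (bb x y c + bb x y c₁) + (bb x y c' + bb x y c₁') +
        ((bb x y c₁ + bb x y c₁') + (bb x₁ y c₁ + bb x₁ y c₁')) =
        (bb x y c + bb x y c') + (bb x₁ y c₁ + bb x₁ y c₁') +
          ((bb x y c₁ + bb x y c₁) + (bb x y c₁' + bb x y c₁')) := by abel
    rw [e1, z2_add_self, z2_add_self, add_zero, add_zero]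
  rw [e]
  exact Submodule.add_mem _ (Submodule.add_mem _ A A') D

theorem Dir.exists_mem (d : Dir T) : ∃ u, u ∈ d := by
  obtain ⟨t, h, hd⟩ := d.exists_rep
  exact ⟨t, by rw [hd, mem_dirOf]; exact inDir_self h⟩

/-- `NN ∩ ker E' ⊆ W1`.  Span induction with the predicate
`P Ξ := ∃ ζ : Dir T × Dir T →₀ ZMod 2, cornerE Ξ = ⇑ζ ∧ Ξ + L ζ ∈ W1 T`, where `L` is the linear map
with `L (e,f) = (x_e + base) ⊗ c_f` for chosen points `x_e ∈ e`, `c_f ∈ f`. -/
theorem NN_ker_cornerE (_hnt : ∀ x y : T, x ≠ y → ∃ c, c ≠ y ∧ Bet x y c)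
    (Ξ : V2 T) (h : Ξ ∈ NN T) (h0 : cornerE Ξ = 0) : Ξ ∈ W1 T := by
  classical
  choose pt hpt using fun d : Dir T => d.exists_mem
  let L : (Dir T × Dir T →₀ ZMod 2) →ₗ[ZMod 2] V2 T :=
    Finsupp.linearCombination (ZMod 2) fun q : Dir T × Dir T => bb (pt q.1) q.1.base (pt q.2)
  have hP : ∀ Ξ ∈ NN T, ∃ ζ : Dir T × Dir T →₀ ZMod 2, cornerE Ξ = ⇑ζ ∧ Ξ + L ζ ∈ W1 T := by
    intro Ξ h
    induction h using Submodule.span_induction with
    | mem v hv =>
      obtain ⟨x, y, c, c', ha, ha', rfl⟩ := hv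
      by_cases hm : med y c c' = y
      · have hb : Bet c y c' := by
          have := med_bet₂ y c c'
          rwa [hm] at this
        refine ⟨Finsupp.single (dirOf y x ha.1, dirOf y c ha.2.2.symm) 1 +
          Finsupp.single (dirOf y x ha.1, dirOf y c' ha'.2.2.symm) 1, ?_, ?_⟩
        · funext q
          rw [cornerE_corner ha ha' hb, Finsupp.add_apply, Finsupp.single_apply,
            Finsupp.single_apply]
          simp only [eq_comm]
        · have hL : L (Finsupp.single (dirOf y x ha.1, dirOf y c ha.2.2.symm) 1 +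
              Finsupp.single (dirOf y x ha.1, dirOf y c' ha'.2.2.symm) 1) =
              bb (pt (dirOf y x ha.1)) y (pt (dirOf y c ha.2.2.symm)) +
              bb (pt (dirOf y x ha.1)) y (pt (dirOf y c' ha'.2.2.symm)) := by
            simp [L, Finsupp.linearCombination_single]
          rw [hL]
          exact corner_congr ha ha' ((mem_dirOf ha.1).1 (hpt (dirOf y x ha.1)))
            ((mem_dirOf ha.2.2.symm).1 (hpt (dirOf y c ha.2.2.symm)))
            ((mem_dirOf ha'.2.2.symm).1 (hpt (dirOf y c' ha'.2.2.symm)))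
      · have hW := markerChange_mem_W1 ha ha' hm
        exact ⟨0, by rw [cornerE_W1 _ hW]; rfl, by simpa using hW⟩
    | zero => exact ⟨0, by simp, by simp⟩
    | add a b _ _ ha hb =>
      obtain ⟨ζ₁, h1, h1'⟩ := ha
      obtain ⟨ζ₂, h2, h2'⟩ := hb
      refine ⟨ζ₁ + ζ₂, by rw [map_add, h1, h2, Finsupp.coe_add], ?_⟩
      have e : a + b + L (ζ₁ + ζ₂) = (a + L ζ₁) + (b + L ζ₂) := by rw [map_add]; abel
      rw [e]
      exact Submodule.add_mem _ h1' h2'
    | smul r a _ ha =>
      obtain ⟨ζ, h1, h1'⟩ := ha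
      refine ⟨r • ζ, by rw [map_smul, h1, Finsupp.coe_smul], ?_⟩
      have e : r • a + L (r • ζ) = r • (a + L ζ) := by rw [map_smul, smul_add]
      rw [e]
      exact Submodule.smul_mem _ _ h1'
  obtain ⟨ζ, h1, h2⟩ := hP Ξ h
  have hζ : ζ = 0 := by
    apply DFunLike.coe_injective
    rw [← h1, h0]; rfl
  rw [hζ, map_zero, add_zero] at h2
  exact h2

/-- `E'(NN)` is locally free: `locFree_of_graded` with `X = Dir T × Dir T`, `D = Dir T`,
`R (e,f) d := e = d`. -/
theorem locFree_cornerE_NN (htf : ∀ g : Γ, g ≠ 1 → ∀ n : ℕ, 0 < n → g ^ n ≠ 1)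
    (hM : MachineHyp Γ T) : LocFree (funRep Γ (Dir T × Dir T)) ((NN T).map cornerE) := by
  classical
  have hmap : (NN T).map cornerE = Submodule.span (ZMod 2)
      (cornerE '' {v : V2 T | ∃ x y c c', Ahead x y c ∧ Ahead x y c' ∧
        v = bb x y c + bb x y c'}) := by
    unfold NN; rw [Submodule.map_span]
  rw [hmap]
  refine locFree_of_graded (dir_free htf hM) (fun (p : Dir T × Dir T) (d : Dir T) => p.1 = d)
    (fun p d d' h h' => h.symm.trans h') (fun g p d h => by rw [← h]; rfl) _ ?_ ?_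
  · rintro g _ ⟨_, ⟨x, y, c, c', ha, ha', rfl⟩, rfl⟩
    refine ⟨_, ⟨g • x, g • y, g • c, g • c', ha.smul g, ha'.smul g, rfl⟩, ?_⟩
    rw [← cornerE_smul, rho2_bb2]
  · rintro _ ⟨_, ⟨x, y, c, c', ha, ha', rfl⟩, rfl⟩
    refine ⟨dirOf y x ha.1, fun p hp => ?_⟩
    by_cases hm : med y c c' = y
    · have hb : Bet c y c' := by
        have := med_bet₂ y c c'
        rwa [hm] at this
      rw [cornerE_corner ha ha' hb] at hp
      by_cases h1 : p = (dirOf y x ha.1, dirOf y c ha.2.2.symm)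
      · rw [h1]
      by_cases h2 : p = (dirOf y x ha.1, dirOf y c' ha'.2.2.symm)
      · rw [h2]
      rw [if_neg h1, if_neg h2] at hp
      exact absurd (add_zero _) hp
    · rw [cornerE_W1 _ (markerChange_mem_W1 ha ha' hm)] at hp
      exact absurd rfl hp

/-- **M7.** -/
theorem locFree_NN [Nontrivial T] (htf : ∀ g : Γ, g ≠ 1 → ∀ n : ℕ, 0 < n → g ^ n ≠ 1)
    (hM : MachineHyp Γ T) : LocFree (rho2 Γ T) (NN T) :=
  LocFree.of_map (rho2 Γ T) (funRep Γ (Dir T × Dir T)) cornerE (fun g m => cornerE_smul g m)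
    (W1 T) (NN T) W1_le_NN cornerE_W1 (NN_ker_cornerE hM.nonterminal) NN_inv
    (locFree_W1 htf hM) (locFree_cornerE_NN htf hM)

end Claimed.Agent.R309.S6
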