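import Claimed.Agent.R309.S6.LocFree

set_option autoImplicit false

namespace Claimed.Agent.R309.S6

open Set

variable {Γ : Type} [Group Γ]
variable {M : Type} [AddCommGroup M] [Module (ZMod 2) M]

/-- **(Z1)** cocycles with values in a locally free invariant subspace are coboundaries.
Proof: values lie in `span (ρ g v_i)`; `λ_i` = coordinate functional of `ρ 1 v_i`;
`a_i g s = λ_i (ρ g (ψ s))` is a finitely supported cocycle, `= grad φ_i` (`sc2`), `φ_i` or `φ_i+1`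
finitely supported (`oneEnded`, `inf`); `m = Σ φ_i g • ρ g⁻¹ v_i`. -/
theorem LocFree.cocycle_coboundary {S : Finset Γ} (hS : CohHyp S)
    {ρ : Representation (ZMod 2) Γ M} {N : Submodule (ZMod 2) M} (hN : LocFree ρ N)
    (hinv : ∀ g, ∀ n ∈ N, ρ g n ∈ N)
    (ψ : Γ → M) (hψ : ∀ s ∈ S, ψ s ∈ N)
    (hc : ∀ s₁ ∈ S, ∀ s₂ ∈ S, s₁ * s₂ ∈ S → dEq ρ ψ s₁ s₂ = 0) :
    ∃ m ∈ N, ∀ s ∈ S, ψ s = ρ s m + m := by
  obtain ⟨m, hm, h⟩ := S6A.LocFree.z1 ρ (S6A.sc2_of_cohHyp hS) (S6A.oneEnd_of_cohHyp hS) hinv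
    ((S6A.locFree_iff ρ N).2 hN) (fun s => ψ s.1) (fun s => hψ s.1 s.2)
    (fun s₁ s₂ h => hc s₁.1 s₁.2 s₂.1 s₂.2 h)
  exact ⟨m, hm, fun s hs => h ⟨s, hs⟩⟩

end Claimed.Agent.R309.S6
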