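import Claimed.Agent.R309.S6.LocFree

set_option autoImplicit false

namespace Claimed.Agent.R309.S6

open Set

variable {Γ : Type} [Group Γ]
variable {M : Type} [AddCommGroup M] [Module (ZMod 2) M]

/-- **(Z2)** if `dψ` takes values in a locally free invariant subspace `N` of `M`, then `dψ = dw`
with `w` taking values in `N`.
Proof: the finitely many values of `dψ` lie in `span (ρ g v_i)`; extend the coordinate functional of
`ρ 1 v_i` to a linear functional `λ_i` on `M`; `α_i g s = λ_i (ρ g (ψ s))`; `dTri α_i` is finitely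
supported; `h2c` gives `η_i`; `w s = Σ η_i g s • ρ g⁻¹ v_i`. -/
theorem LocFree.lift_coboundary {S : Finset Γ} (hS : CohHyp S)
    {ρ : Representation (ZMod 2) Γ M} {N : Submodule (ZMod 2) M} (hN : LocFree ρ N)
    (hinv : ∀ g, ∀ n ∈ N, ρ g n ∈ N)
    (ψ : Γ → M)
    (hd : ∀ s₁ ∈ S, ∀ s₂ ∈ S, s₁ * s₂ ∈ S → dEq ρ ψ s₁ s₂ ∈ N) :
    ∃ w : Γ → M, (∀ s, w s ∈ N) ∧
      ∀ s₁ ∈ S, ∀ s₂ ∈ S, s₁ * s₂ ∈ S → dEq ρ w s₁ s₂ = dEq ρ ψ s₁ s₂ := by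
  classical
  obtain ⟨w, hw, h⟩ := S6A.LocFree.z2 ρ (S6A.h2c_of_cohHyp hS) hinv
    ((S6A.locFree_iff ρ N).2 hN) (fun s => ψ s.1) (fun s₁ s₂ h => hd s₁.1 s₁.2 s₂.1 s₂.2 h)
  refine ⟨fun s => if hs : s ∈ S then w ⟨s, hs⟩ else 0, fun s => ?_, ?_⟩
  · by_cases hs : s ∈ S
    · simp only [hs, dif_pos]; exact hw _
    · simp only [hs, dif_neg, not_false_iff]; exact N.zero_mem
  · intro s₁ h₁ s₂ h₂ h₁₂
    have := h ⟨s₁, h₁⟩ ⟨s₂, h₂⟩ h₁₂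
    simpa [dEq, S6A.dcb, h₁, h₂, h₁₂] using this

end Claimed.Agent.R309.S6
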