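import Claimed.Agent.R309.S6.M5
import Claimed.Agent.R309.S6.M7
import Claimed.Agent.R309.S6.Z1
import Claimed.Agent.R309.S6.Z2

/-! # Row 309, S6: the MACHINE (assembly of the leaves) -/

set_option autoImplicit false

namespace Claimed.Agent.R309.S6

open MedTree

variable {T : Type} [MedTree T] {Γ : Type} [Group Γ] [TreeAction Γ T]

theorem exists_beyond [Nontrivial T] (hM : MachineHyp Γ T) (a b : T) : ∃ μ, Beyond a b μ := by
  by_cases h : a = b
  · subst h
    obtain ⟨μ, hμ⟩ := exists_ne a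
    exact ⟨μ, bet_left _ _, hμ⟩
  · obtain ⟨c, hc, hb⟩ := hM.nonterminal a b h
    exact ⟨c, hb, hc⟩

/-- a vector fixed by the generators is fixed by the group -/
theorem fixed_of_gen {M : Type} [AddCommGroup M] [Module (ZMod 2) M]
    (ρ : Representation (ZMod 2) Γ M) {S : Finset Γ} (hgen : Subgroup.closure (S : Set Γ) = ⊤)
    (ξ : M) (h : ∀ s ∈ S, ρ s ξ = ξ) (g : Γ) : ρ g ξ = ξ := by
  have hg : g ∈ Subgroup.closure (S : Set Γ) := by rw [hgen]; trivial
  induction hg using Subgroup.closure_induction with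
  | mem x hx => exact h x hx
  | one => simp
  | mul x y _ _ hx hy => rw [map_mul, Module.End.mul_apply, hy, hx]
  | inv x _ hx =>
    have : ρ x⁻¹ (ρ x ξ) = ξ := by
      rw [← Module.End.mul_apply, ← map_mul]; simp
    rwa [hx] at this

/-- an invariant nonzero element of `F₂[T]` gives a fixed point -/
theorem fixed_of_invariant_vector [Infinite Γ]
    (htf : ∀ g : Γ, g ≠ 1 → ∀ n : ℕ, 0 < n → g ^ n ≠ 1) (hM : MachineHyp Γ T)
    (ξ : V1 T) (hne : ξ ≠ 0) (h : ∀ g : Γ, rho1 Γ T g ξ = ξ) : ∃ z : T, ∀ g : Γ, g • z = z := by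
  refine fixed_of_finite_invariant htf hM ξ.support (Finsupp.support_nonempty_iff.mpr hne) ?_
  intro g x hx
  rw [Finsupp.mem_support_iff] at hx ⊢
  have := congrArg (fun f => f (g • x)) (h g)
  simp only [rho1, permRep_apply, inv_smul_smul] at this
  rwa [← this]

/-- **THE MACHINE.** -/
theorem machine {S : Finset Γ} (hS : CohHyp S) (hM : MachineHyp Γ T) [Nonempty T] :
    ∃ z : T, ∀ g : Γ, g • z = z := by
  classical
  have := hS.inf
  rcases subsingleton_or_nontrivial T with hsub | hnt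
  · exact ⟨Classical.arbitrary T, fun g => Subsingleton.elim _ _⟩
  set z0 : T := Classical.arbitrary T with hz0
  choose bey hbey using exists_beyond (Γ := Γ) hM
  set χ : Γ → V2 T := fun s => chiEl z0 (s • z0) (bey z0 (s • z0)) (bey (s • z0) z0) with hχ
  -- `dχ ∈ NN`
  have hdχ : ∀ s₁ ∈ S, ∀ s₂ ∈ S, s₁ * s₂ ∈ S → dEq (rho2 Γ T) χ s₁ s₂ ∈ NN T := by
    intro s₁ _ s₂ _ _
    simp only [dEq, hχ, rho2_chiEl, mul_smul]
    exact tripod_mem_NN (hbey _ _) (hbey _ _) ((hbey _ _).smul s₁) ((hbey _ _).smul s₁)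
      (hbey _ _) (hbey _ _)
  obtain ⟨w, hwN, hdw⟩ := (locFree_NN hS.tf hM).lift_coboundary hS NN_inv χ hdχ
  -- the cocycle `ψ = χ + w`
  have hψW : ∀ s ∈ S, χ s + w s ∈ W0 T := fun s _ =>
    (W0 T).add_mem (chiEl_mem_W0 (hbey _ _) (hbey _ _)) (NN_le_W0 (hwN s))
  have hψc : ∀ s₁ ∈ S, ∀ s₂ ∈ S, s₁ * s₂ ∈ S → dEq (rho2 Γ T) (fun s => χ s + w s) s₁ s₂ = 0 := by
    intro s₁ h₁ s₂ h₂ h₁₂
    have h := hdw s₁ h₁ s₂ h₂ h₁₂
    have : dEq (rho2 Γ T) (fun s => χ s + w s) s₁ s₂ =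
        dEq (rho2 Γ T) χ s₁ s₂ + dEq (rho2 Γ T) w s₁ s₂ := by
      simp only [dEq, map_add]; abel
    rw [this, h]; exact z2_add_self _
  obtain ⟨m0, hm0, hm⟩ := (locFree_W0 hS.tf hM).cocycle_coboundary hS W0_inv _ hψW hψc
  -- `pr1 m0` is invariant
  have hpr : ∀ s ∈ S, rho1 Γ T s (pr1 m0) = pr1 m0 := by
    intro s hs
    have h := congrArg pr1 (hm s hs)
    rw [map_add, map_add, pr1_chiEl, pr1_NN _ (hwN s), pr1_smul, zero_add] at h
    exact z2_add_eq_zero.mp h.symm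
  by_cases h1 : pr1 m0 = 0
  swap
  · exact fixed_of_invariant_vector hS.tf hM _ h1 (fixed_of_gen _ hS.gen _ hpr)
  have h2 : pr2 m0 = 0 := pr2_W0 _ hm0
  set m : V1 T := theta z0 m0 with hmdef
  have hinv : ∀ s ∈ S, rho1 Γ T s (Finsupp.single z0 1 + m) = Finsupp.single z0 1 + m := by
    intro s hs
    have h := congrArg (theta z0) (hm s hs)
    rw [map_add, map_add, theta_chiEl (hbey _ _) (hbey _ _), theta_NN _ _ (hwN s), add_zero,
      theta_indep (rho2 Γ T s m0) (by rw [pr1_smul, h1, map_zero]) (by rw [pr2_smul, h2, map_zero])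
        z0 (s • z0), theta_smul, ← hmdef] at h
    have h3 : rho1 Γ T s (Finsupp.single z0 1) = Finsupp.single (s • z0) 1 := by
      simp [rho1]
    rw [map_add, h3]
    -- `z0 + s z0 = s m + m`
    have : (Finsupp.single (s • z0) 1 + rho1 Γ T s m) + (Finsupp.single z0 1 + m) = 0 := by
      have e : (Finsupp.single (s • z0) 1 + rho1 Γ T s m) + (Finsupp.single z0 1 + m) =
          (Finsupp.single z0 1 + Finsupp.single (s • z0) 1) + (rho1 Γ T s m + m) := by abel
      rw [e, h]; exact z2_add_self _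
    exact z2_add_eq_zero.mp this
  refine fixed_of_invariant_vector hS.tf hM _ ?_ (fixed_of_gen _ hS.gen _ hinv)
  intro h0
  have h := congrArg aug1 h0
  rw [map_add, aug1_theta_W0 _ _ hm0, map_zero, add_zero] at h
  simp [aug1] at h

end Claimed.Agent.R309.S6
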