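import Claimed.Agent.R309.S6.FeTree
import Claimed.Agent.R309.S6.M8

/-!
# Row 309, new Section 6: the dense case

Owner: helper173.  Prefix `t3_`.  `R` an invariant convex equivalence relation on `FeQ B = B/~`.
If `R.Q` is a dense tree, then `Inn R.Q` satisfies `MachineHyp` (`t3_machineHyp`); (T3) comes from the key
dynamical lemma `cd9_key`.  Hence (`t3_dense_hasFix`) `R` has an invariant class.
-/

set_option autoImplicit false

namespace Claimed.Agent.R309.S6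

open MedTree Set

/-! ### finite subsets of `Sp x y` -/

section Order

variable {B : Type*} [TopologicalSpace B] [PreconnectedSpace B]

/-- a finite nonempty subset of `Sp x y` has a first element -/
theorem t3_exists_min {x y : B} (F : Finset B) (hF : ∀ t ∈ F, SepBy t x y) (hne : F.Nonempty) :
    ∃ p ∈ F, ∀ t ∈ F, t ≠ p → SepBy p x t := by
  classical
  induction hne using Finset.Nonempty.cons_induction with
  | singleton a => exact ⟨a, by simp, fun t ht h => absurd (by simpa using ht) h⟩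
  | cons a s ha hs ih =>
    obtain ⟨p, hp, hmin⟩ := ih fun t ht => hF t (Finset.mem_cons.2 (Or.inr ht))
    have hap : a ≠ p := fun h => ha (h ▸ hp)
    rcases ct_K3 (hF a (Finset.mem_cons.2 (Or.inl rfl))) (hF p (Finset.mem_cons.2 (Or.inr hp))) hap
      with h | h
    · refine ⟨a, Finset.mem_cons.2 (Or.inl rfl), fun t ht hta => ?_⟩
      rcases Finset.mem_cons.1 ht with rfl | ht
      · exact absurd rfl hta
      · by_cases htp : t = p
        · rw [htp]; exact h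
        · exact ct_K2 (hmin t ht htp) h
    · refine ⟨p, Finset.mem_cons.2 (Or.inr hp), fun t ht htp => ?_⟩
      rcases Finset.mem_cons.1 ht with rfl | ht
      · exact h
      · exact hmin t ht htp

/-- between the first and the last -/
theorem t3_mid {x y p q r : B} (hr : SepBy r x y) (hp : SepBy p x r) (hq : SepBy q y r) :
    SepBy r p q := by
  rcases hr.cotrans hp.ne_right.symm with h | h
  · exact absurd h (ct_asymm hp)
  · rcases h.cotrans hq.ne_right.symm with h' | h'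
    · exact h'
    · exact absurd h'.symm (ct_asymm hq)

/-- four points in order in an infinite subset of `Sp x y` -/
theorem t3_four {x y : B} {L : Set B} (hL : L.Infinite) (hsub : L ⊆ Sp x y) :
    ∃ p q r r', p ∈ L ∧ q ∈ L ∧ r ∈ L ∧ r' ∈ L ∧ r ≠ r' ∧ SepBy p x r ∧ SepBy p x r' ∧
      SepBy q y r ∧ SepBy q y r' ∧ SepBy r p q ∧ SepBy r' p q := by
  classical
  obtain ⟨F, hFL, hcard⟩ := hL.exists_subset_card_eq 4
  have hne : F.Nonempty := Finset.card_pos.1 (by omega)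
  obtain ⟨p, hpF, hp⟩ := t3_exists_min (x := x) (y := y) F (fun t ht => hsub (hFL ht)) hne
  obtain ⟨q, hqF, hq⟩ := t3_exists_min (x := y) (y := x) F (fun t ht => (hsub (hFL ht)).symm) hne
  have h2 : 1 < ((F.erase p).erase q).card := by
    have h1 := Finset.pred_card_le_card_erase (s := F) (a := p)
    have h2 := Finset.pred_card_le_card_erase (s := F.erase p) (a := q)
    omega
  obtain ⟨r, hr, r', hr', hne'⟩ := Finset.one_lt_card.1 h2
  have hr1 := Finset.mem_erase.1 hr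
  have hr2 := Finset.mem_erase.1 hr1.2
  have hr1' := Finset.mem_erase.1 hr'
  have hr2' := Finset.mem_erase.1 hr1'.2
  exact ⟨p, q, r, r', hFL hpF, hFL hqF, hFL hr2.2, hFL hr2'.2, hne', hp r hr2.2 hr2.1,
    hp r' hr2'.2 hr2'.1, hq r hr2.2 hr1.1, hq r' hr2'.2 hr1'.1,
    t3_mid (hsub (hFL hr2.2)) (hp r hr2.2 hr2.1) (hq r hr2.2 hr1.1),
    t3_mid (hsub (hFL hr2'.2)) (hp r' hr2'.2 hr2'.1) (hq r' hr2'.2 hr1'.1)⟩

end Order

/-! ### tree calculus -/

section TreeCalc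

variable {T : Type} [MedTree T]

/-- `A - c - d - E`, `c ≠ d` -/
theorem t3_concat {A c d E : T} (h1 : Bet A c d) (h2 : Bet c d E) (hcd : c ≠ d) : Bet A d E := by
  rcases tq_bet_or (x := A) h2 with h | h
  · exact absurd (bet_antisymm' h1 h) hcd
  · exact h

/-- `X - A - c - d - E` -/
theorem t3_chain {X A c d E : T} (h0 : Bet X A E) (h1 : Bet A c d) (h2 : Bet c d E) (hcd : c ≠ d) :
    Bet X c d := by
  have h3 : Bet A d E := t3_concat h1 h2 hcd
  have h4 : Bet A c E := bet_trans h3 h1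
  have h5 : Bet E c X := bet_trans (bet_symm h0) (bet_symm h4)
  exact bet_symm (bet_shift h5 (bet_symm h2))

/-- two points of a segment come in one of the two orders -/
theorem t3_orient {A E c d : T} (hc : Bet A c E) (hd : Bet A d E) :
    (Bet A c d ∧ Bet c d E) ∨ (Bet A d c ∧ Bet d c E) := by
  rcases bet_cases d hc with h | h
  · exact Or.inl ⟨h, bet_shift hd h⟩
  · refine Or.inr ⟨?_, h⟩
    exact bet_symm (bet_shift (bet_symm hd) (bet_symm h))

end TreeCalc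

/-! ### the projection `B → R.Q` -/

variable {B : Type} [TopologicalSpace B] [PreconnectedSpace B] [CompactSpace B]

/-- the projection `B → R.Q` -/
noncomputable def CRel.bp (R : CRel (FeQ B)) (x : B) : R.Q := R.pr (fq x)

theorem CRel.bp_surj (R : CRel (FeQ B)) (X : R.Q) : ∃ x, R.bp x = X := by
  obtain ⟨Y, rfl⟩ := R.pr_surj X
  obtain ⟨x, rfl⟩ := fq_surj Y
  exact ⟨x, rfl⟩

theorem CRel.bp_bet_of_bt (R : CRel (FeQ B)) {p x y : B} (h : Bt x p y) :
    Bet (R.bp x) (R.bp p) (R.bp y) := R.bet_pr_of_bet (ft_bet_fq.2 h)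

theorem CRel.bp_bet (R : CRel (FeQ B)) {p x y : B} (h : SepBy p x y) :
    Bet (R.bp x) (R.bp p) (R.bp y) := R.bet_pr_of_bet (ft_bet_of_sepBy h)

theorem CRel.bp_eq_of_fe (R : CRel (FeQ B)) {x y : B} (h : fe x y) : R.bp x = R.bp y := by
  unfold CRel.bp; rw [fq_eq_fq.2 h]

/-- lift of a point of a segment -/
theorem CRel.bp_lift (R : CRel (FeQ B)) {x z : B} {Y : R.Q} (h : Bet (R.bp x) Y (R.bp z)) :
    ∃ y, R.bp y = Y ∧ Bt x y z := by
  obtain ⟨Y', rfl⟩ := R.pr_surj Y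
  obtain ⟨Y'', hY, hb⟩ := R.bet_pr_iff_exists.1 h
  obtain ⟨y, rfl⟩ := fq_surj Y''
  exact ⟨y, R.pr_eq_pr.2 hY, ft_bet_fq.1 hb⟩

/-- everything behind `γ` is separated from `r` by `p` -/
theorem t3_behind (R : CRel (FeQ B)) {p γ r y : B} (h : SepBy p γ r) (hp : R.bp p ≠ R.bp γ)
    (hy : Bet (R.bp y) (R.bp γ) (R.bp r)) : SepBy p y r := by
  have hb : Bet (R.bp γ) (R.bp p) (R.bp r) := R.bp_bet h
  have hyp : y ≠ p := by
    rintro rfl
    exact hp (bet_antisymm' (bet_symm hb) (bet_symm hy))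
  rcases h.cotrans hyp with h1 | h1
  · exfalso
    have h2 : Bet (R.bp γ) (R.bp p) (R.bp y) := R.bp_bet h1
    have h3 : Bet (R.bp p) (R.bp γ) (R.bp y) := bet_shift (bet_symm hy) (bet_symm hb)
    exact hp (bet_antisymm' (bet_symm h2) (bet_symm h3))
  · exact h1

/-- in the dense case there are infinitely many cut points strictly between two classes -/
theorem t3_infinite (R : CRel (FeQ B)) (hd : IsDenseTree R.Q) {γ δ : B} (h : R.bp γ ≠ R.bp δ) :
    ∃ L : Set B, L.Infinite ∧ L ⊆ Sp γ δ ∧ ∀ t ∈ L, R.bp t ≠ R.bp γ ∧ R.bp t ≠ R.bp δ := by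
  obtain ⟨c₁, hc₁c, hc₁d, hb₁⟩ := hd _ _ h
  obtain ⟨γ₁, rfl, hγ₁⟩ := R.bp_lift hb₁
  obtain ⟨d₁, hd₁c, hd₁d, hb₂⟩ := hd _ _ hc₁d
  obtain ⟨δ₁, rfl, hδ₁⟩ := R.bp_lift hb₂
  have hb₃ : Bt γ γ₁ δ₁ := by
    have h1 : Bet (fq δ) (fq γ₁) (fq γ) := bet_symm (ft_bet_fq.2 hγ₁)
    have h2 : Bet (fq δ) (fq δ₁) (fq γ₁) := bet_symm (ft_bet_fq.2 hδ₁)
    exact ft_bet_fq.1 (bet_symm (bet_shift h1 h2))
  have hfin := ct_sp_collinear_finite hb₃ hδ₁
  have hinf : (Sp γ₁ δ₁).Infinite := fun hf => hd₁c (R.bp_eq_of_fe hf).symm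
  refine ⟨Sp γ₁ δ₁ \ (Sp γ₁ δ₁ \ Sp γ δ), hinf.sdiff hfin, ?_, ?_⟩
  · rintro t ⟨ht, ht'⟩
    by_contra hcon
    exact ht' ⟨ht, hcon⟩
  · rintro t ⟨ht, -⟩
    have hbt : Bet (R.bp γ₁) (R.bp t) (R.bp δ₁) := R.bp_bet ht
    constructor
    · intro he
      rw [he] at hbt
      exact hc₁c (bet_antisymm' (bet_symm (R.bp_bet_of_bt hb₃)) (bet_symm hbt))
    · intro he
      rw [he] at hbt
      exact hd₁d (bet_antisymm' hb₂ hbt)

/-! ### (T3) -/

section Dyn

variable {Γ : Type} [Group Γ] [MulAction Γ B] [ContinuousConstSMul Γ B]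

theorem ICRel.smul_bp (R : ICRel Γ (FeQ B)) (g : Γ) (x : B) :
    g • R.toCRel.bp x = R.toCRel.bp (g • x) := rfl

/-- an inner point can be prolonged -/
theorem t3_prolong {T : Type} [MedTree T] {a : T} (ha : IsInner a) (b : T) :
    ∃ a', a' ≠ a ∧ Bet a' a b := by
  obtain ⟨a₁, a₂, h₁, h₂, h⟩ := ha
  rcases tq_bet_or (x := b) h with h' | h'
  · exact ⟨a₁, h₁, bet_symm h'⟩
  · exact ⟨a₂, h₂, bet_symm h'⟩

theorem t3_oriented [T2Space B] (hc : ConvAct Γ B) (R : ICRel Γ (FeQ B))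
    (hd : IsDenseTree R.toCRel.Q) {a b c d : R.toCRel.Q} (ha : IsInner a) (hb : IsInner b)
    (hcd : c ≠ d) : {g : Γ | Bet (g • a) c d ∧ Bet c d (g • b)}.Finite := by
  obtain ⟨a', ha', hba⟩ := t3_prolong ha b
  obtain ⟨b', hb', hbb⟩ := t3_prolong hb a
  obtain ⟨u, rfl⟩ := R.toCRel.bp_surj a
  obtain ⟨u', rfl⟩ := R.toCRel.bp_surj a'
  obtain ⟨v, rfl⟩ := R.toCRel.bp_surj b
  obtain ⟨v', rfl⟩ := R.toCRel.bp_surj b'
  obtain ⟨γ, rfl⟩ := R.toCRel.bp_surj c
  obtain ⟨δ, rfl⟩ := R.toCRel.bp_surj d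
  obtain ⟨L, hL, hsub, hLne⟩ := t3_infinite R.toCRel hd hcd
  obtain ⟨p, q, r, r', hpL, hqL, hrL, hr'L, hne, hpr, hpr', hqr, hqr', hr, hr'⟩ := t3_four hL hsub
  have huu : u ≠ u' := fun h => ha' (by rw [h])
  have hvv : v ≠ v' := fun h => hb' (by rw [h])
  refine (cd9_key hc hr hr' hne huu hvv).subset ?_
  rintro g ⟨h1, h2⟩
  rw [R.smul_bp] at h1 h2
  -- points behind `γ`
  have left : ∀ y s : B, s ∈ L → SepBy p γ s → Bet (R.toCRel.bp y) (R.toCRel.bp γ) (R.toCRel.bp δ) →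
      SepBy p y s := by
    intro y s hs hps hy
    refine t3_behind R.toCRel hps (hLne p hpL).1 ?_
    exact bet_symm (bet_shift (bet_symm hy) (bet_symm (R.toCRel.bp_bet (hsub hs))))
  have right : ∀ y s : B, s ∈ L → SepBy q δ s → Bet (R.toCRel.bp γ) (R.toCRel.bp δ) (R.toCRel.bp y) →
      SepBy q y s := by
    intro y s hs hqs hy
    refine t3_behind R.toCRel hqs (hLne q hqL).2 ?_
    exact bet_symm (bet_shift hy (R.toCRel.bp_bet (hsub hs)))
  have h1' : Bet (R.toCRel.bp (g • u')) (R.toCRel.bp γ) (R.toCRel.bp δ) := by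
    have h0 := TreeAction.bet_smul g hba
    rw [R.smul_bp, R.smul_bp, R.smul_bp] at h0
    exact t3_chain h0 h1 h2 hcd
  have h2' : Bet (R.toCRel.bp γ) (R.toCRel.bp δ) (R.toCRel.bp (g • v')) := by
    have h0 := TreeAction.bet_smul g hbb
    rw [R.smul_bp, R.smul_bp, R.smul_bp] at h0
    exact bet_symm (t3_chain h0 (bet_symm h2) (bet_symm h1) hcd.symm)
  exact ⟨⟨left _ r hrL hpr h1, left _ r' hr'L hpr' h1⟩, ⟨left _ r hrL hpr h1', left _ r' hr'L hpr' h1'⟩,
    ⟨right _ r hrL hqr h2, right _ r' hr'L hqr' h2⟩, ⟨right _ r hrL hqr h2', right _ r' hr'L hqr' h2'⟩⟩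

theorem t3_T3 [T2Space B] (hc : ConvAct Γ B) (R : ICRel Γ (FeQ B))
    (hd : IsDenseTree R.toCRel.Q) {a b c d : R.toCRel.Q} (ha : IsInner a) (hb : IsInner b)
    (hcd : c ≠ d) : {g : Γ | Bet (g • a) c (g • b) ∧ Bet (g • a) d (g • b)}.Finite := by
  refine ((t3_oriented hc R hd ha hb hcd).union (t3_oriented hc R hd ha hb hcd.symm)).subset ?_
  rintro g ⟨h1, h2⟩
  exact t3_orient h1 h2

/-- **the dense case satisfies the hypotheses of the machine** -/
theorem t3_machineHyp [T2Space B] (hc : ConvAct Γ B) (R : ICRel Γ (FeQ B))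
    (hd : IsDenseTree R.toCRel.Q) : MachineHyp Γ (Inn R.toCRel.Q) where
  nonterminal := tq_inn_nonterminal hd
  T3 a b _ _ hcd := t3_T3 hc R hd a.2 b.2 fun h => hcd (Subtype.ext h)

/-- `R⁺ = R` means that the quotient is dense -/
theorem t3_dense_of_plus {T : Type} [MedTree T] (R : CRel T)
    (h : ∀ x y, R.plus.rel x y → R.rel x y) : IsDenseTree R.Q := by
  intro X Y hXY
  by_contra hcon
  push Not at hcon
  obtain ⟨x, rfl⟩ := R.pr_surj X
  obtain ⟨y, rfl⟩ := R.pr_surj Y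
  refine hXY (R.pr_eq_pr.2 (h x y ?_))
  rw [CRel.plus_rel]
  refine (Set.toFinite {R.pr x, R.pr y}).subset ?_
  intro Z hZ
  by_cases h1 : Z = R.pr x
  · exact Or.inl h1
  · by_cases h2 : Z = R.pr y
    · exact Or.inr h2
    · exact absurd hZ (hcon Z h1 h2)

/-- **the dense case**: an invariant convex relation with dense quotient has an invariant class. -/
theorem t3_dense_hasFix [T2Space B] [Nonempty B] {S : Finset Γ} (hS : CohHyp S) (hc : ConvAct Γ B)
    (R : ICRel Γ (FeQ B)) (hd : IsDenseTree R.toCRel.Q) : R.HasFix := by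
  rw [ICRel.hasFix_iff]
  by_cases hsub : ∃ X Y : R.toCRel.Q, X ≠ Y
  · obtain ⟨X, Y, hXY⟩ := hsub
    have := tq_inn_nonempty hd hXY
    obtain ⟨z, hz⟩ := machine hS (t3_machineHyp hc R hd)
    exact ⟨z.1, fun g => congrArg Subtype.val (hz g)⟩
  · push Not at hsub
    obtain ⟨x⟩ := ‹Nonempty B›
    exact ⟨R.toCRel.bp x, fun g => hsub _ _⟩

end Dyn

end Claimed.Agent.R309.S6
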