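import Claimed.Agent.R309.S6.EdgeInf
import Claimed.Agent.R309.S6.Lox
import Claimed.Agent.R309.S6.T3

/-! # Row 309, S6, leaf Parab: a nontrivial element fixing a cut point has no other fixed point -/

set_option autoImplicit false
set_option linter.unusedSectionVars false

namespace Claimed.Agent.R309.S6

open Set Filter Topology

variable {Γ B : Type} [Group Γ] [TopologicalSpace B] [MulAction Γ B]
  [PreconnectedSpace B] [T2Space B] [CompactSpace B] [Infinite B] [ContinuousConstSMul Γ B]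

theorem lx_of_convSeq (hc : ConvAct Γ B) {h : Γ} (hh : Function.Injective fun n : ℕ => h ^ n)
    {p p' : B} (hne : p ≠ p') (hp : h • p = p) (hp' : h • p' = p') {φ : ℕ → ℕ} (hφ : StrictMono φ)
    (hcs : ConvSeq (fun n => h ^ φ n) p p') :
    ∃ F : Finset Γ, ∀ k : Γ, k • p = p → ∃ m : ℤ, ∃ f ∈ F, k = h ^ m * f := by
  obtain ⟨U, V, hU, hV, hpU, hpV, hUV⟩ := t2_separation hne
  have hcl : p' ∉ closure U := by
    intro hmem
    have : closure U ⊆ Vᶜ :=
      closure_minimal (fun z hz hzV => (Set.disjoint_left.mp hUV) hz hzV) hV.isClosed_compl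
    exact this hmem hpV
  have h1 := hcs (closure U) isClosed_closure.isCompact hcl U hU hpU
  have h2 : ∀ᶠ n in atTop, 0 < φ n := by
    filter_upwards [eventually_gt_atTop 0] with n hn
    exact lt_of_lt_of_le hn (hφ.id_le n)
  obtain ⟨n, hn1, hn2⟩ := (h1.and h2).exists
  have T : Trap (h ^ φ n) p p' U :=
    { isOpen := hU
      p_mem := hpU
      x_not := hcl
      trap := hn1
      fp := cv_pow_smul_fixed hp _
      fx := cv_pow_smul_fixed hp' _
      inj := by
        intro a b hab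
        simp only [← pow_mul] at hab
        exact Nat.eq_of_mul_eq_mul_left hn2 (hh hab) }
  obtain ⟨F, hF⟩ := T.stab_cosets hc
  refine ⟨F, fun k hk => ?_⟩
  obtain ⟨m, f, hf, rfl⟩ := hF k hk
  exact ⟨φ n * m, f, hf, by rw [zpow_mul, zpow_natCast]⟩

/-- **Tukia.**  `h` of infinite order with two fixed points `p ≠ p'`.  Then there is a finite set `F` with
`Stab p ⊆ ⋃ m, h^m F`. -/
theorem stab_loxodromic_fixed (hc : ConvAct Γ B) {h : Γ}
    (hh : Function.Injective fun n : ℕ => h ^ n) {p p' : B} (hne : p ≠ p')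
    (hp : h • p = p) (hp' : h • p' = p') :
    ∃ F : Finset Γ, ∀ k : Γ, k • p = p → ∃ m : ℤ, ∃ f ∈ F, k = h ^ m * f := by
  obtain ⟨φ, a, b, hφ, hcs, -, -⟩ := cv_exists_fix hc hh
  have h1 := cv_fixed_mem hcs hp
  have h2 := cv_fixed_mem hcs hp'
  have hcase : (a = p ∧ b = p') ∨ (a = p' ∧ b = p) := by
    rcases h1 with h1 | h1 <;> rcases h2 with h2 | h2
    · exact absurd (h1.trans h2.symm) hne
    · exact Or.inl ⟨h1.symm, h2.symm⟩
    · exact Or.inr ⟨h2.symm, h1.symm⟩
    · exact absurd (h1.trans h2.symm) hne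
  rcases hcase with ⟨rfl, rfl⟩ | ⟨rfl, rfl⟩
  · exact lx_of_convSeq hc hh hne hp hp' hφ hcs
  · have hinv : ConvSeq (fun n => h⁻¹ ^ φ n) b a := by
      have := hcs.inv
      simpa only [inv_pow] using this
    have hh' : Function.Injective fun n : ℕ => h⁻¹ ^ n := by
      intro m n hmn
      simp only [inv_pow, inv_inj] at hmn
      exact hh hmn
    obtain ⟨F, hF⟩ := lx_of_convSeq hc hh' hne (cv_inv_smul_fixed hp) (cv_inv_smul_fixed hp') hφ hinv
    refine ⟨F, fun k hk => ?_⟩
    obtain ⟨m, f, hf, rfl⟩ := hF k hk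
    exact ⟨-m, f, hf, by rw [inv_zpow, zpow_neg]⟩

/-- powers are injective in a torsion free group -/
theorem lx_pow_injective (htf : ∀ g : Γ, g ≠ 1 → ∀ n : ℕ, 0 < n → g ^ n ≠ 1) {h : Γ} (hh : h ≠ 1) :
    Function.Injective fun n : ℕ => h ^ n := by
  have key : ∀ m n : ℕ, m < n → h ^ m ≠ h ^ n := by
    intro m n hmn heq
    obtain ⟨d, hd, rfl⟩ : ∃ d, 0 < d ∧ n = m + d := ⟨n - m, by omega, by omega⟩
    rw [pow_add] at heq
    exact htf h hh d hd (by simpa using heq.symm)
  intro m n heq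
  rcases lt_trichotomy m n with h1 | h1 | h1
  · exact absurd heq (key m n h1)
  · exact h1
  · exact absurd heq.symm (key n m h1)

theorem IsCutPt.smul {p : B} (hp : IsCutPt p) (g : Γ) : IsCutPt (g • p) := by
  obtain ⟨x, y, h⟩ := hp
  exact ⟨g • x, g • y, h.smul g⟩

/-- a cut point adjacent to `p` on the side `V` -/
theorem lx_exists_adjacent (hfin : ∀ a b : B, IsCutPt a → IsCutPt b → (Sp a b).Finite)
    {p : B} (hp : IsCutPt p) {U V : Set B} (hs : IsSplit p U V) {c : B} (hc : IsCutPt c)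
    (hcV : c ∈ V) : ∃ b ∈ V, IsCutPt b ∧ ∀ q, ¬ SepBy q p b := by
  classical
  by_cases hemp : (Sp p c) = ∅
  · exact ⟨c, hcV, hc, fun q hq => by
      have : q ∈ Sp p c := hq
      rw [hemp] at this
      exact this⟩
  · have hne : (hfin p c hp hc).toFinset.Nonempty := by
      rw [Set.Finite.toFinset_nonempty]
      exact Set.nonempty_iff_ne_empty.mpr hemp
    obtain ⟨b, hb, hmin⟩ := t3_exists_min (x := p) (y := c) (hfin p c hp hc).toFinset
      (fun t ht => by
        have : t ∈ Sp p c := (Set.Finite.mem_toFinset _).mp ht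
        exact this) hne
    have hb' : SepBy b p c := by
      have : b ∈ Sp p c := (Set.Finite.mem_toFinset _).mp hb
      exact this
    refine ⟨b, ?_, ⟨p, c, hb'⟩, ?_⟩
    · -- `p` does not separate `b` from `c`
      have h1 : ¬ SepBy p c b := ct_asymm hb'.symm
      rcases hs.mem_or hb'.ne_left.symm with h2 | h2
      · exact absurd ⟨V, U, hs.symm, hcV, h2⟩ h1
      · exact h2
    · intro q hq
      have hq' : SepBy q p c := ct_K2 hb' hq
      have hqb : q ≠ b := hq.ne_right.symm
      have := hmin q ((Set.Finite.mem_toFinset _).mpr hq') hqb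
      exact ct_asymm hq this

/-- an element fixing `p` and not moving `b` across `p` keeps the whole forward orbit of `b` on its side -/
theorem lx_orbit_side {p b : B} {U V : Set B} (hs : IsSplit p U V) (hbV : b ∈ V) {δ : Γ}
    (hδp : δ • p = p) (hδ : ¬ SepBy p (δ • b) b) (n : ℕ) : δ ^ n • b ∈ V := by
  have hbp : b ≠ p := fun e => hs.not_mem_right (e ▸ hbV)
  have hne : ∀ n : ℕ, δ ^ n • b ≠ p := fun n e =>
    hbp (smul_left_cancel (δ ^ n) (e.trans (cv_pow_smul_fixed hδp n).symm))
  have key : ∀ n : ℕ, ¬ SepBy p (δ ^ n • b) b := by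
    intro n
    induction n with
    | zero => simpa using ct_not_sepBy_self p b
    | succ n ih =>
      intro hsep
      have h1 : ¬ SepBy p (δ ^ (n + 1) • b) (δ • b) := by
        intro h2
        apply ih
        rw [pow_succ', mul_smul] at h2
        have h3 : SepBy (δ • p) (δ • (δ ^ n • b)) (δ • b) := by rw [hδp]; exact h2
        exact (cd9_sepBy_smul_iff δ).mp h3
      have hδb : δ • b ≠ p := by simpa using hne 1
      rcases hsep.cotrans hδb with h2 | h2
      · exact h1 h2
      · exact hδ h2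
  rcases hs.mem_or (hne n) with h1 | h1
  · exact absurd ⟨U, V, hs, h1, hbV⟩ (key n)
  · exact h1

/-- **`parab`.** -/
theorem parab_abs {S : Finset Γ} (hS : CohHyp S) (hc : ConvAct Γ B)
    (hmin : ∀ x : B, Dense (MulAction.orbit Γ x))
    (hfin : ∀ a b : B, IsCutPt a → IsCutPt b → (Sp a b).Finite)
    {p : B} (hp : IsCutPt p) {h : Γ} (hh : h ≠ 1) (hfix : h • p = p) {x : B} (hx : h • x = x) :
    x = p := by
  classical
  by_contra hxp
  have hinj := lx_pow_injective hS.tf hh
  obtain ⟨U, V, hs, hxU, hVne⟩ : ∃ U V : Set B, IsSplit p U V ∧ x ∈ U ∧ V.Nonempty := by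
    obtain ⟨x1, y1, U0, V0, hs, h1, h2⟩ := hp
    rcases hs.mem_or hxp with h3 | h3
    · exact ⟨U0, V0, hs, h3, ⟨y1, h2⟩⟩
    · exact ⟨V0, U0, hs.symm, h3, ⟨x1, h1⟩⟩
  obtain ⟨_, hcV, g, rfl⟩ := (hmin p).inter_open_nonempty V hs.2.1 hVne
  obtain ⟨b, hbV, hbcut, hadj⟩ := lx_exists_adjacent hfin hp hs (IsCutPt.smul hp g) hcV
  have hbp : b ≠ p := fun e => hs.not_mem_right (e ▸ hbV)
  have hbx : b ≠ x := fun e => hs.not_mem_of_mem hxU (e ▸ hbV)
  have hH := edge_inf_abs hS hmin hfin hp hbcut hbp.symm hadj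
  obtain ⟨F, hF⟩ := stab_loxodromic_fixed hc hinj (Ne.symm hxp) hfix hx
  choose! m f hfF hk using hF
  obtain ⟨k, hkH, k', hkH', hkk, hff⟩ := hH.exists_ne_map_eq_of_mapsTo (f := f) (t := (F : Set Γ))
    (fun k hk' => hfF k hk'.1) F.finite_toSet
  -- `γ = k' k⁻¹` is a power of `h`
  set γ : Γ := k' * k⁻¹ with hγ
  have hγh : γ = h ^ (m k' - m k) := by
    rw [hγ]
    conv_lhs => rw [hk k' hkH'.1, hk k hkH.1, hff]
    rw [zpow_sub]
    group
  have hγ1 : γ ≠ 1 := by
    intro e
    rw [hγ, mul_inv_eq_one] at e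
    exact hkk e.symm
  have hγp : γ • p = p := by rw [hγh]; exact cv_zpow_smul_fixed hfix _
  have hγx : γ • x = x := by rw [hγh]; exact cv_zpow_smul_fixed hx _
  -- `γ` does not move `b` across `p`
  have hγb : ¬ SepBy p (γ • b) b := by
    intro hsep
    have A1 : ¬ SepBy p b (k⁻¹ • b) := by
      intro h1
      have h2 := h1.smul k
      rw [hkH.1, smul_inv_smul] at h2
      exact hkH.2 p h2
    have A2 : ¬ SepBy p (k' • b) (γ • b) := by
      intro h1
      apply A1
      have h2 : SepBy (k' • p) (k' • b) (k' • (k⁻¹ • b)) := by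
        rw [hkH'.1, ← mul_smul]; exact h1
      exact (cd9_sepBy_smul_iff k').mp h2
    have hk'b : k' • b ≠ p := fun e => hbp (smul_left_cancel k' (e.trans hkH'.1.symm))
    rcases hsep.cotrans hk'b with h1 | h1
    · exact A2 h1.symm
    · exact hkH'.2 p h1
  have hγb' : ¬ SepBy p (γ⁻¹ • b) b := by
    intro h1
    have h2 := h1.smul γ
    rw [hγp, smul_inv_smul] at h2
    exact hγb h2.symm
  obtain ⟨ψ, a, b0, -, hcs, -, -⟩ := cv_exists_fix hc (lx_pow_injective hS.tf hγ1)
  have h1 := cv_fixed_mem hcs hγp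
  have h2 := cv_fixed_mem hcs hγx
  have hfinal : ∀ y : ℕ → B, (∀ n, y n ∈ V) → Tendsto y atTop (𝓝 x) → False := by
    intro y hy hlim
    have : x ∈ closure V := mem_closure_of_tendsto hlim (Eventually.of_forall hy)
    rcases hs.symm.closure_subset this with h3 | h3
    · exact hxp h3
    · exact hs.not_mem_of_mem hxU h3
  by_cases hb0 : b0 = p
  · -- attracting point `x`
    have ha : a = x := by
      rcases h2 with h3 | h3
      · exact h3.symm
      · exact absurd (h3.trans hb0) hxp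
    have hlim := hcs.tendsto (x := b) (by rw [hb0]; exact hbp)
    rw [ha] at hlim
    exact hfinal _ (fun n => lx_orbit_side hs hbV hγp hγb _) hlim
  · have ha : a = p := by
      rcases h1 with h3 | h3
      · exact h3.symm
      · exact absurd h3.symm hb0
    have hb0x : b0 = x := by
      rcases h2 with h3 | h3
      · exact absurd (h3.trans ha) hxp
      · exact h3.symm
    have hlim := hcs.inv.tendsto (x := b) (by rw [ha]; exact hbp)
    rw [hb0x] at hlim
    refine hfinal _ (fun n => ?_) hlim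
    show (γ ^ ψ n)⁻¹ • b ∈ V
    rw [← inv_pow]
    exact lx_orbit_side hs hbV (cv_inv_smul_fixed hγp) hγb' _

end Claimed.Agent.R309.S6
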