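import Claimed.Agent.R309.GlueCoh
import Claimed.Agent.R309.S6.FinSep
import Claimed.Agent.R309.S6.Parab
import Claimed.Agent.R309.S6.BridgeCpt

/-! # Row 309, S6: the interface `I_tree : GroupHyp 𝔖 → C.Good → C.CutTree` -/

set_option autoImplicit false

namespace Claimed.Agent.R309

open Set

variable {Γ : Type} [Group Γ] {𝔖 : GenSet Γ} {C : Cpt 𝔖}

theorem Cpt.isCut_iff (p : C.B) : C.IsCut p.1 ↔ IsCutPt p := by
  constructor
  · rintro ⟨x, y, h⟩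
    obtain ⟨-, hx, hy⟩ := h.mem
    exact ⟨⟨x, hx⟩, ⟨y, hy⟩, (Cpt.sepBy_iff p ⟨x, hx⟩ ⟨y, hy⟩).mp h⟩
  · rintro ⟨x, y, h⟩
    exact ⟨x.1, y.1, (Cpt.sepBy_iff p x y).mpr h⟩

theorem Cpt.IsCut.mem {p : C.X} (h : C.IsCut p) : p ∈ C.B := by
  obtain ⟨x, y, h⟩ := h
  exact h.mem.1

/-- **`I_tree`** -/
theorem I_tree (hG : GroupHyp 𝔖) (hC : C.Good) : C.CutTree := by
  have hS := cohHyp_of_groupHyp hG
  have := hC.preconnectedSpace
  have := hC.infiniteB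
  have hc := hC.convAct
  have hmin := hC.dense_orbit
  have hfin : ∀ a b : C.B, IsCutPt a → IsCutPt b → (Sp a b).Finite :=
    fun a b ha hb => S6.fin_sep_abs hS hc hmin ha hb
  refine ⟨?_, ?_, ?_⟩
  · intro a b ha hb
    have h := hfin ⟨a, ha.mem⟩ ⟨b, hb.mem⟩ ((Cpt.isCut_iff _).mp ha) ((Cpt.isCut_iff _).mp hb)
    refine (h.image Subtype.val).subset ?_
    intro q hq
    exact ⟨⟨q, hq.mem.1⟩, (Cpt.sepBy_iff ⟨q, hq.mem.1⟩ ⟨a, ha.mem⟩ ⟨b, hb.mem⟩).mp hq, rfl⟩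
  · intro p hp h hh hfix
    ext x
    simp only [Cpt.fixB, mem_ofPred_eq, mem_singleton_iff]
    constructor
    · rintro ⟨hxB, hx⟩
      have := S6.parab_abs hS hc hmin hfin (p := ⟨p, hp.mem⟩) ((Cpt.isCut_iff _).mp hp) hh
        (Subtype.ext hfix) (x := ⟨x, hxB⟩) (Subtype.ext hx)
      exact congrArg Subtype.val this
    · rintro rfl
      exact ⟨hp.mem, hfix⟩
  · intro a b ha hb hab hadj
    have := S6.edge_inf_abs hS hmin hfin (a := ⟨a, ha.mem⟩) (b := ⟨b, hb.mem⟩)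
      ((Cpt.isCut_iff _).mp ha) ((Cpt.isCut_iff _).mp hb) (fun h => hab (congrArg Subtype.val h))
      (fun q hq => hadj q.1 ((Cpt.sepBy_iff q _ _).mpr hq))
    refine this.mono ?_
    rintro h ⟨h1, h2⟩
    refine ⟨congrArg Subtype.val h1, fun q hq => ?_⟩
    exact h2 ⟨q, hq.mem.1⟩ ((Cpt.sepBy_iff ⟨q, hq.mem.1⟩ (h • ⟨b, hb.mem⟩) ⟨b, hb.mem⟩).mp hq)

end Claimed.Agent.R309
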