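import Claimed.Agent.R309.S6.MDefs
import Claimed.Agent.R309.S6.LocFree

/-! # Row 309, S6: the Boolean lemma (leaf LFBool) -/

set_option autoImplicit false

namespace Claimed.Agent.R309.S6

variable {Γ : Type} [Group Γ]

/-- **Boolean lemma.**  `G` an invariant set of functions `Ω → F₂` whose span is closed under
products, and proper: `{g | f * (g f') ≠ 0}` finite.  `Γ` torsion free.  Then `span G` is locally free.
Proof: see `S6A.locFree_of_boolean` (types of points, atoms, free permutation basis). -/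
theorem locFree_of_boolean {Ω : Type} [MulAction Γ Ω]
    (htf : ∀ g : Γ, g ≠ 1 → ∀ n : ℕ, 0 < n → g ^ n ≠ 1)
    (G : Set (Ω → ZMod 2)) (hGinv : ∀ g : Γ, ∀ f ∈ G, funRep Γ Ω g f ∈ G)
    (hmul : ∀ f ∈ G, ∀ f' ∈ G, f * f' ∈ Submodule.span (ZMod 2) G)
    (hproper : ∀ f ∈ G, ∀ f' ∈ G, {g : Γ | f * funRep Γ Ω g f' ≠ 0}.Finite) :
    LocFree (funRep Γ Ω) (Submodule.span (ZMod 2) G) := by
  rw [← S6A.locFree_iff]
  refine S6A.locFree_of_boolean_span (funRep Γ Ω) htf hGinv LinearMap.id (fun g b ω => rfl)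
    (fun m _ h => h) (fun γ hγ γ' hγ' => ⟨γ * γ', hmul γ hγ γ' hγ', rfl⟩) ?_
  intro γ hγ γ' hγ'
  refine (hproper γ' hγ' γ hγ).subset ?_
  intro g hg
  simp only [Set.mem_ofPred_eq, LinearMap.id_coe, id_eq] at hg ⊢
  rwa [mul_comm]

end Claimed.Agent.R309.S6
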