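import Claimed.Agent.R309.S6.MDefs
import Claimed.Agent.R309.S6.LocFree

/-! # Row 309, S6: LocFree passes through extensions / injective maps (leaf LFExt) -/

set_option autoImplicit false

namespace Claimed.Agent.R309.S6

variable {Γ : Type} [Group Γ]
variable {M : Type} [AddCommGroup M] [Module (ZMod 2) M]
variable {M' : Type} [AddCommGroup M'] [Module (ZMod 2) M']

/-- **Extension lemma.**  `W ≤ N` invariant, `E` equivariant with `N ∩ ker E = W`; if `W` and `E(N)`
are locally free then so is `N`.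
Proof: `A ⊆ N` finite; `E(A) ⊆ span (ρ' g v'_i)`, lift `v'_i = E v_i`, `v_i ∈ N`; each
`a - Σ c ρ g v_i ∈ N ∩ ker E = W`; apply `LocFree W` to these finitely many differences: `u_j`.
The family `(v_i) ++ (u_j)` works: apply `E` to a linear relation. -/
theorem LocFree.of_map (ρ : Representation (ZMod 2) Γ M) (ρ' : Representation (ZMod 2) Γ M')
    (E : M →ₗ[ZMod 2] M') (hE : ∀ g m, E (ρ g m) = ρ' g (E m))
    (W N : Submodule (ZMod 2) M) (hWN : W ≤ N) (hW : ∀ w ∈ W, E w = 0)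
    (hker : ∀ n ∈ N, E n = 0 → n ∈ W) (hNinv : ∀ g, ∀ n ∈ N, ρ g n ∈ N)
    (hLW : LocFree ρ W) (hLN : LocFree ρ' (N.map E)) : LocFree ρ N := by
  rw [← S6A.locFree_iff] at hLW hLN ⊢
  refine S6A.LocFree.extend_of_map' ρ ρ' hWN ?_ hNinv hLW E (fun g x _ => hE g x) hker hW hLN
  intro g w hw
  exact hker _ (hNinv g w (hWN hw)) (by rw [hE, hW w hw, map_zero])

/-- special case `W = ⊥` -/
theorem LocFree.of_injOn (ρ : Representation (ZMod 2) Γ M) (ρ' : Representation (ZMod 2) Γ M')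
    (E : M →ₗ[ZMod 2] M') (hE : ∀ g m, E (ρ g m) = ρ' g (E m))
    (N : Submodule (ZMod 2) M) (hker : ∀ n ∈ N, E n = 0 → n = 0)
    (hNinv : ∀ g, ∀ n ∈ N, ρ g n ∈ N) (hLN : LocFree ρ' (N.map E)) : LocFree ρ N := by
  refine LocFree.of_map ρ ρ' E hE ⊥ N bot_le (by simp) (by simpa using hker) hNinv ?_ hLN
  intro A hA
  refine ⟨0, Fin.elim0, fun i => i.elim0, ?_, ?_⟩
  · have : IsEmpty (Γ × Fin 0) := ⟨fun p => p.2.elim0⟩
    exact linearIndependent_empty_type
  · intro a ha
    have : a = 0 := by simpa using hA ha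
    rw [this]; exact Submodule.zero_mem _

end Claimed.Agent.R309.S6
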