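import Claimed.Agent.R309.S6.MDefs

/-! # Row 309, S6: further median tree calculus (helper48): chains, directions, evaluation of `boxE`,
`cornerE` on the generators -/

set_option autoImplicit false
set_option linter.unusedSectionVars false
set_option linter.unnecessarySeqFocus false

namespace Claimed.Agent.R309.S6

open MedTree

namespace MedTree

variable {T : Type} [MedTree T]

/-- `z ∈ [x,y]`, `w ∈ [z,y]` imply `w ∈ [x,y]` -/
theorem bet_trans' {x y z w : T} (h1 : Bet x z y) (h2 : Bet z w y) : Bet x w y :=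
  bet_symm (bet_trans (bet_symm h1) (bet_symm h2))

/-- `z ∈ [x,y]`, `w ∈ [z,y]` imply `z ∈ [x,w]` -/
theorem bet_shift' {x y z w : T} (h1 : Bet x z y) (h2 : Bet z w y) : Bet x z w :=
  bet_symm (bet_shift (bet_symm h1) (bet_symm h2))

/-- two points of an interval are comparable -/
theorem bet_comparable {a b u v : T} (hu : Bet a u b) (hv : Bet a v b) : Bet a u v ∨ Bet a v u := by
  rcases bet_cases v hu with h | h
  · exact Or.inl h
  · exact Or.inr (bet_shift' hv h)

/-- intervals are convex -/
theorem bet_convex {a b u v w : T} (hu : Bet a u b) (hv : Bet a v b) (hw : Bet u w v) :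
    Bet a w b := by
  rcases bet_comparable hu hv with h | h
  · exact bet_trans hv (bet_trans' h hw)
  · exact bet_trans hu (bet_trans' h (bet_symm hw))

/-- chains: `a ≤ b ≤ c`, `a ≤ c ≤ d` -/
theorem chain_13 {a b c d : T} (h1 : Bet a b c) (h2 : Bet a c d) : Bet a b d := bet_trans h2 h1

theorem chain_24 {a b c d : T} (h1 : Bet a b c) (h2 : Bet a c d) : Bet b c d := bet_shift h2 h1

/-- chains given as `a ≤ b ≤ d`, `b ≤ c ≤ d` -/
theorem chain'_12 {a b c d : T} (h1 : Bet a b d) (h2 : Bet b c d) : Bet a b c := bet_shift' h1 h2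

theorem chain'_14 {a b c d : T} (h1 : Bet a b d) (h2 : Bet b c d) : Bet a c d := bet_trans' h1 h2

end MedTree

section dir
variable {T : Type} [MedTree T]

theorem Dir.base_not_mem (d : Dir T) : d.base ∉ d := by
  obtain ⟨t, h, hd⟩ := d.exists_rep
  intro hm
  rw [hd, mem_dirOf] at hm
  exact hm.1 rfl

theorem Dir.ne_base {d : Dir T} {u : T} (h : u ∈ d) : u ≠ d.base := by
  rintro rfl; exact d.base_not_mem h

theorem Dir.eq_dirOf {d : Dir T} {u : T} (h : u ∈ d) : d = dirOf d.base u (Dir.ne_base h) := by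
  obtain ⟨t, ht, hd⟩ := d.exists_rep
  refine Dir.ext rfl fun v => ?_
  have hu : InDir d.base t u := by rw [hd] at h; exact h
  rw [mem_dirOf]
  constructor
  · intro hv
    have hv' : InDir d.base t v := by rw [hd] at hv; exact hv
    exact hu.symm.trans hv'
  · intro hv
    rw [hd, mem_dirOf]
    exact hu.trans hv

/-- majority rule for directions -/
theorem Dir.med_mem {d : Dir T} {u v w : T} :
    med u v w ∈ d ↔ (u ∈ d ∧ v ∈ d) ∨ (v ∈ d ∧ w ∈ d) ∨ (u ∈ d ∧ w ∈ d) := by
  obtain ⟨t, ht, hd⟩ := d.exists_rep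
  rw [hd]
  simp only [mem_dirOf]
  exact inDir_med

/-- a direction separating `x` from `y` has its base point on `[x,y]` -/
theorem Dir.bet_of_sep {d : Dir T} {x y : T} (hx : x ∈ d) (hy : y ∉ d) : Bet x d.base y := by
  rw [Dir.eq_dirOf hx, mem_dirOf, not_inDir_iff] at hy
  exact bet_symm hy

theorem Dir.convex {d : Dir T} {u v m : T} (hu : u ∈ d) (hv : v ∈ d) (hm : Bet u m v) : m ∈ d := by
  obtain ⟨t, ht, hd⟩ := d.exists_rep
  rw [hd] at hu hv ⊢
  exact InDir.convex hu hv hm

theorem Dir.compl_convex {d : Dir T} {u v m : T} (hu : u ∉ d) (hv : v ∉ d) (hm : Bet u m v) :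
    m ∉ d := by
  obtain ⟨t, ht, hd⟩ := d.exists_rep
  rw [hd] at hu hv ⊢
  exact not_inDir_convex hu hv hm

theorem dirOf_eq_iff {z t t' : T} (h : t ≠ z) (h' : t' ≠ z) :
    dirOf z t h = dirOf z t' h' ↔ InDir z t t' := by
  constructor
  · intro he
    have : t' ∈ dirOf z t h := by rw [he, mem_dirOf]; exact inDir_self h'
    exact this
  · intro hi
    exact Dir.ext rfl fun u => inDir_congr hi u

end dir

noncomputable section
open Classical

variable {T : Type} [MedTree T]

/-- indicator of membership in a direction -/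
def ind (u : T) (d : Dir T) : ZMod 2 := if u ∈ d then 1 else 0

theorem ind_med (u v w : T) (d : Dir T) :
    ind (med u v w) d = ind u d * ind v d + ind v d * ind w d + ind u d * ind w d := by
  unfold ind
  by_cases hu : u ∈ d <;> by_cases hv : v ∈ d <;> by_cases hw : w ∈ d <;>
    simp [Dir.med_mem, hu, hv, hw] <;> rfl

theorem ind_sq (u : T) (d : Dir T) : ind u d * ind u d = ind u d := by
  unfold ind; split_ifs <;> simp

theorem ind_ne_zero {u : T} {d : Dir T} : ind u d ≠ 0 ↔ u ∈ d := by
  unfold ind; split_ifs with h <;> simp [h]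

theorem ind_add_ne_zero {u v : T} {d : Dir T} :
    ind u d + ind v d ≠ 0 ↔ (u ∈ d ∧ v ∉ d) ∨ (u ∉ d ∧ v ∈ d) := by
  unfold ind
  by_cases hu : u ∈ d <;> by_cases hv : v ∈ d <;> simp [hu, hv] <;> rfl

theorem boxE_single (p : T × T) (a : ZMod 2) (q : Dir T × Dir T) :
    boxE (Finsupp.single p a) q = a * (ind p.1 q.1 * ind p.2 q.2) := by
  unfold ind
  by_cases h1 : p.1 ∈ q.1 <;> by_cases h2 : p.2 ∈ q.2 <;>
    simp [boxE, Finsupp.linearCombination_single, h1, h2]

theorem boxE_bb (x y c : T) (q : Dir T × Dir T) :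
    boxE (bb x y c) q = (ind x q.1 + ind y q.1) * ind c q.2 := by
  simp only [bb, map_add, Pi.add_apply, boxE_single]
  ring

theorem boxE_bb2 (x y c c' : T) (q : Dir T × Dir T) :
    boxE (bb x y c + bb x y c') q = (ind x q.1 + ind y q.1) * (ind c q.2 + ind c' q.2) := by
  simp only [map_add, Pi.add_apply, boxE_bb]
  ring

/-- indicator of "two distinct directions at one point" -/
def cnr (q : Dir T × Dir T) : ZMod 2 := if q.1.base = q.2.base ∧ q.1 ≠ q.2 then 1 else 0

theorem cornerE_single (p : T × T) (a : ZMod 2) (q : Dir T × Dir T) :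
    cornerE (Finsupp.single p a) q = a * (cnr q * (ind p.1 q.1 * ind p.2 q.2)) := by
  unfold ind cnr
  by_cases h0 : q.1.base = q.2.base <;> by_cases h00 : q.1 = q.2 <;>
  by_cases h1 : p.1 ∈ q.1 <;> by_cases h2 : p.2 ∈ q.2 <;>
    simp [cornerE, Finsupp.linearCombination_single, h0, h00, h1, h2]

theorem cornerE_eq (Ξ : V2 T) (q : Dir T × Dir T) : cornerE Ξ q = cnr q * boxE Ξ q := by
  induction Ξ using Finsupp.induction_linear with
  | zero => simp
  | add f g hf hg => simp only [map_add, Pi.add_apply, hf, hg]; ring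
  | single p a => rw [cornerE_single, boxE_single]; ring

theorem bb_self (x c : T) : bb x x c = 0 := by
  unfold bb; exact z2_add_self _

theorem bb_comm (x y c : T) : bb x y c = bb y x c := by
  unfold bb; exact add_comm _ _

theorem bb_split (x m y c : T) : bb x y c = bb x m c + bb m y c := by
  unfold bb
  have h := z2_add_self (Finsupp.single (m, c) (1 : ZMod 2))
  have e : (Finsupp.single (x, c) (1 : ZMod 2) + Finsupp.single (m, c) 1) +
      (Finsupp.single (m, c) 1 + Finsupp.single (y, c) 1) =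
      Finsupp.single (x, c) 1 + Finsupp.single (y, c) 1 +
        (Finsupp.single (m, c) 1 + Finsupp.single (m, c) 1) := by abel
  rw [e, h, add_zero]

variable {Γ : Type} [Group Γ] [TreeAction Γ T]

theorem rho2_bb (g : Γ) (x y c : T) : rho2 Γ T g (bb x y c) = bb (g • x) (g • y) (g • c) := by
  simp [rho2, bb]

theorem Ahead.smul (g : Γ) {x y c : T} (h : Ahead x y c) : Ahead (g • x) (g • y) (g • c) :=
  ⟨by simpa using h.1, TreeAction.bet_smul g h.2.1, by simpa using h.2.2⟩

theorem Box.smul (g : Γ) {x y c c' : T} (h : Box x y c c') :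
    Box (g • x) (g • y) (g • c) (g • c') :=
  ⟨by simpa using h.1, by simpa using h.2.1, by simpa using h.2.2.1,
    TreeAction.bet_smul g h.2.2.2.1, TreeAction.bet_smul g h.2.2.2.2⟩

end

end Claimed.Agent.R309.S6
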