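import Claimed.Agent.R309.S6.MDefs
import Claimed.Agent.R309.S6.TreeX_helper48

/-! # Row 309, S6 Machine, leaf M1: finite subsets of `T` are detected by directions; `θ` canonical -/

set_option autoImplicit false
set_option linter.unusedSectionVars false

namespace Claimed.Agent.R309.S6

open MedTree

variable {T : Type} [MedTree T]

theorem hcount_single (d : Dir T) (u : T) (a : ZMod 2) :
    hcount d (Finsupp.single u a) = a * ind u d := by
  simp [hcount, Finsupp.linearCombination_single, ind]

theorem hcount_eq_sum (d : Dir T) (ξ : V1 T) : hcount d ξ = ∑ w ∈ ξ.support, ξ w * ind w d := by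
  simp [hcount, Finsupp.linearCombination_apply, Finsupp.sum, ind]

/-- a finite nonempty subset of an interval `[o,u]` has a largest element -/
theorem exists_largest {o u : T} (Z : Finset T) (hne : Z.Nonempty) (hZ : ∀ v ∈ Z, Bet o v u) :
    ∃ z ∈ Z, ∀ v ∈ Z, Bet o v z := by
  classical
  induction Z using Finset.induction_on with
  | empty => exact absurd hne (by simp)
  | insert a Z' _ ih =>
    by_cases hZ' : Z'.Nonempty
    · obtain ⟨z, hz, hmax⟩ := ih hZ' fun v hv => hZ v (Finset.mem_insert_of_mem hv)
      rcases bet_comparable (hZ a (Finset.mem_insert_self _ _))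
        (hZ z (Finset.mem_insert_of_mem hz)) with h | h
      · refine ⟨z, Finset.mem_insert_of_mem hz, fun v hv => ?_⟩
        rcases Finset.mem_insert.1 hv with rfl | hv
        · exact h
        · exact hmax v hv
      · refine ⟨a, Finset.mem_insert_self _ _, fun v hv => ?_⟩
        rcases Finset.mem_insert.1 hv with rfl | hv
        · exact bet_right _ _
        · exact bet_trans h (hmax v hv)
    · rw [Finset.not_nonempty_iff_eq_empty] at hZ'
      subst hZ'
      exact ⟨a, by simp, fun v hv => by
        have : v = a := by simpa using hv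
        rw [this]; exact bet_right _ _⟩

/-- a finite nonempty set has an element which is maximal as seen from `o` -/
theorem exists_maximal_from (o : T) (F : Finset T) (hne : F.Nonempty) :
    ∃ u ∈ F, ∀ w ∈ F, Bet o u w → w = u := by
  classical
  obtain ⟨u, hu, hmax⟩ := Finset.exists_max_image F
    (fun u => (F.filter fun w => Bet o w u).card) hne
  refine ⟨u, hu, fun w hw hb => ?_⟩
  by_contra hne'
  have hsub : (F.filter fun v => Bet o v u) ⊂ (F.filter fun v => Bet o v w) := by
    rw [Finset.ssubset_iff_of_subset]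
    · refine ⟨w, by simp [hw, bet_right], ?_⟩
      intro hmem
      have : Bet o w u := (Finset.mem_filter.1 hmem).2
      exact hne' (bet_antisymm' this hb)
    · intro v hv
      rw [Finset.mem_filter] at hv ⊢
      exact ⟨hv.1, bet_trans hb hv.2⟩
  exact absurd (hmax w hw) (not_le.2 (Finset.card_lt_card hsub))

/-- **M1.**  `ξ ↦ (d ↦ |ξ ∩ d|)` is injective on `F₂[T]`.
Proof: `F = supp ξ ≠ ∅`, fix `o`; `u ∈ F` maximal for `w ≤ u :↔ w ∈ [o,u]`.  If `u = o` then `F = {o}`:
take `dir_t(o)`, `t ≠ o`.  Otherwise `z` := the largest (in the chain `[o,u]`) of `o` and the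
`med o u w`, `w ∈ F \ {u}`; `z ≠ u` by maximality, and `dir_z(u) ∩ F = {u}`. -/
theorem hcount_injective [Nontrivial T] (ξ : V1 T) (h : ∀ d : Dir T, hcount d ξ = 0) : ξ = 0 := by
  classical
  by_contra hξ
  have hne : ξ.support.Nonempty := Finsupp.support_nonempty_iff.2 hξ
  obtain ⟨o, ho⟩ := hne
  obtain ⟨u, hu, hmax⟩ := exists_maximal_from o ξ.support ⟨o, ho⟩
  -- it suffices to find a direction meeting the support in `{u}`
  suffices hd : ∃ d : Dir T, u ∈ d ∧ ∀ w ∈ ξ.support, w ≠ u → w ∉ d by
    obtain ⟨d, hud, hd⟩ := hd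
    have := h d
    rw [hcount_eq_sum, Finset.sum_eq_single u] at this
    · have hi : ind u d = 1 := by unfold ind; rw [if_pos hud]
      rw [hi, mul_one] at this
      exact (Finsupp.mem_support_iff.1 hu) this
    · intro w hw hwu
      have hi : ind w d = 0 := by unfold ind; rw [if_neg (hd w hw hwu)]
      rw [hi, mul_zero]
    · intro hcon; exact absurd hu hcon
  by_cases huo : u = o
  · subst huo
    obtain ⟨t, ht⟩ := exists_ne u
    refine ⟨dirOf t u ht.symm, inDir_self ht.symm, fun w hw hwu => ?_⟩
    exact absurd (hmax w hw (bet_left _ _)) hwu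
  · let Z : Finset T := insert o ((ξ.support.erase u).image fun w => med o u w)
    have hZ : ∀ v ∈ Z, Bet o v u := by
      intro v hv
      rcases Finset.mem_insert.1 hv with rfl | hv
      · exact bet_left _ _
      · obtain ⟨w, _, rfl⟩ := Finset.mem_image.1 hv
        exact med_bet₁ _ _ _
    obtain ⟨z, hz, hzmax⟩ := exists_largest Z ⟨o, Finset.mem_insert_self _ _⟩ hZ
    have hzu : u ≠ z := by
      rintro rfl
      rcases Finset.mem_insert.1 hz with h1 | h1
      · exact huo h1
      · obtain ⟨w, hw, hwe⟩ := Finset.mem_image.1 h1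
        have hb : Bet o u w := by
          have := med_bet₃ o u w
          rwa [hwe] at this
        exact (Finset.mem_erase.1 hw).1 (hmax w (Finset.mem_erase.1 hw).2 hb)
    refine ⟨dirOf z u hzu, inDir_self hzu, fun w hw hwu => ?_⟩
    rw [mem_dirOf, not_inDir_iff]
    have hm : med o u w ∈ Z :=
      Finset.mem_insert_of_mem (Finset.mem_image.2 ⟨w, Finset.mem_erase.2 ⟨hwu, hw⟩, rfl⟩)
    have h1 : Bet o (med o u w) z := hzmax _ hm
    have h2 : Bet (med o u w) z u := bet_shift (hZ z hz) h1
    exact bet_trans' (bet_symm (med_bet₂ o u w)) h2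

theorem theta_single (o : T) (p : T × T) (a : ZMod 2) :
    theta o (Finsupp.single p a) = Finsupp.single (med p.1 p.2 o) a := by
  simp [theta]

theorem pr1_single (p : T × T) (a : ZMod 2) :
    pr1 (Finsupp.single p a) = Finsupp.single p.1 a := by
  simp [pr1]

theorem pr2_single (p : T × T) (a : ZMod 2) :
    pr2 (Finsupp.single p a) = Finsupp.single p.2 a := by
  simp [pr2]

/-- `h_{θ_o Ξ}(d) = |Ξ ∩ d×d| + [o ∈ d] (h_{pr1 Ξ}(d) + h_{pr2 Ξ}(d))` (majority rule, linearity) -/
theorem hcount_theta (o : T) (Ξ : V2 T) (d : Dir T) :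
    hcount d (theta o Ξ) =
      boxE Ξ (d, d) + (open Classical in if o ∈ d then 1 else 0) *
        (hcount d (pr1 Ξ) + hcount d (pr2 Ξ)) := by
  change hcount d (theta o Ξ) = boxE Ξ (d, d) + ind o d * (hcount d (pr1 Ξ) + hcount d (pr2 Ξ))
  induction Ξ using Finsupp.induction_linear with
  | zero => simp
  | add f g hf hg => simp only [map_add, Pi.add_apply, hf, hg]; ring
  | single p a =>
    rw [theta_single, pr1_single, pr2_single, hcount_single, hcount_single, hcount_single,
      boxE_single, ind_med]
    ring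

/-- **M2.**  `θ` does not depend on the base point on `ker pr1 ∩ ker pr2`. -/
theorem theta_indep [Nontrivial T] (Ξ : V2 T) (h1 : pr1 Ξ = 0) (h2 : pr2 Ξ = 0) (o o' : T) :
    theta o Ξ = theta o' Ξ := by
  have key : theta o Ξ + theta o' Ξ = 0 := by
    apply hcount_injective
    intro d
    rw [map_add, hcount_theta, hcount_theta, h1, h2]
    simp only [map_zero, add_zero, mul_zero]
    exact CharTwo.add_self_eq_zero _
  exact z2_add_eq_zero.mp key

/-- contraction of the second variable against a direction -/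
noncomputable def contr2 (d' : Dir T) : V2 T →ₗ[ZMod 2] V1 T :=
  Finsupp.linearCombination (ZMod 2) fun p : T × T => Finsupp.single p.1 (ind p.2 d')

/-- the slice `Ξ(u, ·)` -/
noncomputable def slice (u : T) : V2 T →ₗ[ZMod 2] V1 T :=
  open Classical in
  Finsupp.linearCombination (ZMod 2) fun p : T × T => if p.1 = u then Finsupp.single p.2 1 else 0

theorem hcount_contr2 (d d' : Dir T) (Ξ : V2 T) : hcount d (contr2 d' Ξ) = boxE Ξ (d, d') := by
  induction Ξ using Finsupp.induction_linear with
  | zero => simp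
  | add f g hf hg => simp only [map_add, Pi.add_apply, hf, hg]
  | single p a =>
    rw [boxE_single]
    simp only [contr2, Finsupp.linearCombination_single, map_smul, hcount_single, smul_eq_mul]
    ring

theorem hcount_slice (u : T) (d' : Dir T) (Ξ : V2 T) : hcount d' (slice u Ξ) = contr2 d' Ξ u := by
  classical
  induction Ξ using Finsupp.induction_linear with
  | zero => simp
  | add f g hf hg => simp only [map_add, Finsupp.add_apply, hf, hg]
  | single p a =>
    simp only [contr2, slice, Finsupp.linearCombination_single, map_smul, smul_eq_mul,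
      Finsupp.smul_apply]
    by_cases hp : p.1 = u
    · rw [if_pos hp, hcount_single, hp, Finsupp.single_eq_same, one_mul]
    · rw [if_neg hp, map_zero, Finsupp.single_eq_of_ne (Ne.symm hp)]

theorem slice_apply (u c : T) (Ξ : V2 T) : slice u Ξ c = Ξ (u, c) := by
  classical
  induction Ξ using Finsupp.induction_linear with
  | zero => simp
  | add f g hf hg => simp only [map_add, Finsupp.add_apply, hf, hg]
  | single p a =>
    simp only [slice, Finsupp.linearCombination_single, Finsupp.smul_apply, smul_eq_mul]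
    obtain ⟨p1, p2⟩ := p
    by_cases hp : p1 = u
    · subst hp
      rw [if_pos rfl]
      by_cases hc : p2 = c
      · subst hc; simp
      · rw [Finsupp.single_eq_of_ne (Ne.symm hc), Finsupp.single_eq_of_ne, mul_zero]
        intro he; exact hc (Prod.ext_iff.1 he).2.symm
    · rw [if_neg hp, Finsupp.single_eq_of_ne]
      · simp
      · intro he; exact hp (Prod.ext_iff.1 he).1.symm

/-- `E` is injective on `F₂[T × T]` (M1 twice) -/
theorem boxE_injective [Nontrivial T] (Ξ : V2 T) (h : boxE Ξ = 0) : Ξ = 0 := by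
  have h1 : ∀ d' : Dir T, contr2 d' Ξ = 0 := by
    intro d'
    apply hcount_injective
    intro d
    rw [hcount_contr2, h]; rfl
  ext ⟨u, c⟩
  have h2 : slice u Ξ = 0 := by
    apply hcount_injective
    intro d'
    rw [hcount_slice, h1]; rfl
  rw [← slice_apply, h2]; rfl

variable {Γ : Type} [Group Γ] [TreeAction Γ T]

theorem rho2_single (g : Γ) (p : T × T) (a : ZMod 2) :
    rho2 Γ T g (Finsupp.single p a) = Finsupp.single (g • p.1, g • p.2) a := by
  simp only [rho2, permRep_single]; rfl

theorem rho1_single (g : Γ) (u : T) (a : ZMod 2) :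
    rho1 Γ T g (Finsupp.single u a) = Finsupp.single (g • u) a := by
  simp [rho1]

theorem theta_smul (g : Γ) (o : T) (Ξ : V2 T) :
    theta (g • o) (rho2 Γ T g Ξ) = rho1 Γ T g (theta o Ξ) := by
  induction Ξ using Finsupp.induction_linear with
  | zero => simp
  | add f g hf hg => simp only [map_add, hf, hg]
  | single p a => rw [rho2_single, theta_single, theta_single, rho1_single, med_smul]

theorem pr1_smul (g : Γ) (Ξ : V2 T) : pr1 (rho2 Γ T g Ξ) = rho1 Γ T g (pr1 Ξ) := by
  induction Ξ using Finsupp.induction_linear with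
  | zero => simp
  | add f g hf hg => simp only [map_add, hf, hg]
  | single p a => rw [rho2_single, pr1_single, pr1_single, rho1_single]

theorem pr2_smul (g : Γ) (Ξ : V2 T) : pr2 (rho2 Γ T g Ξ) = rho1 Γ T g (pr2 Ξ) := by
  induction Ξ using Finsupp.induction_linear with
  | zero => simp
  | add f g hf hg => simp only [map_add, hf, hg]
  | single p a => rw [rho2_single, pr2_single, pr2_single, rho1_single]

theorem ind_inv_smul (g : Γ) (u : T) (d : Dir T) : ind u (g⁻¹ • d) = ind (g • u) d := by
  unfold ind
  have : u ∈ g⁻¹ • d ↔ g • u ∈ d := by rw [Dir.mem_smul, inv_inv]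
  by_cases h : g • u ∈ d
  · rw [if_pos h, if_pos (this.2 h)]
  · rw [if_neg h, if_neg (fun h' => h (this.1 h'))]

theorem boxE_smul (g : Γ) (Ξ : V2 T) :
    boxE (rho2 Γ T g Ξ) = funRep Γ (Dir T × Dir T) g (boxE Ξ) := by
  induction Ξ using Finsupp.induction_linear with
  | zero => simp
  | add f g hf hg => simp only [map_add, hf, hg]
  | single p a =>
    funext q
    rw [rho2_single, funRep_apply, boxE_single, boxE_single]
    simp only [Prod.smul_fst, Prod.smul_snd, ind_inv_smul]

theorem cnr_inv_smul (g : Γ) (q : Dir T × Dir T) : cnr (g⁻¹ • q) = cnr q := by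
  unfold cnr
  have h1 : (g⁻¹ • q).1.base = (g⁻¹ • q).2.base ↔ q.1.base = q.2.base := by
    simp only [Prod.smul_fst, Prod.smul_snd, Dir.smul_base]
    exact smul_left_cancel_iff _
  have h2 : (g⁻¹ • q).1 ≠ (g⁻¹ • q).2 ↔ q.1 ≠ q.2 := by
    simp only [Prod.smul_fst, Prod.smul_snd, ne_eq]
    rw [smul_left_cancel_iff]
  by_cases h : q.1.base = q.2.base ∧ q.1 ≠ q.2
  · rw [if_pos h, if_pos ⟨h1.2 h.1, h2.2 h.2⟩]
  · rw [if_neg h, if_neg (fun h' => h ⟨h1.1 h'.1, h2.1 h'.2⟩)]

theorem cornerE_smul (g : Γ) (Ξ : V2 T) :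
    cornerE (rho2 Γ T g Ξ) = funRep Γ (Dir T × Dir T) g (cornerE Ξ) := by
  funext q
  rw [funRep_apply, cornerE_eq, cornerE_eq, boxE_smul, funRep_apply, cnr_inv_smul]

end Claimed.Agent.R309.S6
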