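import Claimed.Agent.R309.S6.MDefs
import Claimed.Agent.R309.S6.TreeX_helper48

/-! # Row 309, S6 Machine, leaf M3: consequences of (T3) + torsion freeness -/

set_option autoImplicit false

namespace Claimed.Agent.R309.S6

open MedTree

variable {T : Type} [MedTree T] {Γ : Type} [Group Γ] [TreeAction Γ T]

omit [MedTree T] [TreeAction Γ T] in
theorem pow_injective_of_tf (htf : ∀ g : Γ, g ≠ 1 → ∀ n : ℕ, 0 < n → g ^ n ≠ 1) {g : Γ}
    (hg : g ≠ 1) : Function.Injective fun n : ℕ => g ^ n := by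
  intro n m hnm
  have hnm' : g ^ n = g ^ m := hnm
  by_contra hne
  rcases lt_or_gt_of_ne hne with hlt | hlt
  · refine htf g hg (m - n) (Nat.sub_pos_of_lt hlt) ?_
    have : g ^ m = g ^ (m - n) * g ^ n := by rw [← pow_add, Nat.sub_add_cancel hlt.le]
    rw [this] at hnm'
    exact (mul_eq_right.1 hnm'.symm)
  · refine htf g hg (n - m) (Nat.sub_pos_of_lt hlt) ?_
    have : g ^ n = g ^ (n - m) * g ^ m := by rw [← pow_add, Nat.sub_add_cancel hlt.le]
    rw [this] at hnm'
    exact (mul_eq_right.1 hnm')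

omit [MedTree T] [TreeAction Γ T] in
/-- an element all of whose powers lie in a finite set is trivial -/
theorem eq_one_of_pow_mem_finite (htf : ∀ g : Γ, g ≠ 1 → ∀ n : ℕ, 0 < n → g ^ n ≠ 1) {g : Γ}
    {A : Set Γ} (hA : A.Finite) (h : ∀ n : ℕ, g ^ n ∈ A) : g = 1 := by
  by_contra hg
  exact Set.infinite_of_injective_forall_mem (pow_injective_of_tf htf hg) h hA

/-- stabilisers of pairs are trivial: all powers of `g` lie in `{h | c,d ∈ [h c,h d]}`. -/
theorem pair_stab_trivial (htf : ∀ g : Γ, g ≠ 1 → ∀ n : ℕ, 0 < n → g ^ n ≠ 1)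
    (hM : MachineHyp Γ T) {c d : T} (hcd : c ≠ d) {g : Γ} (h1 : g • c = c) (h2 : g • d = d) :
    g = 1 := by
  have e1 : ∀ n : ℕ, g ^ n • c = c := by
    intro n
    induction n with
    | zero => simp
    | succ n ih => rw [pow_succ, mul_smul, h1, ih]
  have e2 : ∀ n : ℕ, g ^ n • d = d := by
    intro n
    induction n with
    | zero => simp
    | succ n ih => rw [pow_succ, mul_smul, h2, ih]
  refine eq_one_of_pow_mem_finite htf (hM.T3 c d c d hcd) fun n => ?_
  show Bet (g ^ n • c) c (g ^ n • d) ∧ Bet (g ^ n • c) d (g ^ n • d)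
  rw [e1 n, e2 n]
  exact ⟨bet_left _ _, bet_right _ _⟩

theorem eq_one_of_expanding (htf : ∀ g : Γ, g ≠ 1 → ∀ n : ℕ, 0 < n → g ^ n ≠ 1)
    (hM : MachineHyp Γ T) {z m : T} (hzm : z ≠ m) {g : Γ} (hz : g • z = z)
    (hm : Bet z m (g • m)) : g = 1 := by
  have e1 : ∀ n : ℕ, g ^ n • z = z := by
    intro n
    induction n with
    | zero => simp
    | succ n ih => rw [pow_succ, mul_smul, hz, ih]
  have e2 : ∀ n : ℕ, Bet z m (g ^ n • m) := by
    intro n
    induction n with
    | zero => simpa using bet_right z m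
    | succ n ih =>
      have := TreeAction.bet_smul g ih
      rw [hz, ← mul_smul, ← pow_succ'] at this
      exact bet_trans this hm
  refine eq_one_of_pow_mem_finite htf (hM.T3 z m z m hzm) fun n => ?_
  show Bet (g ^ n • z) z (g ^ n • m) ∧ Bet (g ^ n • z) m (g ^ n • m)
  rw [e1 n]
  exact ⟨bet_left _ _, e2 n⟩

/-- `Γ` acts freely on directions.  `g` fixes `z` and `dir_z(y)`: `m = med z y (g y) ≠ z`;
`m, g m ∈ [z, g y]` are comparable; if `m ∈ [z, g m]` then `z, m ∈ [g^n z, g^n m]` for all `n`,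
otherwise the same with `g⁻¹`. -/
theorem dir_free (htf : ∀ g : Γ, g ≠ 1 → ∀ n : ℕ, 0 < n → g ^ n ≠ 1)
    (hM : MachineHyp Γ T) (g : Γ) (d : Dir T) (h : g • d = d) : g = 1 := by
  obtain ⟨y, hy, hd⟩ := d.exists_rep
  set z := d.base with hzdef
  have hz : g • z = z := by
    have := congrArg Dir.base h
    simpa using this
  have hyd : y ∈ d := by rw [hd, mem_dirOf]; exact inDir_self hy
  have hgy : g • y ∈ d := by
    rw [← h, Dir.mem_smul, inv_smul_smul]; exact hyd
  have hi : InDir z y (g • y) := by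
    rw [hd, mem_dirOf] at hgy; exact hgy
  set m := med z y (g • y) with hmdef
  have hmz : z ≠ m := by
    intro he
    have := med_bet₂ z y (g • y)
    rw [← hmdef, ← he] at this
    exact hi.2 (bet_symm this)
  have b1 : Bet z m (g • y) := med_bet₃ z y (g • y)
  have b2 : Bet z (g • m) (g • y) := by
    have := TreeAction.bet_smul g (med_bet₁ z y (g • y))
    rwa [hz] at this
  rcases bet_comparable b1 b2 with hc | hc
  · exact eq_one_of_expanding htf hM hmz hz hc
  · have hz' : g⁻¹ • z = z := by rw [inv_smul_eq_iff, hz]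
    have hc' : Bet z m (g⁻¹ • m) := by
      have := TreeAction.bet_smul g⁻¹ hc
      rwa [hz', inv_smul_smul] at this
    have := eq_one_of_expanding htf hM hmz hz' hc'
    simpa using this

/-- a nonempty finite invariant set is a fixed point: the kernel of `Γ → Sym F` is infinite,
so nontrivial, and fixes `F` pointwise; use `pair_stab_trivial`. -/
theorem fixed_of_finite_invariant [Infinite Γ]
    (htf : ∀ g : Γ, g ≠ 1 → ∀ n : ℕ, 0 < n → g ^ n ≠ 1)
    (hM : MachineHyp Γ T) (F : Finset T) (hne : F.Nonempty) (hF : ∀ g : Γ, ∀ x ∈ F, g • x ∈ F) :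
    ∃ z : T, ∀ g : Γ, g • z = z := by
  classical
  let φ : Γ → ({x // x ∈ F} → {x // x ∈ F}) := fun g x => ⟨g • x.1, hF g x.1 x.2⟩
  obtain ⟨g, g', hgg', hφ⟩ := Finite.exists_ne_map_eq_of_infinite φ
  have hfix : ∀ x ∈ F, (g⁻¹ * g') • x = x := by
    intro x hx
    have := congrArg Subtype.val (congrFun hφ ⟨x, hx⟩)
    simp only [φ] at this
    rw [mul_smul, ← this, inv_smul_smul]
  have hne1 : g⁻¹ * g' ≠ 1 := by
    intro h1
    apply hgg'
    have := congrArg (g * ·) h1
    simpa using this.symm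
  obtain ⟨z, hz⟩ := hne
  refine ⟨z, fun k => ?_⟩
  by_contra hk
  exact hne1 (pair_stab_trivial htf hM hk (hfix _ (hF k z hz)) (hfix z hz))

end Claimed.Agent.R309.S6
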