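import Claimed.Agent.R309.S6.M1
import Claimed.Agent.R309.S6.LocFree

/-! # Row 309, S6 Machine, leaf M4: the cochain `χ` and elementary facts on `W0`, `NN` -/

set_option autoImplicit false
set_option linter.unusedSectionVars false

namespace Claimed.Agent.R309.S6

open MedTree

variable {T : Type} [MedTree T]

/-- `μ` lies strictly beyond `b`, seen from `a` -/
def Beyond (a b μ : T) : Prop := Bet a b μ ∧ μ ≠ b

/-- `(a + b) ⊗ (μ⁺ + μ⁻)` -/
noncomputable def chiEl (a b μp μm : T) : V2 T := bb a b μp + bb b a μm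

theorem pr1_bb (x y c : T) : pr1 (bb x y c) = Finsupp.single x 1 + Finsupp.single y 1 := by
  simp only [bb, map_add, pr1_single]

theorem pr2_bb (x y c : T) : pr2 (bb x y c) = 0 := by
  simp only [bb, map_add, pr2_single]
  exact z2_add_self _

theorem theta_bb (o x y c : T) :
    theta o (bb x y c) = Finsupp.single (med x c o) 1 + Finsupp.single (med y c o) 1 := by
  simp only [bb, map_add, theta_single]

theorem pr1_chiEl (a b μ μ' : T) : pr1 (chiEl a b μ μ') = 0 := by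
  unfold chiEl
  rw [map_add, pr1_bb, pr1_bb, add_comm (Finsupp.single b 1)]
  exact z2_add_self _

theorem pr2_W0 (Ξ : V2 T) (h : Ξ ∈ W0 T) : pr2 Ξ = 0 := by
  induction h using Submodule.span_induction with
  | mem v hv => obtain ⟨x, y, c, _, rfl⟩ := hv; exact pr2_bb x y c
  | zero => simp
  | add a b _ _ ha hb => rw [map_add, ha, hb, add_zero]
  | smul c a _ ha => rw [map_smul, ha, smul_zero]

theorem NN_le_W0 : NN T ≤ W0 T := by
  unfold NN
  rw [Submodule.span_le]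
  rintro _ ⟨x, y, c, c', h, h', rfl⟩
  exact Submodule.add_mem _ (Submodule.subset_span ⟨x, y, c, h, rfl⟩)
    (Submodule.subset_span ⟨x, y, c', h', rfl⟩)

theorem W1_le_NN : W1 T ≤ NN T := by
  unfold W1
  rw [Submodule.span_le]
  rintro _ ⟨x, y, c, c', ⟨hxy, hyc, hcc, h1, h2⟩, rfl⟩
  refine Submodule.subset_span ⟨x, y, c, c', ⟨hxy, bet_shift' h1 h2, hyc⟩, ⟨hxy, h1, ?_⟩, rfl⟩
  rintro rfl
  exact hyc (bet_self h2).symm

theorem pr1_NN (Ξ : V2 T) (h : Ξ ∈ NN T) : pr1 Ξ = 0 := by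
  induction h using Submodule.span_induction with
  | mem v hv =>
    obtain ⟨x, y, c, c', _, _, rfl⟩ := hv
    rw [map_add, pr1_bb, pr1_bb]; exact z2_add_self _
  | zero => simp
  | add a b _ _ ha hb => rw [map_add, ha, hb, add_zero]
  | smul c a _ ha => rw [map_smul, ha, smul_zero]

theorem theta_bb_ahead {x y c : T} (h : Ahead x y c) :
    theta x (bb x y c) = Finsupp.single x 1 + Finsupp.single y 1 := by
  rw [theta_bb, med_self_outer]
  have : med y c x = y := by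
    rw [med_comm₁₂, med_comm₁₃]
    exact med_eq_of_bet h.2.1
  rw [this]

/-- on a generator use the base point `x` : `θ_x ((x+y)⊗c) = x + y`; then `theta_indep`. -/
theorem theta_NN [Nontrivial T] (o : T) (Ξ : V2 T) (h : Ξ ∈ NN T) : theta o Ξ = 0 := by
  induction h using Submodule.span_induction with
  | mem v hv =>
    obtain ⟨x, y, c, c', h1, h2, rfl⟩ := hv
    rw [theta_indep _ (by rw [map_add, pr1_bb, pr1_bb]; exact z2_add_self _)
      (by rw [map_add, pr2_bb, pr2_bb, add_zero]) o x, map_add, theta_bb_ahead h1,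
      theta_bb_ahead h2]
    exact z2_add_self _
  | zero => simp
  | add a b _ _ ha hb => rw [map_add, ha, hb, add_zero]
  | smul c a _ ha => rw [map_smul, ha, smul_zero]

theorem bb_mem_W0_of_beyond {a b μ : T} (h : Beyond a b μ) : bb a b μ ∈ W0 T := by
  by_cases hab : a = b
  · subst hab; rw [bb_self]; exact Submodule.zero_mem _
  · exact Submodule.subset_span ⟨a, b, μ, ⟨hab, h.1, h.2.symm⟩, rfl⟩

theorem chiEl_mem_W0 {a b μ μ' : T} (h : Beyond a b μ) (h' : Beyond b a μ') :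
    chiEl a b μ μ' ∈ W0 T :=
  Submodule.add_mem _ (bb_mem_W0_of_beyond h) (bb_mem_W0_of_beyond h')

theorem theta_chiEl {a b μ μ' : T} (h : Beyond a b μ) (h' : Beyond b a μ') :
    theta a (chiEl a b μ μ') = Finsupp.single a 1 + Finsupp.single b 1 := by
  unfold chiEl
  rw [map_add, theta_bb, theta_bb, med_self_outer, med_self_outer]
  have e1 : med b μ a = b := by
    rw [med_comm₁₂, med_comm₁₃]
    exact med_eq_of_bet h.1
  have e2 : med b μ' a = a := by
    rw [med_comm₂₃]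
    exact med_eq_of_bet h'.1
  rw [e1, e2, z2_add_self, add_zero]

/-- total mass mod 2 -/
noncomputable def aug1 : V1 T →ₗ[ZMod 2] ZMod 2 := Finsupp.linearCombination (ZMod 2) fun _ => 1

theorem aug1_theta_W0 (o : T) (Ξ : V2 T) (h : Ξ ∈ W0 T) : aug1 (theta o Ξ) = 0 := by
  induction h using Submodule.span_induction with
  | mem v hv =>
    obtain ⟨x, y, c, _, rfl⟩ := hv
    rw [theta_bb]
    simp only [aug1, map_add, Finsupp.linearCombination_single, smul_eq_mul, mul_one]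
    decide
  | zero => simp
  | add a b _ _ ha hb => rw [map_add, map_add, ha, hb, add_zero]
  | smul c a _ ha => rw [map_smul, map_smul, ha, smul_zero]

theorem ahead_of_beyond {a b μ m : T} (h : Beyond a b μ) (hm : Bet a m b) (hne : a ≠ m) :
    Ahead a m μ := by
  refine ⟨hne, bet_trans h.1 hm, ?_⟩
  rintro rfl
  exact h.2 (bet_antisymm' hm h.1)

theorem ahead_of_beyond' {a b μ m : T} (h : Beyond a b μ) (hm : Bet a m b) (hne : m ≠ b) :
    Ahead m b μ :=
  ⟨hne, bet_shift h.1 hm, h.2.symm⟩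

theorem leg_in_mem_NN {a b b' μ μ' m : T} (h : Beyond a b μ) (h' : Beyond a b' μ')
    (hm : Bet a m b) (hm' : Bet a m b') : bb a m μ + bb a m μ' ∈ NN T := by
  by_cases hne : a = m
  · subst hne; rw [bb_self, bb_self, add_zero]; exact Submodule.zero_mem _
  · exact Submodule.subset_span
      ⟨a, m, μ, μ', ahead_of_beyond h hm hne, ahead_of_beyond h' hm' hne, rfl⟩

theorem leg_out_mem_NN {a a' b μ μ' m : T} (h : Beyond a b μ) (h' : Beyond a' b μ')
    (hm : Bet a m b) (hm' : Bet a' m b) : bb m b μ + bb m b μ' ∈ NN T := by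
  by_cases hne : m = b
  · subst hne; rw [bb_self, bb_self, add_zero]; exact Submodule.zero_mem _
  · exact Submodule.subset_span
      ⟨m, b, μ, μ', ahead_of_beyond' h hm hne, ahead_of_beyond' h' hm' hne, rfl⟩

/-- **M4 (tripod).**  With `m = med a b c`: the sum is
`(a+m)⊗(μ₁+μ₃) + (a+m)⊗(μ₁'+μ₃') + (b+m)⊗(μ₁+μ₂') + (b+m)⊗(μ₁'+μ₂) + (c+m)⊗(μ₂+μ₃) + (c+m)⊗(μ₂'+μ₃')`,
six marker changes (for the oriented pairs `(a,m),(m,a),(m,b),(b,m),(m,c),(c,m)`), a term being `0`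
when the leg is degenerate. -/
theorem tripod_mem_NN {a b c μ₁ μ₁' μ₂ μ₂' μ₃ μ₃' : T}
    (h1 : Beyond a b μ₁) (h1' : Beyond b a μ₁') (h2 : Beyond b c μ₂) (h2' : Beyond c b μ₂')
    (h3 : Beyond a c μ₃) (h3' : Beyond c a μ₃') :
    chiEl a b μ₁ μ₁' + chiEl b c μ₂ μ₂' + chiEl a c μ₃ μ₃' ∈ NN T := by
  set m := med a b c with hm
  have mab : Bet a m b := med_bet₁ a b c
  have mbc : Bet b m c := med_bet₂ a b c
  have mac : Bet a m c := med_bet₃ a b c
  have e : chiEl a b μ₁ μ₁' + chiEl b c μ₂ μ₂' + chiEl a c μ₃ μ₃' =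
      (bb a m μ₁ + bb a m μ₃) + (bb m a μ₁' + bb m a μ₃') + (bb m b μ₁ + bb m b μ₂') +
      (bb b m μ₁' + bb b m μ₂) + (bb m c μ₂ + bb m c μ₃) + (bb c m μ₂' + bb c m μ₃') := by
    unfold chiEl
    rw [bb_split a m b μ₁, bb_split b m a μ₁', bb_split b m c μ₂, bb_split c m b μ₂',
      bb_split a m c μ₃, bb_split c m a μ₃']
    abel
  rw [e]
  refine Submodule.add_mem _ (Submodule.add_mem _ (Submodule.add_mem _ (Submodule.add_mem _
    (Submodule.add_mem _ ?_ ?_) ?_) ?_) ?_) ?_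
  · exact leg_in_mem_NN h1 h3 mab mac
  · exact leg_out_mem_NN h1' h3' (bet_symm mab) (bet_symm mac)
  · exact leg_out_mem_NN h1 h2' mab (bet_symm mbc)
  · exact leg_in_mem_NN h1' h2 (bet_symm mab) mbc
  · exact leg_out_mem_NN h2 h3 mbc mac
  · exact leg_in_mem_NN h2' h3' (bet_symm mbc) (bet_symm mac)

variable {Γ : Type} [Group Γ] [TreeAction Γ T]

theorem rho2_chiEl (g : Γ) (a b μ μ' : T) :
    rho2 Γ T g (chiEl a b μ μ') = chiEl (g • a) (g • b) (g • μ) (g • μ') := by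
  unfold chiEl
  rw [map_add, rho2_bb, rho2_bb]

theorem Beyond.smul (g : Γ) {a b μ : T} (h : Beyond a b μ) : Beyond (g • a) (g • b) (g • μ) :=
  ⟨TreeAction.bet_smul g h.1, by simpa using h.2⟩

theorem W0_inv (g : Γ) (Ξ : V2 T) (h : Ξ ∈ W0 T) : rho2 Γ T g Ξ ∈ W0 T := by
  refine S6A.inv_span (rho2 Γ T) ?_ g Ξ h
  rintro g _ ⟨x, y, c, ha, rfl⟩
  exact ⟨g • x, g • y, g • c, ha.smul g, rho2_bb g x y c⟩

theorem NN_inv (g : Γ) (Ξ : V2 T) (h : Ξ ∈ NN T) : rho2 Γ T g Ξ ∈ NN T := by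
  refine S6A.inv_span (rho2 Γ T) ?_ g Ξ h
  rintro g _ ⟨x, y, c, c', ha, ha', rfl⟩
  exact ⟨g • x, g • y, g • c, g • c', ha.smul g, ha'.smul g, by rw [map_add, rho2_bb, rho2_bb]⟩

theorem W1_inv (g : Γ) (Ξ : V2 T) (h : Ξ ∈ W1 T) : rho2 Γ T g Ξ ∈ W1 T := by
  refine S6A.inv_span (rho2 Γ T) ?_ g Ξ h
  rintro g _ ⟨x, y, c, c', hb, rfl⟩
  exact ⟨g • x, g • y, g • c, g • c', hb.smul g, by rw [map_add, rho2_bb, rho2_bb]⟩

end Claimed.Agent.R309.S6
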