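import Claimed.Agent.R309.S6.M3
import Claimed.Agent.R309.S6.M4
import Claimed.Agent.R309.S6.LFExt
import Claimed.Agent.R309.S6.LFGraded

/-! # Row 309, S6 Machine, leaf M5: `W0` is locally free -/

set_option autoImplicit false

namespace Claimed.Agent.R309.S6

open MedTree

variable {T : Type} [MedTree T] {Γ : Type} [Group Γ] [TreeAction Γ T]

/-- **M5.**  `(x+y)⊗c` (`y ∈ [x,c]`, `y ≠ c`) is supported in `d × {c}`, `d = dir_c(x) ∋ y`.
Apply `locFree_of_graded` with `X = T × T`, `D = Dir T`, `R (u,c) d := d.base = c ∧ u ∈ d`, freeness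
= `dir_free`, and transfer along the injective map `Finsupp.lcoeFun` with `LocFree.of_injOn`. -/
theorem locFree_W0 (htf : ∀ g : Γ, g ≠ 1 → ∀ n : ℕ, 0 < n → g ^ n ≠ 1)
    (hM : MachineHyp Γ T) : LocFree (rho2 Γ T) (W0 T) := by
  classical
  let E : V2 T →ₗ[ZMod 2] (T × T → ZMod 2) := Finsupp.lcoeFun
  have hE : ∀ (g : Γ) (m : V2 T), E (rho2 Γ T g m) = funRep Γ (T × T) g (E m) := by
    intro g m
    funext x
    exact permRep_apply g m x
  refine LocFree.of_injOn (rho2 Γ T) (funRep Γ (T × T)) E hE (W0 T)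
    (fun n _ h => DFunLike.coe_injective h) W0_inv ?_
  have hmap : (W0 T).map E =
      Submodule.span (ZMod 2) (E '' {v : V2 T | ∃ x y c, Ahead x y c ∧ v = bb x y c}) := by
    unfold W0; rw [Submodule.map_span]
  rw [hmap]
  refine locFree_of_graded (dir_free htf hM)
    (fun (p : T × T) (d : Dir T) => d.base = p.2 ∧ p.1 ∈ d) ?_ ?_ _ ?_ ?_
  · rintro ⟨u, c⟩ d d' ⟨h1, h2⟩ ⟨h1', h2'⟩
    rw [Dir.eq_dirOf h2, Dir.eq_dirOf h2']
    simp only at h1 h1'
    refine Dir.ext (by simp [h1, h1']) fun v => ?_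
    simp only [mem_dirOf, h1, h1']
  · rintro g ⟨u, c⟩ d ⟨h1, h2⟩
    refine ⟨by simp only [Dir.smul_base, h1]; rfl, ?_⟩
    show g • u ∈ g • d
    rw [Dir.mem_smul, inv_smul_smul]; exact h2
  · rintro g _ ⟨_, ⟨x, y, c, ha, rfl⟩, rfl⟩
    exact ⟨_, ⟨g • x, g • y, g • c, ha.smul g, rfl⟩, by rw [← hE, rho2_bb]⟩
  · rintro _ ⟨_, ⟨x, y, c, ha, rfl⟩, rfl⟩
    have hxc : x ≠ c := by
      rintro rfl
      exact ha.1 (bet_self ha.2.1).symm
    refine ⟨dirOf c x hxc, ?_⟩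
    rintro ⟨u, k⟩ hp
    have hp' : (bb x y c) (u, k) ≠ 0 := hp
    simp only [bb, Finsupp.add_apply, Finsupp.single_apply] at hp'
    by_cases h1 : (x, c) = (u, k)
    · obtain ⟨rfl, rfl⟩ := Prod.ext_iff.1 h1
      exact ⟨rfl, inDir_self hxc⟩
    · by_cases h2 : (y, c) = (u, k)
      · obtain ⟨rfl, rfl⟩ := Prod.ext_iff.1 h2
        refine ⟨rfl, ha.2.2, fun hb => ?_⟩
        exact ha.2.2 (bet_antisymm' ha.2.1 (bet_symm hb))
      · rw [if_neg h1, if_neg h2] at hp'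
        exact absurd (add_zero _) hp'

end Claimed.Agent.R309.S6
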