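import Claimed.Agent.R309.S6.M3
import Claimed.Agent.R309.S6.M4
import Claimed.Agent.R309.S6.LFExt
import Claimed.Agent.R309.S6.LFBool
import Claimed.Agent.R309.S6.TreeX_helper48

/-! # Row 309, S6 Machine, leaf M6: `W1` (proper boxes) is locally free -/

set_option autoImplicit false

namespace Claimed.Agent.R309.S6

open MedTree

variable {T : Type} [MedTree T] {Γ : Type} [Group Γ] [TreeAction Γ T]

/-- `E((x+y)⊗(c+c'))(d,d') = ([x∈d]+[y∈d]) ([c∈d']+[c'∈d'])` -/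
theorem boxE_box (x y c c' : T) (q : Dir T × Dir T) :
    boxE (bb x y c + bb x y c') q =
      (open Classical in ((if x ∈ q.1 then 1 else 0) + (if y ∈ q.1 then 1 else 0)) *
        ((if c ∈ q.2 then 1 else 0) + (if c' ∈ q.2 then 1 else 0))) := by
  rw [boxE_bb2]; rfl

theorem maj_identity (a b a' b' : ZMod 2) :
    (a + b) * (a' + b') = (a * b + b * a' + a * a') + (a * b + b * b' + a * b') := by
  have h2 : (2 : ZMod 2) = 0 := by decide
  linear_combination (-(a * b)) * h2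

/-- product of two boxes: with `p = med x y x₁`, `q = med x y y₁`, `r = med c c' c₁`,
`s = med c c' c₁'`:  `E(box) * E(box₁) = E((p+q)⊗(r+s))`
(identity `(α+β)(α'+β') = maj(α,β,α') + maj(α,β,β')` and the majority rule). -/
theorem boxE_mul (x y c c' x₁ y₁ c₁ c₁' : T) :
    boxE (bb x y c + bb x y c') * boxE (bb x₁ y₁ c₁ + bb x₁ y₁ c₁') =
      boxE (bb (med x y x₁) (med x y y₁) (med c c' c₁) +
        bb (med x y x₁) (med x y y₁) (med c c' c₁')) := by
  funext q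
  rw [Pi.mul_apply, boxE_bb2, boxE_bb2, boxE_bb2, ind_med, ind_med, ind_med, ind_med,
    ← maj_identity, ← maj_identity]
  ring

theorem box_of_chain {x y c c' p q r s : T} (h : Box x y c c') (hpq : Bet x p q) (hq : Bet x q y)
    (hrs : Bet c r s) (hs : Bet c s c') (hne : p ≠ q) (hne' : r ≠ s) : Box p q r s := by
  obtain ⟨_, hyc, _, h1, h2⟩ := h
  have a1 : Bet x q c' := bet_trans h1 hq
  have a2 : Bet q y c' := bet_shift h1 hq
  have a3 : Bet q c c' := bet_trans' a2 h2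
  have a4 : Bet q y c := bet_shift' a2 h2
  have a5 : Bet q s c' := bet_trans' a3 hs
  have a6 : Bet q c s := bet_shift' a3 hs
  have a7 : Bet q r s := bet_trans' a6 hrs
  have a8 : Bet q c r := bet_shift' a6 hrs
  have a9 : Bet x q s := bet_shift' a1 a5
  refine ⟨hne, ?_, hne', bet_shift a9 hpq, a7⟩
  rintro rfl
  have hc : c = q := bet_self a8
  subst hc
  exact hyc (bet_self a4)

/-- `p,q ∈ [x,y]`, `r,s ∈ [c,c']`, `x<y<c<c'`: `(p+q)⊗(r+s)` is `0` or a proper box -/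
theorem subbox_mem_W1 {x y c c' p q r s : T} (h : Box x y c c') (hp : Bet x p y) (hq : Bet x q y)
    (hr : Bet c r c') (hs : Bet c s c') : bb p q r + bb p q s ∈ W1 T := by
  by_cases hpq : p = q
  · subst hpq; simp [bb_self]
  by_cases hrs : r = s
  · subst hrs; rw [z2_add_self]; exact Submodule.zero_mem _
  have gen : ∀ {p q r s : T}, Box p q r s → bb p q r + bb p q s ∈ W1 T := fun {p q r s} hb =>
    Submodule.subset_span ⟨p, q, r, s, hb, rfl⟩
  rcases bet_comparable hp hq with h1 | h1 <;> rcases bet_comparable hr hs with h2 | h2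
  · exact gen (box_of_chain h h1 hq h2 hs hpq hrs)
  · rw [add_comm]
    exact gen (box_of_chain h h1 hq h2 hr hpq (Ne.symm hrs))
  · rw [bb_comm p q r, bb_comm p q s]
    exact gen (box_of_chain h h1 hp h2 hs (Ne.symm hpq) hrs)
  · rw [bb_comm p q r, bb_comm p q s, add_comm]
    exact gen (box_of_chain h h1 hp h2 hr (Ne.symm hpq) (Ne.symm hrs))

theorem rho2_bb2 (g : Γ) (x y c c' : T) : rho2 Γ T g (bb x y c + bb x y c') =
    bb (g • x) (g • y) (g • c) + bb (g • x) (g • y) (g • c') := by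
  rw [map_add, rho2_bb, rho2_bb]

theorem bet_base_of_ind {x y : T} {d : Dir T} (h : ind x d + ind y d ≠ 0) : Bet x d.base y := by
  rcases ind_add_ne_zero.1 h with ⟨h1, h2⟩ | ⟨h1, h2⟩
  · exact Dir.bet_of_sep h1 h2
  · exact bet_symm (Dir.bet_of_sep h2 h1)

/-- properness: if the product is nonzero then `med x y (g x₁) ≠ med x y (g y₁)` and
`med c c' (g c₁) ≠ med c c' (g c₁')`, so `[g x₁, g c₁']` contains `y` and `c`; (T3). -/
theorem box_proper (hM : MachineHyp Γ T) {x y c c' x₁ y₁ c₁ c₁' : T} (h : Box x y c c')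
    (h₁ : Box x₁ y₁ c₁ c₁') :
    {g : Γ | boxE (bb x y c + bb x y c') *
      funRep Γ (Dir T × Dir T) g (boxE (bb x₁ y₁ c₁ + bb x₁ y₁ c₁')) ≠ 0}.Finite := by
  refine (hM.T3 x₁ c₁' y c h.2.1).subset ?_
  intro g hg
  obtain ⟨q, hq⟩ := Function.ne_iff.1 hg
  rw [← boxE_smul, rho2_bb2, Pi.mul_apply, boxE_bb2, boxE_bb2, Pi.zero_apply] at hq
  have f1 : ind x q.1 + ind y q.1 ≠ 0 := by
    intro h0; apply hq; rw [h0]; ring
  have f2 : ind c q.2 + ind c' q.2 ≠ 0 := by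
    intro h0; apply hq; rw [h0]; ring
  have f3 : ind (g • x₁) q.1 + ind (g • y₁) q.1 ≠ 0 := by
    intro h0; apply hq; rw [h0]; ring
  have f4 : ind (g • c₁) q.2 + ind (g • c₁') q.2 ≠ 0 := by
    intro h0; apply hq; rw [h0]; ring
  have b1 := bet_base_of_ind f1
  have b2 := bet_base_of_ind f2
  have b3 := bet_base_of_ind f3
  have b4 := bet_base_of_ind f4
  obtain ⟨_, _, _, H1, H2⟩ := h₁.smul g
  obtain ⟨_, _, _, h1, h2⟩ := h
  -- base points lie on `[g x₁, g c₁']`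
  have e1 : Bet (g • x₁) q.1.base (g • c₁') := bet_trans H1 b3
  have e2 : Bet (g • x₁) q.2.base (g • c₁') := bet_trans' (bet_trans' H1 H2) b4
  -- `y, c ∈ [z, z']`
  have c1 : Bet q.1.base y c' := bet_shift h1 b1
  have c2 : Bet y q.2.base c' := bet_trans' h2 b2
  have c3 : Bet y c q.2.base := bet_shift' h2 b2
  have c4 : Bet q.1.base y q.2.base := bet_shift' c1 c2
  have c5 : Bet q.1.base c q.2.base := bet_trans' c4 c3
  exact ⟨bet_convex e1 e2 c4, bet_convex e1 e2 c5⟩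

/-- **M6.**  `locFree_of_boolean` for `G = E '' {boxes}`, then `LocFree.of_injOn` with
`boxE_injective`, `boxE_smul`. -/
theorem locFree_W1 [Nontrivial T] (htf : ∀ g : Γ, g ≠ 1 → ∀ n : ℕ, 0 < n → g ^ n ≠ 1)
    (hM : MachineHyp Γ T) : LocFree (rho2 Γ T) (W1 T) := by
  refine LocFree.of_injOn (rho2 Γ T) (funRep Γ (Dir T × Dir T)) boxE (fun g m => boxE_smul g m)
    (W1 T) (fun n _ h => boxE_injective n h) W1_inv ?_
  have hmap : (W1 T).map boxE = Submodule.span (ZMod 2)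
      (boxE '' {v : V2 T | ∃ x y c c', Box x y c c' ∧ v = bb x y c + bb x y c'}) := by
    unfold W1; rw [Submodule.map_span]
  rw [hmap]
  refine locFree_of_boolean htf _ ?_ ?_ ?_
  · rintro g _ ⟨_, ⟨x, y, c, c', hb, rfl⟩, rfl⟩
    refine ⟨_, ⟨g • x, g • y, g • c, g • c', hb.smul g, rfl⟩, ?_⟩
    rw [← boxE_smul, rho2_bb2]
  · rintro _ ⟨_, ⟨x, y, c, c', hb, rfl⟩, rfl⟩ _ ⟨_, ⟨x₁, y₁, c₁, c₁', _, rfl⟩, rfl⟩
    rw [boxE_mul, ← hmap]
    exact Submodule.mem_map_of_mem (subbox_mem_W1 hb (med_bet₁ _ _ _) (med_bet₁ _ _ _)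
      (med_bet₁ _ _ _) (med_bet₁ _ _ _))
  · rintro _ ⟨_, ⟨x, y, c, c', hb, rfl⟩, rfl⟩ _ ⟨_, ⟨x₁, y₁, c₁, c₁', hb₁, rfl⟩, rfl⟩
    exact box_proper hM hb hb₁

end Claimed.Agent.R309.S6
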