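import Mathlib

/-!
# Row 309, new Section 6 (architect: helper3).  File 2: median trees

`MedTree T`: a set with a betweenness relation `Bet x y z` (read: `y ∈ [x,z]`) and medians.
No topology, no metric.  All "tree" arguments of the new Section 6 are done from these axioms.

`InDir z t u`: `u` lies in the direction of `t` at `z` (`u ≠ z` and `z ∉ [u,t]`).
For `t ≠ z` this is an equivalence class of `T \ {z}`; directions and their complements are convex,
whence the MAJORITY RULE `inDir_med`.
-/

set_option autoImplicit false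

namespace Claimed.Agent.R309.S6

/-- median trees -/
class MedTree (T : Type) where
  /-- `Bet x y z` : `y ∈ [x,z]` -/
  Bet : T → T → T → Prop
  bet_left : ∀ x z, Bet x x z
  bet_symm : ∀ {x y z}, Bet x y z → Bet z y x
  bet_self : ∀ {x y}, Bet x y x → y = x
  /-- (I2) `z ∈ [x,y]`, `w ∈ [x,z]` imply `w ∈ [x,y]` -/
  bet_trans : ∀ {x y z w}, Bet x z y → Bet x w z → Bet x w y
  /-- (I3) `z ∈ [x,y]`, `w ∈ [x,z]`, `w ∈ [z,y]` imply `w = z` -/
  bet_antisymm : ∀ {x y z w}, Bet x z y → Bet x w z → Bet z w y → w = z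
  /-- (I4) `[x,y] ⊆ [x,z] ∪ [z,y]` -/
  bet_cases : ∀ {x y w} (z), Bet x w y → Bet x w z ∨ Bet z w y
  med : T → T → T → T
  med_bet₁ : ∀ x y z, Bet x (med x y z) y
  med_bet₂ : ∀ x y z, Bet y (med x y z) z
  med_bet₃ : ∀ x y z, Bet x (med x y z) z

export MedTree (Bet med)

namespace MedTree

variable {T : Type} [MedTree T]

theorem bet_right (x z : T) : Bet x z z := bet_symm (bet_left z x)

theorem bet_comm {x y z : T} : Bet x y z ↔ Bet z y x := ⟨bet_symm, bet_symm⟩

/-- two points of an interval which lie before each other coincide -/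
theorem bet_antisymm' {x z w : T} (h1 : Bet x w z) (h2 : Bet x z w) : w = z :=
  bet_antisymm h2 h1 (bet_right z w)

/-- `z ∈ [x,y]`, `w ∈ [x,z]` imply `z ∈ [w,y]` -/
theorem bet_shift {x y z w : T} (h1 : Bet x z y) (h2 : Bet x w z) : Bet w z y := by
  rcases bet_cases w h1 with h | h
  · have := bet_antisymm' h2 h
    subst this; exact bet_left _ _
  · exact h

/-- uniqueness of medians -/
theorem med_unique {x y z m : T} (h1 : Bet x m y) (h2 : Bet y m z) (h3 : Bet x m z) :
    m = med x y z := by
  set n := med x y z with hn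
  have n1 : Bet x n y := med_bet₁ x y z
  have n2 : Bet y n z := med_bet₂ x y z
  have n3 : Bet x n z := med_bet₃ x y z
  -- `m ∈ [x,n]` or `m ∈ [n,y]`, etc.
  rcases bet_cases n h1 with a | a
  · rcases bet_cases n h2 with b | b
    · exact bet_antisymm n1 a (bet_symm b)
    · exact bet_antisymm n3 a b
  · rcases bet_cases n h3 with b | b
    · exact bet_antisymm n1 b a
    · exact bet_antisymm n2 (bet_symm a) b

theorem med_eq_of_bet {x y z : T} (h : Bet x y z) : med x y z = y :=
  (med_unique (bet_right x y) (bet_left y z) h).symm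

theorem bet_iff_med {x y z : T} : Bet x y z ↔ med x y z = y :=
  ⟨med_eq_of_bet, fun h => h ▸ med_bet₃ x y z⟩

theorem med_comm₁₂ (x y z : T) : med x y z = med y x z :=
  med_unique (bet_symm (med_bet₁ x y z)) (med_bet₃ x y z) (med_bet₂ x y z)

theorem med_comm₂₃ (x y z : T) : med x y z = med x z y :=
  med_unique (med_bet₃ x y z) (bet_symm (med_bet₂ x y z)) (med_bet₁ x y z)

theorem med_comm₁₃ (x y z : T) : med x y z = med z y x :=
  med_unique (bet_symm (med_bet₂ x y z)) (bet_symm (med_bet₁ x y z)) (bet_symm (med_bet₃ x y z))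

@[simp] theorem med_self_left (x z : T) : med x x z = x :=
  (med_unique (bet_left x x) (bet_left x z) (bet_left x z)).symm

@[simp] theorem med_self_right (x z : T) : med x z z = z :=
  (med_unique (bet_right x z) (bet_left z z) (bet_right x z)).symm

@[simp] theorem med_self_outer (x z : T) : med x z x = x :=
  (med_unique (bet_left x z) (bet_right z x) (bet_left x x)).symm

/-- `u` lies in the direction of `t` at `z` -/
def InDir (z t u : T) : Prop := u ≠ z ∧ ¬ Bet u z t

theorem inDir_self {z t : T} (h : t ≠ z) : InDir z t t :=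
  ⟨h, fun hb => h (bet_self hb).symm⟩

theorem InDir.ne {z t u : T} (h : InDir z t u) : u ≠ z := h.1

theorem InDir.ne' {z t u : T} (h : InDir z t u) : t ≠ z := by
  rintro rfl; exact h.2 (bet_right _ _)

theorem InDir.symm {z t u : T} (h : InDir z t u) : InDir z u t :=
  ⟨h.ne', fun hb => h.2 (bet_symm hb)⟩

theorem InDir.trans {z t u v : T} (h1 : InDir z t u) (h2 : InDir z u v) : InDir z t v :=
  ⟨h2.1, fun hb => by
    rcases bet_cases u hb with h | h
    · exact h2.2 h
    · exact h1.2 h⟩

/-- membership in a direction only depends on the direction -/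
theorem inDir_congr {z t t' : T} (h : InDir z t t') (u : T) : InDir z t u ↔ InDir z t' u :=
  ⟨fun hu => h.symm.trans hu, fun hu => h.trans hu⟩

/-- not in the direction of `t` (`t ≠ z`): `z ∈ [u,t]` -/
theorem not_inDir_iff {z t u : T} : ¬ InDir z t u ↔ Bet u z t := by
  constructor
  · intro h
    by_contra hb
    exact h ⟨by rintro rfl; exact hb (bet_left _ _), hb⟩
  · intro hb h
    exact h.2 hb

/-- directions are convex -/
theorem InDir.convex {z t u v m : T} (hu : InDir z t u) (hv : InDir z t v) (hm : Bet u m v) :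
    InDir z t m := by
  have huv : InDir z u v := hu.symm.trans hv
  have hne : m ≠ z := by rintro rfl; exact huv.2 (bet_symm hm)
  refine hu.trans ⟨hne, fun hb => huv.2 (bet_symm ?_)⟩
  -- `m ∈ [u,v]`, `z ∈ [u,m]` so `z ∈ [u,v]`
  exact bet_trans hm (bet_symm hb)

/-- complements of directions are convex -/
theorem not_inDir_convex {z t u v m : T} (hu : ¬ InDir z t u) (hv : ¬ InDir z t v)
    (hm : Bet u m v) : ¬ InDir z t m := by
  intro h
  have hu' : ¬ InDir z m u := fun h' => hu (h.trans h')
  have hv' : ¬ InDir z m v := fun h' => hv (h.trans h')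
  rw [not_inDir_iff] at hu' hv'
  exact h.1 (bet_antisymm hm hu' (bet_symm hv')).symm

/-- **majority rule** -/
theorem inDir_med {z t u v w : T} :
    InDir z t (med u v w) ↔
      (InDir z t u ∧ InDir z t v) ∨ (InDir z t v ∧ InDir z t w) ∨ (InDir z t u ∧ InDir z t w) := by
  constructor
  · intro h
    by_contra hc
    push_neg at hc
    obtain ⟨h1, h2, h3⟩ := hc
    by_cases hu : InDir z t u
    · exact not_inDir_convex (h1 hu) (h3 hu) (med_bet₂ u v w) h
    · by_cases hv : InDir z t v
      · exact not_inDir_convex hu (h2 hv) (med_bet₃ u v w) h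
      · exact not_inDir_convex hu hv (med_bet₁ u v w) h
  · rintro (⟨h1, h2⟩ | ⟨h1, h2⟩ | ⟨h1, h2⟩)
    · exact h1.convex h2 (med_bet₁ u v w)
    · exact h1.convex h2 (med_bet₂ u v w)
    · exact h1.convex h2 (med_bet₃ u v w)

end MedTree

end Claimed.Agent.R309.S6
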