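import Claimed.Agent.R309.S6.Coh
import Claimed.Agent.R309.S6.Tree

/-!
# Row 309, new Section 6 (architect: helper3).  File 3: definitions for the MACHINE

MACHINE: `Γ` with `CohHyp`, acting by automorphisms on a median tree `T` such that every segment can
be prolonged (`nonterminal`) and (T3) `{g | c,d ∈ [g a, g b]}` is finite for `c ≠ d`.
Then `Γ` fixes a point of `T`.

Everything happens inside `V2 T = F₂[T × T]` and `V1 T = F₂[T]`.
-/

set_option autoImplicit false

namespace Claimed.Agent.R309.S6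

open MedTree

/-- action by automorphisms of a median tree -/
class TreeAction (Γ : Type) (T : Type) [Group Γ] [MedTree T] extends MulAction Γ T where
  bet_smul : ∀ (g : Γ) {x y z : T}, Bet x y z → Bet (g • x) (g • y) (g • z)

section action

variable {Γ : Type} [Group Γ] {T : Type} [MedTree T] [TreeAction Γ T]

theorem bet_smul_iff (g : Γ) {x y z : T} : Bet (g • x) (g • y) (g • z) ↔ Bet x y z := by
  constructor
  · intro h
    have := TreeAction.bet_smul g⁻¹ h
    simpa using this
  · exact TreeAction.bet_smul g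

theorem med_smul (g : Γ) (x y z : T) : g • med x y z = med (g • x) (g • y) (g • z) :=
  med_unique (TreeAction.bet_smul g (med_bet₁ x y z)) (TreeAction.bet_smul g (med_bet₂ x y z))
    (TreeAction.bet_smul g (med_bet₃ x y z))

theorem inDir_smul_iff (g : Γ) {z t u : T} : InDir (g • z) (g • t) (g • u) ↔ InDir z t u := by
  unfold InDir
  rw [bet_smul_iff, Ne, smul_left_cancel_iff]

end action

/-- the hypotheses of the machine -/
structure MachineHyp (Γ : Type) (T : Type) [Group Γ] [MedTree T] [TreeAction Γ T] : Prop where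
  nonterminal : ∀ x y : T, x ≠ y → ∃ c, c ≠ y ∧ Bet x y c
  T3 : ∀ a b c d : T, c ≠ d → {g : Γ | Bet (g • a) c (g • b) ∧ Bet (g • a) d (g • b)}.Finite

/-! ### directions as a type -/

/-- a direction: a base point and a class of `T \ {base}` -/
structure Dir (T : Type) [MedTree T] where
  base : T
  carrier : Set T
  rep' : ∃ t, t ≠ base ∧ carrier = {u | InDir base t u}

section dir

variable {T : Type} [MedTree T]

instance : Membership T (Dir T) := ⟨fun d u => u ∈ d.carrier⟩

theorem Dir.mem_def {d : Dir T} {u : T} : u ∈ d ↔ u ∈ d.carrier := Iff.rfl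

@[ext] theorem Dir.ext {d e : Dir T} (h1 : d.base = e.base) (h2 : ∀ u, u ∈ d ↔ u ∈ e) : d = e := by
  cases d; cases e
  simp only [Dir.mk.injEq]
  exact ⟨h1, Set.ext h2⟩

/-- the direction of `t` at `z` -/
def dirOf (z t : T) (h : t ≠ z) : Dir T := ⟨z, {u | InDir z t u}, t, h, rfl⟩

@[simp] theorem mem_dirOf {z t u : T} (h : t ≠ z) : u ∈ dirOf z t h ↔ InDir z t u := Iff.rfl

@[simp] theorem dirOf_base {z t : T} (h : t ≠ z) : (dirOf z t h).base = z := rfl

theorem Dir.exists_rep (d : Dir T) : ∃ (t : T) (h : t ≠ d.base), d = dirOf d.base t h := by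
  obtain ⟨t, h, hc⟩ := d.rep'
  exact ⟨t, h, Dir.ext rfl fun u => by rw [Dir.mem_def, hc]; rfl⟩

variable {Γ : Type} [Group Γ] [TreeAction Γ T]

instance : SMul Γ (Dir T) :=
  ⟨fun g d => ⟨g • d.base, {u | g⁻¹ • u ∈ d}, by
    obtain ⟨t, h, hc⟩ := d.rep'
    refine ⟨g • t, by simpa using h, ?_⟩
    ext u
    simp only [Set.mem_ofPred_eq, Dir.mem_def, hc]
    rw [← inDir_smul_iff g (z := d.base)]
    simp⟩⟩

@[simp] theorem Dir.smul_base (g : Γ) (d : Dir T) : (g • d).base = g • d.base := rfl

@[simp] theorem Dir.mem_smul (g : Γ) (d : Dir T) (u : T) : u ∈ g • d ↔ g⁻¹ • u ∈ d := Iff.rfl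

instance : MulAction Γ (Dir T) where
  one_smul d := Dir.ext (by simp) (by simp)
  mul_smul g h d := Dir.ext (by simp [mul_smul]) (by simp [mul_smul])

end dir

/-! ### representations on function spaces -/

/-- the translation representation on all functions `X → F₂` -/
def funRep (Γ X : Type) [Group Γ] [MulAction Γ X] : Representation (ZMod 2) Γ (X → ZMod 2) where
  toFun g :=
    { toFun := fun f x => f (g⁻¹ • x)
      map_add' := fun _ _ => rfl
      map_smul' := fun _ _ => rfl }
  map_one' := by ext f x; simp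
  map_mul' g h := by ext f x; simp [mul_smul]

@[simp] theorem funRep_apply {Γ X : Type} [Group Γ] [MulAction Γ X] (g : Γ) (f : X → ZMod 2)
    (x : X) : funRep Γ X g f x = f (g⁻¹ • x) := rfl

/-- the permutation representation on `F₂[X]` -/
noncomputable def permRep (Γ X : Type) [Group Γ] [MulAction Γ X] :
    Representation (ZMod 2) Γ (X →₀ ZMod 2) where
  toFun g := Finsupp.lmapDomain (ZMod 2) (ZMod 2) (g • ·)
  map_one' := by ext x; simp
  map_mul' g h := by ext x; simp [mul_smul]

@[simp] theorem permRep_single {Γ X : Type} [Group Γ] [MulAction Γ X] (g : Γ) (x : X)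
    (a : ZMod 2) : permRep Γ X g (Finsupp.single x a) = Finsupp.single (g • x) a := by
  simp [permRep]

theorem permRep_apply {Γ X : Type} [Group Γ] [MulAction Γ X] (g : Γ) (f : X →₀ ZMod 2) (x : X) :
    permRep Γ X g f x = f (g⁻¹ • x) := by
  induction f using Finsupp.induction_linear with
  | zero => simp
  | add f₁ f₂ h₁ h₂ => simp [h₁, h₂]
  | single y a =>
    rw [permRep_single]
    by_cases h : g • y = x
    · subst h; simp
    · rw [Finsupp.single_eq_of_ne, Finsupp.single_eq_of_ne]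
      · intro h'; apply h; rw [← h']; simp
      · exact fun h' => h h'.symm

/-! ### the modules -/

noncomputable section

open Classical

variable (T : Type) [MedTree T]

abbrev V1 := T →₀ ZMod 2
abbrev V2 := (T × T) →₀ ZMod 2

variable {T}

/-- `(x + y) ⊗ c` -/
def bb (x y c : T) : V2 T := Finsupp.single (x, c) 1 + Finsupp.single (y, c) 1

/-- the marker `c` is ahead of the oriented pair `(x,y)` -/
def Ahead (x y c : T) : Prop := x ≠ y ∧ Bet x y c ∧ y ≠ c

/-- `x < y < c < c'` on a line -/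
def Box (x y c c' : T) : Prop := x ≠ y ∧ y ≠ c ∧ c ≠ c' ∧ Bet x y c' ∧ Bet y c c'

variable (T)

def W0 : Submodule (ZMod 2) (V2 T) :=
  Submodule.span _ {v | ∃ x y c, Ahead x y c ∧ v = bb x y c}

/-- marker changes -/
def NN : Submodule (ZMod 2) (V2 T) :=
  Submodule.span _ {v | ∃ x y c c', Ahead x y c ∧ Ahead x y c' ∧ v = bb x y c + bb x y c'}

/-- proper boxes -/
def W1 : Submodule (ZMod 2) (V2 T) :=
  Submodule.span _ {v | ∃ x y c c', Box x y c c' ∧ v = bb x y c + bb x y c'}

variable {T}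

def pr1 : V2 T →ₗ[ZMod 2] V1 T := Finsupp.lmapDomain _ _ Prod.fst
def pr2 : V2 T →ₗ[ZMod 2] V1 T := Finsupp.lmapDomain _ _ Prod.snd

/-- `θ_o (u,c) = med(u,c,o)` -/
def theta (o : T) : V2 T →ₗ[ZMod 2] V1 T := Finsupp.lmapDomain _ _ fun p => med p.1 p.2 o

/-- `h_ξ(d) = |ξ ∩ d|` -/
def hcount (d : Dir T) : V1 T →ₗ[ZMod 2] ZMod 2 :=
  Finsupp.linearCombination (ZMod 2) fun u => if u ∈ d then 1 else 0

/-- `E(Ξ)(d,d') = |Ξ ∩ d × d'|` -/
def boxE : V2 T →ₗ[ZMod 2] (Dir T × Dir T → ZMod 2) :=
  Finsupp.linearCombination (ZMod 2) fun p : T × T => fun q : Dir T × Dir T =>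
    if p.1 ∈ q.1 ∧ p.2 ∈ q.2 then 1 else 0

/-- `E'` : `E` restricted to pairs of distinct directions at one point -/
def cornerE : V2 T →ₗ[ZMod 2] (Dir T × Dir T → ZMod 2) :=
  Finsupp.linearCombination (ZMod 2) fun p : T × T => fun q : Dir T × Dir T =>
    if q.1.base = q.2.base ∧ q.1 ≠ q.2 ∧ p.1 ∈ q.1 ∧ p.2 ∈ q.2 then 1 else 0

def rho1 (Γ T : Type) [Group Γ] [MedTree T] [TreeAction Γ T] :
    Representation (ZMod 2) Γ (V1 T) := permRep Γ T

def rho2 (Γ T : Type) [Group Γ] [MedTree T] [TreeAction Γ T] :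
    Representation (ZMod 2) Γ (V2 T) := permRep Γ (T × T)

end

end Claimed.Agent.R309.S6
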